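import Vale.Agent.P073.H936.Thick

/-!
# P073, block H936: adding a thick collar, replacing thick discs
-/

open Set Metric Topology Filter

namespace P073.H936

open P073

variable {E F G : Type*} [NormedAddCommGroup E] [NormedSpace ℝ E]
  [NormedAddCommGroup F] [NormedSpace ℝ F] [NormedAddCommGroup G] [NormedSpace ℝ G]

/-- the product of `closedBall 0 1` with the level interval is a thick disc in every product -/
theorem thick_prod {n : ℕ} {C B : Set E} (h : ConBall n C B) :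
    Thick n (C ×ˢ Icc (-1:ℝ) 1) (fun p => p.2) (B ×ˢ Icc (-1:ℝ) 1) := by
  obtain ⟨hBC, φ, hφ⟩ := h
  refine ⟨prod_mono hBC (Subset.refl _), φ.prod (ConHomeo.refl (conicalSet_Icc _ _)),
    fun _ _ => rfl, ?_⟩
  ext ⟨x, t⟩
  constructor
  · rintro ⟨⟨y, s⟩, ⟨hy, hs⟩, h⟩
    have h1 : (φ.toFun y, s) = (x, t) := h
    rw [Prod.mk.injEq] at h1
    refine ⟨?_, h1.2 ▸ hs⟩
    rw [← hφ, ← h1.1]
    exact mem_image_of_mem _ hy
  · rintro ⟨hx, ht⟩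
    rw [← hφ] at hx
    obtain ⟨y, hy, hyx⟩ := hx
    exact ⟨(y, t), ⟨hy, ht⟩, Prod.ext hyx rfl⟩

/-- **Adding a thick collar** (T5).  `J` is a conical copy of `S × [0,1] × [-1,1]` (`S` a sphere),
with the last coordinate as the level; it is attached to the thick disc `D` along `S × {0} × [-1,1]`.
-/
theorem Thick.add_collar {n : ℕ} (hn : 0 < n) {D : Set E} {b : E → ℝ} {L : Set E}
    (hD : Thick n D b L) {S : Set F} (hS : Nonempty (ConHomeo S (sphere (0 : Fin n → ℝ) 1)))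
    {J : Set E} (ψ : ConHomeo (S ×ˢ (Icc (0:ℝ) 1 ×ˢ Icc (-1:ℝ) 1)) J)
    (hψ : ∀ q ∈ S ×ˢ (Icc (0:ℝ) 1 ×ˢ Icc (-1:ℝ) 1), b (ψ.toFun q) = q.2.2)
    (hJD : J ∩ D = L) (hL : ψ.toFun '' (S ×ˢ ({0} ×ˢ Icc (-1:ℝ) 1)) = L) :
    Thick n (J ∪ D) b (ψ.toFun '' (S ×ˢ ({1} ×ˢ Icc (-1:ℝ) 1))) := by
  obtain ⟨σ⟩ := hS
  have : Nonempty (Fin n) := ⟨⟨0, hn⟩⟩
  have hSc : ConicalSet S := σ.conicalSet_left
  have hScomp : IsCompact S := σ.symm.isCompact_right (isCompact_sphere _ _)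
  -- the model collar
  set A : Set (Fin n → ℝ) := {x : Fin n → ℝ | ‖x‖ ∈ Icc (1 / 2 : ℝ) 1} with hA
  have hclA : IsClosed A := (isClosed_Icc (a := (1/2:ℝ)) (b := 1)).preimage continuous_norm
  -- reassociation
  let as : ConHomeo (S ×ˢ (Icc (0:ℝ) 1 ×ˢ Icc (-1:ℝ) 1)) ((S ×ˢ Icc (0:ℝ) 1) ×ˢ Icc (-1:ℝ) 1) :=
    { toFun := fun q => ((q.1, q.2.1), q.2.2)
      invFun := fun q => (q.1.1, (q.1.2, q.2))
      mapsTo := fun q hq => ⟨⟨hq.1, hq.2.1⟩, hq.2.2⟩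
      mapsTo_inv := fun q hq => ⟨hq.1.1, ⟨hq.1.2, hq.2⟩⟩
      left_inv := fun q _ => rfl
      right_inv := fun q _ => rfl
      cont := by fun_prop
      cont_inv := by fun_prop
      conical := by
        have hc : ConicalSet (S ×ˢ (Icc (0:ℝ) 1 ×ˢ Icc (-1:ℝ) 1)) :=
          hSc.prod ((conicalSet_Icc _ _).prod (conicalSet_Icc _ _))
        have h1 : ConicalOn (fun q : F × ℝ × ℝ => q.1) (S ×ˢ (Icc (0:ℝ) 1 ×ˢ Icc (-1:ℝ) 1)) :=
          conicalOn_fst hc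
        have h2 : ConicalOn (fun q : F × ℝ × ℝ => q.2.1) (S ×ˢ (Icc (0:ℝ) 1 ×ˢ Icc (-1:ℝ) 1)) :=
          conicalOn_linear ((LinearMap.fst ℝ ℝ ℝ) ∘ₗ LinearMap.snd ℝ F (ℝ × ℝ)) hc
        have h3 : ConicalOn (fun q : F × ℝ × ℝ => q.2.2) (S ×ˢ (Icc (0:ℝ) 1 ×ˢ Icc (-1:ℝ) 1)) :=
          conicalOn_linear ((LinearMap.snd ℝ ℝ ℝ) ∘ₗ LinearMap.snd ℝ F (ℝ × ℝ)) hc
        exact (h1.prodMk h2).prodMk h3 }
  let pol : ConHomeo (S ×ˢ Icc (0:ℝ) 1) A :=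
    (σ.prod (ConHomeo.affIcc zero_lt_one (by norm_num : (1/2:ℝ) < 1))).trans (annHomeo n)
  let Idr : ConHomeo (Icc (-1:ℝ) 1) (Icc (-1:ℝ) 1) := ConHomeo.refl (conicalSet_Icc _ _)
  let κ : ConHomeo J (A ×ˢ Icc (-1:ℝ) 1) := ψ.symm.trans (as.trans (pol.prod Idr))
  have hκ : ∀ x ∈ S, ∀ a : ℝ, a ∈ Icc (0:ℝ) 1 → ∀ t ∈ Icc (-1:ℝ) 1,
      κ.toFun (ψ.toFun (x, (a, t))) = (pol.toFun (x, a), t) := by
    intro x hx a ha t ht
    show (pol.prod Idr).toFun (as.toFun (ψ.invFun (ψ.toFun (x, (a, t))))) = _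
    rw [ψ.left_inv (show (x, (a, t)) ∈ S ×ˢ (Icc (0:ℝ) 1 ×ˢ Icc (-1:ℝ) 1) from ⟨hx, ha, ht⟩)]
    rfl
  have hpol0 : ∀ x ∈ S, pol.toFun (x, 0) = (1 / 2 : ℝ) • σ.toFun x := by
    intro x hx
    show (annHomeo n).toFun (σ.toFun x, (ConHomeo.affIcc zero_lt_one
      (by norm_num : (1/2:ℝ) < 1)).toFun 0) = _
    rw [ConHomeo.affIcc_left, annHomeo_half (mem_sphere_zero_iff_norm.1 (σ.mapsTo hx))]
  have hpol1 : ∀ x ∈ S, pol.toFun (x, 1) = σ.toFun x := by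
    intro x hx
    show (annHomeo n).toFun (σ.toFun x, (ConHomeo.affIcc zero_lt_one
      (by norm_num : (1/2:ℝ) < 1)).toFun 1) = _
    rw [ConHomeo.affIcc_right, annHomeo_one]
  -- the map on the lateral boundary of `D`
  have hhalf : Thick n (closedBall (0 : Fin n → ℝ) (1 / 2) ×ˢ Icc (-1:ℝ) 1) (fun p => p.2)
      (sphere (0 : Fin n → ℝ) (1 / 2) ×ˢ Icc (-1:ℝ) 1) := by
    refine thick_prod ⟨sphere_subset_closedBall, (ConHomeo.smulBall n).symm, ?_⟩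
    ext x
    rw [mem_sphere_zero_iff_norm]
    constructor
    · rintro ⟨y, hy, rfl⟩
      rw [mem_sphere_zero_iff_norm] at hy
      show ‖(2 : ℝ) • y‖ = 1
      rw [norm_smul, hy, Real.norm_of_nonneg (by norm_num)]; norm_num
    · intro hx
      refine ⟨(1 / 2 : ℝ) • x, ?_, ?_⟩
      · rw [mem_sphere_zero_iff_norm, norm_smul, hx, Real.norm_of_nonneg (by norm_num), mul_one]
      · show (2 : ℝ) • ((1 / 2 : ℝ) • x) = x
        rw [smul_smul]; norm_num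
  have hLc := hD.conicalSet_lat
  have hLD : L ⊆ D := hD.1
  have hLJ : L ⊆ J := by rw [← hJD]; exact inter_subset_left
  have hκL : κ.toFun '' L = sphere (0 : Fin n → ℝ) (1 / 2) ×ˢ Icc (-1:ℝ) 1 := by
    rw [← hL]
    ext ⟨x, t⟩
    constructor
    · rintro ⟨_, ⟨⟨y, a, s⟩, ⟨hy, ha, hs⟩, rfl⟩, h⟩
      have ha : a = 0 := ha
      subst ha
      rw [hκ y hy 0 ⟨le_rfl, zero_le_one⟩ s hs, hpol0 y hy, Prod.mk.injEq] at h
      refine ⟨?_, h.2 ▸ hs⟩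
      rw [← h.1, mem_sphere_zero_iff_norm, norm_smul, mem_sphere_zero_iff_norm.1 (σ.mapsTo hy),
        Real.norm_of_nonneg (by norm_num), mul_one]
    · rintro ⟨hx, ht⟩
      have h2 : (2 : ℝ) • x ∈ sphere (0 : Fin n → ℝ) 1 := by
        rw [mem_sphere_zero_iff_norm] at hx ⊢
        rw [norm_smul, hx, Real.norm_of_nonneg (by norm_num)]; norm_num
      have h3 := σ.mapsTo_inv h2
      refine ⟨ψ.toFun (σ.invFun ((2:ℝ) • x), (0, t)),
        ⟨(σ.invFun ((2:ℝ) • x), (0, t)), ⟨h3, rfl, ht⟩, rfl⟩, ?_⟩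
      rw [hκ _ h3 0 ⟨le_rfl, zero_le_one⟩ t ht, hpol0 _ h3, σ.right_inv h2, smul_smul]
      norm_num
  let lam : ConHomeo L (sphere (0 : Fin n → ℝ) (1 / 2) ×ˢ Icc (-1:ℝ) 1) :=
    (κ.restr hLc hLJ).cast rfl hκL
  obtain ⟨Φ, hΦ1, hΦ2, hΦ3⟩ := hD.exists_extend hhalf lam (by
    intro x hx
    rw [← hL] at hx
    obtain ⟨⟨y, a, s⟩, ⟨hy, ha, hs⟩, rfl⟩ := hx
    have ha : a = 0 := ha
    subst ha
    show (κ.toFun (ψ.toFun (y, (0, s)))).2 = b (ψ.toFun (y, (0, s)))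
    rw [hκ y hy 0 ⟨le_rfl, zero_le_one⟩ s hs,
      hψ (y, (0, s)) ⟨hy, ⟨le_rfl, zero_le_one⟩, hs⟩])
  have hJcl : IsClosed J := (ψ.isCompact_right
    (hScomp.prod (isCompact_Icc.prod isCompact_Icc))).isClosed
  have hAcl : IsClosed (A ×ˢ Icc (-1:ℝ) 1) := hclA.prod isClosed_Icc
  have hag : EqOn κ.toFun Φ.toFun (J ∩ D) := by
    intro x hx
    rw [hJD] at hx
    exact (hΦ1 hx).symm
  have himg : (A ×ˢ Icc (-1:ℝ) 1) ∩ (closedBall (0 : Fin n → ℝ) (1 / 2) ×ˢ Icc (-1:ℝ) 1) ⊆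
      κ.toFun '' (J ∩ D) := by
    rw [hJD, hκL]
    rintro ⟨x, t⟩ ⟨⟨hx1, ht⟩, hx2, _⟩
    refine ⟨?_, ht⟩
    have hx1 : ‖x‖ ∈ Icc (1 / 2 : ℝ) 1 := hx1
    rw [mem_closedBall_zero_iff] at hx2
    rw [mem_sphere_zero_iff_norm]
    exact le_antisymm hx2 hx1.1
  let Θ := ConHomeo.glue κ Φ hJcl hD.isClosed hAcl hhalf.isClosed hag himg
  have hunion : (A ×ˢ Icc (-1:ℝ) 1) ∪ (closedBall (0 : Fin n → ℝ) (1 / 2) ×ˢ Icc (-1:ℝ) 1) =
      TD n := by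
    rw [← union_prod]
    congr 1
    ext x
    simp only [hA, mem_union, mem_closedBall_zero_iff, mem_ofPred_eq, mem_Icc]
    constructor
    · rintro (h | h)
      · exact h.2
      · linarith
    · intro h
      rcases le_total ‖x‖ (1 / 2) with h' | h'
      · exact Or.inr h'
      · exact Or.inl ⟨h', h⟩
  have e1 : EqOn Θ.toFun κ.toFun J :=
    ConHomeo.glue_left κ Φ hJcl hD.isClosed hAcl hhalf.isClosed hag himg
  have e2 : EqOn Θ.toFun Φ.toFun D :=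
    ConHomeo.glue_right κ Φ hJcl hD.isClosed hAcl hhalf.isClosed hag himg
  refine ⟨?_, Θ.cast rfl hunion, ?_, ?_⟩
  · rintro _ ⟨⟨y, a, s⟩, ⟨hy, ha, hs⟩, rfl⟩
    have ha : a = 1 := ha
    subst ha
    exact Or.inl (ψ.mapsTo ⟨hy, ⟨zero_le_one, le_rfl⟩, hs⟩)
  · rintro x (hx | hx)
    · show (Θ.toFun x).2 = b x
      rw [e1 hx]
      obtain ⟨⟨y, a, s⟩, hq, rfl⟩ : x ∈ ψ.toFun '' (S ×ˢ (Icc (0:ℝ) 1 ×ˢ Icc (-1:ℝ) 1)) := by
        rw [ψ.image_eq]; exact hx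
      rw [hκ y hq.1 a hq.2.1 s hq.2.2, hψ _ hq]
    · show (Θ.toFun x).2 = b x
      rw [e2 hx, hΦ3 x hx]
  · show Θ.toFun '' _ = TL n
    ext ⟨x, t⟩
    constructor
    · rintro ⟨_, ⟨⟨y, a, s⟩, ⟨hy, ha, hs⟩, rfl⟩, h⟩
      have ha : a = 1 := ha
      subst ha
      rw [e1 (ψ.mapsTo ⟨hy, ⟨zero_le_one, le_rfl⟩, hs⟩), hκ y hy 1 ⟨zero_le_one, le_rfl⟩ s hs,
        hpol1 y hy, Prod.mk.injEq] at h
      exact ⟨h.1 ▸ σ.mapsTo hy, h.2 ▸ hs⟩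
    · rintro ⟨hx, ht⟩
      have h3 := σ.mapsTo_inv hx
      refine ⟨ψ.toFun (σ.invFun x, (1, t)), ⟨(σ.invFun x, (1, t)), ⟨h3, rfl, ht⟩, rfl⟩, ?_⟩
      rw [e1 (ψ.mapsTo ⟨h3, ⟨zero_le_one, le_rfl⟩, ht⟩), hκ _ h3 1 ⟨zero_le_one, le_rfl⟩ t ht,
        hpol1 _ h3, σ.right_inv hx]

/-- **Replacing thick discs** (T2).  `P` is a closed conical set, `T j`, `T' j` are thick discs
attached to `P` along their common lateral boundaries; the level functions `b` on `P ∪ ⋃ T j` and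
`b'` on `P ∪ ⋃ T' j` agree on `P`. -/
theorem exists_replace {n : ℕ} {J : Type*} [Finite J] {P : Set E} (hP : IsClosed P)
    (hPc : ConicalSet P) {T T' Λ : J → Set E} {b b' : E → ℝ}
    (hT : ∀ j, Thick n (T j) b (Λ j)) (hT' : ∀ j, Thick n (T' j) b' (Λ j))
    (hb : EqOn b' b P) (hTP : ∀ j, T j ∩ P = Λ j) (hTP' : ∀ j, T' j ∩ P = Λ j)
    (hd : ∀ i j, i ≠ j → Disjoint (T i) (T j)) (hd' : ∀ i j, i ≠ j → Disjoint (T' i) (T' j)) :
    ∃ Φ : ConHomeo (P ∪ ⋃ j, T' j) (P ∪ ⋃ j, T j), EqOn Φ.toFun id P ∧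
      (∀ j, Φ.toFun '' T' j = T j) ∧ ∀ x ∈ P ∪ ⋃ j, T' j, b (Φ.toFun x) = b' x := by
  have hΛP : ∀ j, Λ j ⊆ P := fun j => hTP j ▸ inter_subset_right
  have hex : ∀ j, ∃ φ : ConHomeo (T' j) (T j), EqOn φ.toFun id (Λ j) ∧ φ.toFun '' Λ j = Λ j ∧
      ∀ x ∈ T' j, b (φ.toFun x) = b' x := by
    intro j
    obtain ⟨φ, h1, h2, h3⟩ := (hT' j).exists_extend (hT j)
      (ConHomeo.refl (hT j).conicalSet_lat) (fun x hx => (hb (hΛP j hx)).symm)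
    exact ⟨φ, h1, h2, h3⟩
  choose φ hφ1 hφ2 hφ3 using hex
  let X : Option J → Set E := fun o => o.elim P T'
  let Y : Option J → Set E := fun o => o.elim P T
  have hX : RelLF X := RelLF.of_finite fun o => by
    cases o with
    | none => exact hP
    | some j => exact (hT' j).isClosed
  have hY : RelLF Y := RelLF.of_finite fun o => by
    cases o with
    | none => exact hP
    | some j => exact (hT j).isClosed
  let h : ∀ o, ConHomeo (X o) (Y o) := fun o =>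
    match o with
    | none => ConHomeo.refl hPc
    | some j => φ j
  have hag : ∀ o o', EqOn (h o).toFun (h o').toFun (X o ∩ X o') := by
    intro o o' x hx
    cases o with
    | none =>
      cases o' with
      | none => rfl
      | some j => exact (hφ1 j (hTP' j ▸ ⟨hx.2, hx.1⟩)).symm
    | some i =>
      cases o' with
      | none => exact hφ1 i (hTP' i ▸ ⟨hx.1, hx.2⟩)
      | some j =>
        by_cases hij : i = j
        · subst hij; rfl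
        · exact absurd hx.2 (Set.disjoint_left.1 (hd' i j hij) hx.1)
  have himg : ∀ o o', Y o ∩ Y o' ⊆ (h o).toFun '' (X o ∩ X o') := by
    intro o o' y hy
    cases o with
    | none =>
      cases o' with
      | none => exact ⟨y, hy, rfl⟩
      | some j =>
        have hyΛ : y ∈ Λ j := hTP j ▸ ⟨hy.2, hy.1⟩
        exact ⟨y, ⟨hy.1, (hT' j).1 hyΛ⟩, rfl⟩
    | some i =>
      cases o' with
      | none =>
        have hyΛ : y ∈ Λ i := hTP i ▸ ⟨hy.1, hy.2⟩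
        exact ⟨y, ⟨(hT' i).1 hyΛ, hy.2⟩, hφ1 i hyΛ⟩
      | some j =>
        by_cases hij : i = j
        · subst hij
          obtain ⟨x, hx, hxy⟩ : y ∈ (φ i).toFun '' (T' i) := by rw [(φ i).image_eq]; exact hy.1
          exact ⟨x, ⟨hx, hx⟩, hxy⟩
        · exact absurd hy.2 (Set.disjoint_left.1 (hd i j hij) hy.1)
  obtain ⟨Φ, hΦ⟩ := ConHomeo.exists_glue_family hX hY h hag himg
  have hUX : (⋃ o, X o) = P ∪ ⋃ j, T' j := by rw [iUnion_option]; rfl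
  have hUY : (⋃ o, Y o) = P ∪ ⋃ j, T j := by rw [iUnion_option]; rfl
  have k0 : EqOn Φ.toFun id P := (hΦ none).1
  have k1 : ∀ j, EqOn Φ.toFun (φ j).toFun (T' j) := fun j => (hΦ (some j)).1
  refine ⟨Φ.cast hUX hUY, k0, fun j => ?_, ?_⟩
  · show Φ.toFun '' T' j = T j
    rw [(k1 j).image_eq, (φ j).image_eq]
  · rintro x (hx | hx)
    · show b (Φ.toFun x) = b' x
      rw [k0 hx]; exact (hb hx).symm
    · obtain ⟨j, hj⟩ := mem_iUnion.1 hx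
      show b (Φ.toFun x) = b' x
      rw [k1 j hj, hφ3 j x hj]

end P073.H936
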