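import Vale.Agent.P073.H880.Box1
import Vale.Agent.P073.H142.Caps
import Vale.Agent.P073.H950.Trans

/-!
# P073, block H936: the coordinate sheets of a homeomorphism onto a box
-/

open Set Metric Topology Filter

namespace P073.H936.K3

open P073 P073.H936 P073.H880 P073.H669 P073.H579

variable {ι : Type*} {E E' : Type*} [NormedAddCommGroup E] [NormedSpace ℝ E]
  [NormedAddCommGroup E'] [NormedSpace ℝ E']

theorem image_inter_eq {X : Set E} {Y : Set E'} (Φ : ConHomeo X Y) {A B : Set E} (hA : A ⊆ X)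
    (hB : B ⊆ X) : Φ.toFun '' (A ∩ B) = Φ.toFun '' A ∩ Φ.toFun '' B :=
  (Φ.injOn.image_inter hA hB)

/-- **transport of a system of fibred sheets** -/
noncomputable def sysImage {side : ι → Bool} {C B : Set E} {D N : ι → Set E} {s : ι → E → ℝ}
    (S : FSys side C B D N s) {Y : Set E'} (Φ : ConHomeo C Y) {u : ι → E' → ℝ}
    (hu : ∀ i, ∀ x ∈ N i, u i (Φ.toFun x) = s i x) :
    FSys side Y (Φ.toFun '' B) (fun i => Φ.toFun '' D i) (fun i => Φ.toFun '' N i) u where
  hC := by
    have h1 := S.hC.image Φ (Subset.refl _)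
    rwa [Φ.image_eq] at h1
  F := fun i => H950.fibImage (S.F i) Φ (S.sub i) (hu i)
  sub := fun i => by
    rintro _ ⟨x, hx, rfl⟩
    exact Φ.mapsTo (S.sub i hx)
  disc := fun i => by
    have h1 := (S.disc i).image Φ ((S.F i).sub.trans (S.sub i))
    rwa [image_inter_eq Φ ((S.F i).sub.trans (S.sub i)) S.hC.1] at h1
  bd := fun i => by
    rintro _ ⟨z, hz, rfl⟩ t ht
    rw [H950.fibImage_toFun (S.F i) Φ (S.sub i) (hu i) hz,
      H950.mem_image_iff' Φ S.hC.1 (S.sub i ((S.F i).mem_N hz ht)),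
      H950.mem_image_iff' Φ S.hC.1 (S.sub i ((S.F i).sub hz))]
    exact S.bd i z hz t ht
  disj := fun i j hij hs => by
    rw [disjoint_left]
    rintro _ ⟨x, hx, rfl⟩ h2
    exact disjoint_left.1 (S.disj i j hij hs) hx
      ((H950.mem_image_iff' Φ (S.sub j) (S.sub i hx)).1 h2)
  pres := fun i j hs => H950.Pres.image (S.pres i j hs) (S.sub j) (hu j)
  arc := fun i j hs => by
    have hD : ∀ i, D i ⊆ C := fun i => (S.F i).sub.trans (S.sub i)
    have h1 := (S.arc i j hs).image Φ (inter_subset_left.trans (hD i))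
    rwa [image_inter_eq Φ (inter_subset_left.trans (hD i)) S.hC.1,
      image_inter_eq Φ (hD i) (hD j)] at h1

/-! ### the coordinate sheets in the domain -/

section box

variable {ι : Type*} {E : Type} [NormedAddCommGroup E] [NormedSpace ℝ E]
  {side : ι → Bool} {ax : Bool → Fin 3} {lo hi : Fin 3 → ℝ} {c w : ι → ℝ} {U : Set E}

/-- the level function of a coordinate sheet in the domain -/
noncomputable def dlev (side : ι → Bool) (ax : Bool → Fin 3) (c w : ι → ℝ) (h : E → Fin 3 → ℝ)
    (i : ι) (x : E) : ℝ := blev (ax (side i)) (c i) (w i) (h x)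

/-- **the coordinate sheets in the domain** -/
noncomputable def dsys (H : Bands side ax lo hi c w) (h : ConHomeo U (Icc lo hi)) :
    FSys side U (h.symm.toFun '' frontier (Icc lo hi))
      (fun i => h.symm.toFun '' sheet lo hi (ax (side i)) (c i))
      (fun i => h.symm.toFun '' band lo hi (ax (side i)) (c i) (w i))
      (dlev side ax c w h.toFun) :=
  sysImage H.sys h.symm fun i x hx => by
    show blev _ _ _ (h.toFun (h.invFun x)) = _
    rw [h.right_inv hx.1]

theorem dsys_fib (H : Bands side ax lo hi c w) (h : ConHomeo U (Icc lo hi)) (i : ι) {z : E}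
    (hz : z ∈ h.symm.toFun '' sheet lo hi (ax (side i)) (c i)) (t : ℝ) :
    ((dsys H h).F i).Γ.toFun (z, t) = h.invFun (slide (ax (side i)) (c i) (w i) (h.toFun z, t)) := by
  obtain ⟨y, hy, rfl⟩ := hz
  have h1 := H950.fibImage_toFun (H.sys.F i) h.symm (H.sys.sub i)
    (u := dlev side ax c w h.toFun i) (fun x hx => by
      show blev _ _ _ (h.toFun (h.invFun x)) = _
      rw [h.right_inv hx.1]) hy t
  have h2 : h.toFun (h.symm.toFun y) = y := h.right_inv hy.1
  rw [h2]
  exact h1

theorem mem_dband (h : ConHomeo U (Icc lo hi)) {i : ι} {x : E} (hx : x ∈ U) :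
    x ∈ h.symm.toFun '' band lo hi (ax (side i)) (c i) (w i) ↔
      |h.toFun x (ax (side i)) - c i| ≤ w i := by
  constructor
  · rintro ⟨y, hy, rfl⟩
    have h2 : h.toFun (h.symm.toFun y) = y := h.right_inv hy.1
    rw [h2]; exact hy.2
  · intro h1
    exact ⟨h.toFun x, ⟨h.mapsTo hx, h1⟩, h.left_inv hx⟩

theorem mem_dsheet (h : ConHomeo U (Icc lo hi)) {i : ι} {x : E} (hx : x ∈ U) :
    x ∈ h.symm.toFun '' sheet lo hi (ax (side i)) (c i) ↔ h.toFun x (ax (side i)) = c i := by
  constructor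
  · rintro ⟨y, hy, rfl⟩
    have h2 : h.toFun (h.symm.toFun y) = y := h.right_inv hy.1
    rw [h2]; exact hy.2
  · intro h1
    exact ⟨h.toFun x, ⟨h.mapsTo hx, h1⟩, h.left_inv hx⟩

theorem mem_dfr (h : ConHomeo U (Icc lo hi)) {x : E} (hx : x ∈ U) :
    x ∈ h.symm.toFun '' frontier (Icc lo hi) ↔ h.toFun x ∈ frontier (Icc lo hi) := by
  have hsub : frontier (Icc lo hi) ⊆ Icc lo hi := isClosed_Icc.frontier_subset
  constructor
  · rintro ⟨y, hy, rfl⟩
    have h2 : h.toFun (h.symm.toFun y) = y := h.right_inv (hsub hy)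
    rw [h2]; exact hy
  · intro h1
    exact ⟨h.toFun x, h1, h.left_inv hx⟩

/-- the cells to be redrawn in a box -/
structure Cells (Q : Type) {E : Type} [NormedAddCommGroup E] [NormedSpace ℝ E] (U Bd : Set E) where
  C : Q → Set E
  fin : Finite Q
  reg : ∀ q, closure (interior (C q)) = C q
  disj : ∀ q q', q ≠ q' → Disjoint (interior (C q)) (interior (C q'))
  cone : ∀ q, LocCone (C q)
  sub : ∀ q, C q ⊆ U
  bd : ∀ q, Disjoint (C q) Bd
  chart : ∀ q, H950.Chart 3 (C q) (frontier (C q))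

/-- a set is invariant under moving inside the bands -/
def BandInv (side : ι → Bool) (ax : Bool → Fin 3) (c w : ι → ℝ) (U : Set E) (h : E → Fin 3 → ℝ)
    (M : Set E) : Prop :=
  ∀ i, ∀ x ∈ U, ∀ x' ∈ U, |h x (ax (side i)) - c i| ≤ w i → |h x' (ax (side i)) - c i| ≤ w i →
    (∀ l, l ≠ ax (side i) → h x l = h x' l) → x ∈ M → x' ∈ M

theorem BandInv.vert (H : Bands side ax lo hi c w) (h : ConHomeo U (Icc lo hi)) {M : Set E}
    (hM : BandInv side ax c w U h.toFun M) (i : ι) {z : E}
    (hz : z ∈ h.symm.toFun '' sheet lo hi (ax (side i)) (c i)) {t : ℝ} (ht : t ∈ Icc (-1:ℝ) 1) :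
    ((dsys H h).F i).Γ.toFun (z, t) ∈ M ↔ z ∈ M := by
  have hzU : z ∈ U := (dsys H h).sub i (((dsys H h).F i).sub hz)
  have hxN := ((dsys H h).F i).mem_N hz ht
  have hxU : ((dsys H h).F i).Γ.toFun (z, t) ∈ U := (dsys H h).sub i hxN
  have h1 := (mem_dband h hxU).1 hxN
  have h2 := (mem_dband h hzU).1 (((dsys H h).F i).sub hz)
  have h3 : ∀ l, l ≠ ax (side i) →
      h.toFun (((dsys H h).F i).Γ.toFun (z, t)) l = h.toFun z l := by
    intro l hl
    have hs : slide (ax (side i)) (c i) (w i) (h.toFun z, t) ∈ Icc lo hi :=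
      slide_mem (H.ok i) (h.mapsTo hzU) (abs_le.2 ht)
    rw [dsys_fib H h i hz t, h.right_inv hs, slide_ne hl]
  exact ⟨hM i _ hxU _ hzU h1 h2 h3, hM i _ hzU _ hxU h2 h1 fun l hl => (h3 l hl).symm⟩

/-- **[K3IN]** the input of the front end from a homeomorphism onto a box -/
noncomputable def boxIn {Q : Type} (H : Bands side ax lo hi c w) (h : ConHomeo U (Icc lo hi))
    (hU : ∀ x ∈ U, h.toFun x ∉ frontier (Icc lo hi) → U ∈ 𝓝 x)
    (K : Cells Q U (h.symm.toFun '' frontier (Icc lo hi)))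
    (hK : ∀ q, BandInv side ax c w U h.toFun (frontier (K.C q))) :
    H142.BoxIn ι Q E where
  side := side
  Bd := h.symm.toFun '' frontier (Icc lo hi)
  D := fun i => h.symm.toFun '' sheet lo hi (ax (side i)) (c i)
  N := fun i => h.symm.toFun '' band lo hi (ax (side i)) (c i) (w i)
  s := dlev side ax c w h.toFun
  Γ := fun i => ((dsys H h).F i).Γ
  zero := fun i => ((dsys H h).F i).zero
  lev := fun i => ((dsys H h).F i).lev
  bd := (dsys H h).bd
  ball := (dsys H h).disc
  disj := (dsys H h).disj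
  pres := (dsys H h).pres
  C := K.C
  C_fin := K.fin
  C_reg := K.reg
  C_disj := K.disj
  C_sph := fun q => ⟨(K.chart q).bd.symm⟩
  C_cone := K.cone
  C_bd := K.bd
  vB := fun i q z hz t ht => (hK q).vert H h i hz ht
  nb := by
    intro i x hx hxB
    have hxU : x ∈ U := (dsys H h).sub i (((dsys H h).F i).sub hx)
    have h1 := hU x hxU fun h2 => hxB ((mem_dfr h hxU).2 h2)
    have h2 := (mem_dsheet h hxU).1 hx
    have h3 : ContinuousWithinAt (fun x => h.toFun x (ax (side i))) U x :=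
      (continuous_apply (ax (side i))).continuousAt.comp_continuousWithinAt (h.cont x hxU)
    have h4 : ∀ᶠ y in 𝓝[U] x, |h.toFun y (ax (side i)) - c i| < w i := by
      have h5 : ContinuousWithinAt (fun x => |h.toFun x (ax (side i)) - c i|) U x :=
        (h3.sub continuousWithinAt_const).abs
      refine h5.eventually_lt continuousWithinAt_const ?_
      show |h.toFun x (ax (side i)) - c i| < w i
      rw [h2, sub_self, abs_zero]
      exact (H.ok i).pos
    rw [nhdsWithin_eq_nhds.2 h1] at h4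
    filter_upwards [h4, h1] with y hy hyU
    exact (mem_dband h hyU).2 hy.le
  arc := by
    intro i j hs
    have h1 := (dsys H h).arc i j hs
    obtain ⟨p, q, hpq⟩ := GB200.exists_pair h1
    refine ⟨p, q, H339.isArc_iff_conBall.2 ?_, hpq⟩
    rwa [hpq] at h1

end box

end P073.H936.K3
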