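import Vale.Agent.P073.PA260.Collar
import Vale.Agent.P073.SCH.LocConeImage

/-!
# P073, block H936: level-preserving conical homeomorphisms, thick discs

A *thick disc* is a set `B` with a level function `b` and a conical homeomorphism onto
`closedBall 0 1 ×ˢ Icc (-1) 1` carrying `b` to the second coordinate.  A level-preserving conical
homeomorphism of the lateral boundaries of two thick discs extends to the thick discs
(`Thick.exists_extend`).
-/

open Set Metric Topology Filter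

namespace P073.H936

open P073

variable {E F G : Type*} [NormedAddCommGroup E] [NormedSpace ℝ E]
  [NormedAddCommGroup F] [NormedSpace ℝ F] [NormedAddCommGroup G] [NormedSpace ℝ G]

/-- the standard thick disc -/
def TD (n : ℕ) : Set ((Fin n → ℝ) × ℝ) := closedBall 0 1 ×ˢ Icc (-1:ℝ) 1

/-- the lateral boundary of the standard thick disc -/
def TL (n : ℕ) : Set ((Fin n → ℝ) × ℝ) := sphere 0 1 ×ˢ Icc (-1:ℝ) 1

theorem TL_subset_TD (n : ℕ) : TL n ⊆ TD n := prod_mono sphere_subset_closedBall (Subset.refl _)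

theorem isCompact_TD (n : ℕ) : IsCompact (TD n) := (isCompact_closedBall _ _).prod isCompact_Icc

theorem isCompact_TL (n : ℕ) : IsCompact (TL n) := (isCompact_sphere _ _).prod isCompact_Icc

theorem conicalSet_TD (n : ℕ) : ConicalSet (TD n) :=
  (locCone_closedBall_pi n 1).conicalSet.prod (conicalSet_Icc _ _)

theorem conicalSet_TL (n : ℕ) : ConicalSet (TL n) :=
  (conicalSet_sphere_pi n).prod (conicalSet_Icc _ _)

theorem TD_eq (n : ℕ) : TD n = closedBall (0 : (Fin n → ℝ) × ℝ) 1 := by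
  ext ⟨x, t⟩
  simp only [TD, mem_prod, mem_closedBall_zero_iff, mem_Icc, Prod.norm_def, max_le_iff,
    Real.norm_eq_abs, abs_le]

/-- a slice -/
def slice {X : Set E} (hX : ConicalSet X) (c : ℝ) : ConHomeo X (X ×ˢ {c} : Set (E × ℝ)) where
  toFun := fun x => (x, c)
  invFun := fun p => p.1
  mapsTo := fun _ hx => ⟨hx, rfl⟩
  mapsTo_inv := fun _ hp => hp.1
  left_inv := fun _ _ => rfl
  right_inv := fun p hp => by
    obtain ⟨x, t⟩ := p
    have : t = c := hp.2
    rw [this]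
  cont := by fun_prop
  cont_inv := continuousOn_fst
  conical := by
    intro x hx
    obtain ⟨r, hr, H⟩ := hX x hx
    exact ⟨r, hr, fun v hv hxv t ht => ⟨H v hv hxv t ht, by simp⟩⟩

@[simp] theorem slice_toFun {X : Set E} (hX : ConicalSet X) (c : ℝ) (x : E) :
    (slice hX c).toFun x = (x, c) := rfl

theorem slice_image {X Y : Set E} (hX : ConicalSet X) (c : ℝ) :
    (slice hX c).toFun '' Y = Y ×ˢ {c} := by
  ext ⟨x, t⟩
  constructor
  · rintro ⟨y, hy, h⟩
    rw [slice_toFun, Prod.mk.injEq] at h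
    exact ⟨h.1 ▸ hy, h.2.symm⟩
  · rintro ⟨h1, h2⟩
    exact ⟨x, h1, by rw [slice_toFun, show t = c from h2]⟩

/-- a ball at a level -/
theorem conBall_slice {n : ℕ} {C B : Set E} (h : ConBall n C B) (c : ℝ) :
    ConBall n (C ×ˢ {c} : Set (E × ℝ)) (B ×ˢ {c}) := by
  have := h.image (slice h.conicalSet c) (Subset.refl _)
  rwa [slice_image, slice_image] at this

/-- the two levels `1` and `-1` -/
def lv (i : Bool) : ℝ := if i then 1 else -1

theorem lv_mem (i : Bool) : lv i ∈ Icc (-1:ℝ) 1 := by cases i <;> simp [lv]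

theorem lv_inj {i j : Bool} (h : lv i = lv j) : i = j := by
  cases i <;> cases j <;> simp [lv] at h ⊢ <;> norm_num at h

theorem sphere_eq (n : ℕ) : sphere (0 : (Fin n → ℝ) × ℝ) 1 =
    TL n ∪ ⋃ i : Bool, (closedBall (0 : Fin n → ℝ) 1 ×ˢ {lv i} : Set ((Fin n → ℝ) × ℝ)) := by
  ext ⟨x, t⟩
  rw [mem_sphere_zero_iff_norm, Prod.norm_def]
  simp only [TL, mem_union, mem_prod, mem_sphere_zero_iff_norm, mem_Icc, mem_iUnion,
    mem_closedBall_zero_iff, mem_singleton_iff, Bool.exists_bool, lv, Real.norm_eq_abs]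
  simp only [Bool.false_eq_true, if_false, if_true]
  constructor
  · intro h
    have h1 : ‖x‖ ≤ 1 := h ▸ le_max_left _ _
    have h2 : |t| ≤ 1 := h ▸ le_max_right _ _
    rcases le_total ‖x‖ |t| with h3 | h3
    · rw [max_eq_right h3] at h
      right
      rcases (abs_eq zero_le_one).1 h with h4 | h4
      · exact Or.inr ⟨h1, h4⟩
      · exact Or.inl ⟨h1, h4⟩
    · rw [max_eq_left h3] at h
      exact Or.inl ⟨h, abs_le.1 h2⟩
  · rintro (⟨h1, h2⟩ | ⟨h1, h2⟩ | ⟨h1, h2⟩)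
    · rw [max_eq_left]
      · exact h1
      · rw [h1]; exact abs_le.2 h2
    · rw [h2]
      norm_num
      exact h1
    · rw [h2]
      norm_num
      exact h1

/-- **Level-preserving extension, standard form.** -/
theorem exists_extend_TD (n : ℕ) (lam : ConHomeo (TL n) (TL n))
    (hl : ∀ x ∈ TL n, (lam.toFun x).2 = x.2) :
    ∃ Φ : ConHomeo (TD n) (TD n), EqOn Φ.toFun lam.toFun (TL n) ∧
      ∀ x ∈ TD n, (Φ.toFun x).2 = x.2 := by
  have hball : ∀ i : Bool, ConBall n (closedBall (0 : Fin n → ℝ) 1 ×ˢ {lv i})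
      (sphere (0 : Fin n → ℝ) 1 ×ˢ {lv i}) := fun i =>
    conBall_slice (⟨sphere_subset_closedBall,
      ConHomeo.refl (locCone_closedBall_pi n 1).conicalSet, image_id' _⟩ :
      ConBall n (closedBall (0 : Fin n → ℝ) 1) (sphere 0 1)) _
  have himg : ∀ i : Bool, lam.toFun '' (sphere (0 : Fin n → ℝ) 1 ×ˢ {lv i}) =
      sphere (0 : Fin n → ℝ) 1 ×ˢ {lv i} := by
    intro i
    apply Subset.antisymm
    · rintro _ ⟨⟨x, t⟩, ⟨hx, ht⟩, rfl⟩
      have hm : ((x, t) : (Fin n → ℝ) × ℝ) ∈ TL n := ⟨hx, by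
        rw [show t = lv i from ht]; exact lv_mem i⟩
      exact ⟨(lam.mapsTo hm).1, by
        show (lam.toFun (x, t)).2 = lv i
        rw [hl _ hm]; exact ht⟩
    · rintro ⟨x, t⟩ ⟨hx, ht⟩
      have hm : ((x, t) : (Fin n → ℝ) × ℝ) ∈ TL n := ⟨hx, by
        rw [show t = lv i from ht]; exact lv_mem i⟩
      have h1 := lam.right_inv hm
      have h2 := lam.mapsTo_inv hm
      refine ⟨lam.invFun (x, t), ⟨h2.1, ?_⟩, h1⟩
      show (lam.invFun (x, t)).2 = lv i
      rw [← hl _ h2, h1]; exact ht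
  have hCX : ∀ i : Bool, (closedBall (0 : Fin n → ℝ) 1 ×ˢ {lv i}) ∩ TL n =
      sphere (0 : Fin n → ℝ) 1 ×ˢ {lv i} := by
    intro i
    ext ⟨x, t⟩
    constructor
    · rintro ⟨⟨_, h2⟩, h3, _⟩; exact ⟨h3, h2⟩
    · rintro ⟨h1, h2⟩
      exact ⟨⟨sphere_subset_closedBall h1, h2⟩, h1, by
        rw [show t = lv i from h2]; exact lv_mem i⟩
  have hd : ∀ i j : Bool, i ≠ j → (closedBall (0 : Fin n → ℝ) 1 ×ˢ {lv i}) ∩
      (closedBall (0 : Fin n → ℝ) 1 ×ˢ {lv j}) ⊆ TL n := by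
    rintro i j hij ⟨x, t⟩ ⟨⟨_, h1⟩, _, h2⟩
    exact absurd (lv_inj (h1.symm.trans h2)) hij
  have hcl : IsClosed (TL n) := (isCompact_TL n).isClosed
  obtain ⟨Ψ, hΨ1, hΨ2⟩ := lam.exists_extend_cells (fun _ : Bool => n)
    (fun i => closedBall (0 : Fin n → ℝ) 1 ×ˢ {lv i}) (fun i => sphere (0 : Fin n → ℝ) 1 ×ˢ {lv i})
    (fun i => closedBall (0 : Fin n → ℝ) 1 ×ˢ {lv i}) (fun i => sphere (0 : Fin n → ℝ) 1 ×ˢ {lv i})
    hball hball himg hCX hCX hd hd (fun z _ hz => by rwa [hcl.closure_eq] at hz)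
    (fun z _ hz => by rwa [hcl.closure_eq] at hz)
    (fun z _ => ⟨univ, univ_mem, toFinite _⟩) (fun z _ => ⟨univ, univ_mem, toFinite _⟩)
  have hΨ : ∀ x ∈ sphere (0 : (Fin n → ℝ) × ℝ) 1, (Ψ.toFun x).2 = x.2 := by
    intro x hx
    rw [sphere_eq] at hx
    rcases hx with hx | hx
    · rw [hΨ1 hx, hl x hx]
    · obtain ⟨i, hi⟩ := mem_iUnion.1 hx
      have h1 : Ψ.toFun x ∈ closedBall (0 : Fin n → ℝ) 1 ×ˢ {lv i} := by
        rw [← hΨ2 i]; exact mem_image_of_mem _ hi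
      rw [show (Ψ.toFun x).2 = lv i from h1.2, show x.2 = lv i from hi.2]
  have hfr : frontier (closedBall (0 : (Fin n → ℝ) × ℝ) 1) = sphere 0 1 :=
    frontier_closedBall _ one_ne_zero
  have hnt : Nontrivial ((Fin n → ℝ) × ℝ) := inferInstance
  have hR : RayBase (sphere (0 : (Fin n → ℝ) × ℝ) 1) := by
    rw [← hfr]
    exact rayBase_frontier (isCompact_closedBall _ _) (convex_closedBall _ _)
      (closedBall_mem_nhds _ one_pos)
  have hcs : coneSet (sphere (0 : (Fin n → ℝ) × ℝ) 1) = TD n := by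
    rw [← hfr, TD_eq]
    exact coneSet_frontier (isCompact_closedBall _ _) (convex_closedBall _ _)
      (closedBall_mem_nhds _ one_pos)
  let Ψ' : ConHomeo (sphere (0 : (Fin n → ℝ) × ℝ) 1) (sphere (0 : (Fin n → ℝ) × ℝ) 1) :=
    Ψ.cast (sphere_eq n).symm (sphere_eq n).symm
  refine ⟨(ConHomeo.cone hR hR Ψ').cast hcs hcs, ?_, ?_⟩
  · intro x hx
    have hx' : x ∈ sphere (0 : (Fin n → ℝ) × ℝ) 1 := by rw [sphere_eq]; exact Or.inl hx
    exact (ConHomeo.cone_eqOn hR hR Ψ' hx').trans (hΨ1 hx)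
  · intro x hx
    rw [← hcs] at hx
    obtain ⟨s, hs, y, hy, rfl⟩ := hx
    show ((ConHomeo.cone hR hR Ψ').toFun (s • y)).2 = _
    rw [ConHomeo.cone_smul hR hR Ψ' hs hy]
    show s * (Ψ.toFun y).2 = s * y.2
    rw [hΨ y hy]

/-- `B` is a thick `n`-disc with level function `b` and lateral boundary `L` -/
def Thick (n : ℕ) (B : Set E) (b : E → ℝ) (L : Set E) : Prop :=
  L ⊆ B ∧ ∃ φ : ConHomeo B (TD n), (∀ x ∈ B, (φ.toFun x).2 = b x) ∧ φ.toFun '' L = TL n

namespace Thick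

variable {n : ℕ} {B L : Set E} {b : E → ℝ}

theorem isCompact (h : Thick n B b L) : IsCompact B := by
  obtain ⟨_, φ, _⟩ := h
  exact φ.symm.isCompact_right (isCompact_TD n)

theorem isClosed (h : Thick n B b L) : IsClosed B := h.isCompact.isClosed

theorem conicalSet (h : Thick n B b L) : ConicalSet B := by
  obtain ⟨_, φ, _⟩ := h
  exact φ.conicalSet_left

theorem locCone (h : Thick n B b L) : LocCone B := by
  obtain ⟨_, φ, _⟩ := h
  refine LocCone.of_conHomeo (isCompact_TD n) ?_ φ.symm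
  rw [TD_eq]
  rcases Nat.eq_zero_or_pos n with h0 | h0
  · subst h0
    have h1 : ConicalOn (fun p : (Fin 0 → ℝ) × ℝ => p.2) univ :=
      conicalOn_clm (ContinuousLinearMap.snd ℝ (Fin _ → ℝ) ℝ)
    have : closedBall (0 : (Fin 0 → ℝ) × ℝ) 1 = {p | -1 ≤ p.2} ∩ {p | p.2 ≤ 1} := by
      rw [← TD_eq]
      ext ⟨x, t⟩
      have hx : x = 0 := Subsingleton.elim _ _
      simp [TD, hx]
    rw [this]
    exact (locCone_setOf_ge continuous_snd h1 _).inter (locCone_setOf_le continuous_snd h1 _)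
  · rw [← TD_eq]
    have h1 : ConicalOn (fun p : (Fin n → ℝ) × ℝ => p.2) univ :=
      conicalOn_clm (ContinuousLinearMap.snd ℝ (Fin _ → ℝ) ℝ)
    have h2 : ∀ i, ConicalOn (fun p : (Fin n → ℝ) × ℝ => p.1 i) univ := fun i =>
      conicalOn_clm ((ContinuousLinearMap.proj (R := ℝ) (φ := fun _ : Fin n => ℝ) i).comp
        (ContinuousLinearMap.fst ℝ _ ℝ))
    have : TD n = (⋂ i, ({p : (Fin n → ℝ) × ℝ | -1 ≤ p.1 i} ∩ {p | p.1 i ≤ 1})) ∩
        ({p | -1 ≤ p.2} ∩ {p | p.2 ≤ 1}) := by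
      ext ⟨x, t⟩
      simp only [TD, mem_prod, mem_closedBall_zero_iff, pi_norm_le_iff_of_nonneg zero_le_one,
        Real.norm_eq_abs, abs_le, mem_Icc, mem_inter_iff, mem_iInter, mem_ofPred_eq]
    rw [this]
    refine LocCone.inter (LocCone.iInter_finite fun i => ?_) ?_
    · exact (locCone_setOf_ge (by fun_prop) (h2 i) _).inter
        (locCone_setOf_le (by fun_prop) (h2 i) _)
    · exact (locCone_setOf_ge continuous_snd h1 _).inter (locCone_setOf_le continuous_snd h1 _)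

theorem conicalSet_lat (h : Thick n B b L) : ConicalSet L := by
  obtain ⟨hL, φ, _, hφ⟩ := h
  have h1 : φ.symm.toFun '' TL n = L := by
    rw [← hφ, image_image]
    have : ∀ x ∈ L, φ.symm.toFun (φ.toFun x) = x := fun x hx => φ.left_inv (hL hx)
    rw [image_congr this, image_id']
  rw [← h1]
  exact φ.symm.conicalSet_image (conicalSet_TL n) (TL_subset_TD n)

theorem isCompact_lat (h : Thick n B b L) : IsCompact L := by
  obtain ⟨hL, φ, _, hφ⟩ := h
  have h1 : φ.symm.toFun '' TL n = L := by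
    rw [← hφ, image_image]
    have : ∀ x ∈ L, φ.symm.toFun (φ.toFun x) = x := fun x hx => φ.left_inv (hL hx)
    rw [image_congr this, image_id']
  rw [← h1]
  exact (isCompact_TL n).image_of_continuousOn (φ.symm.cont.mono (TL_subset_TD n))

/-- **Level-preserving extension** (T1). -/
theorem exists_extend {B' L' : Set F} {b' : F → ℝ} (h : Thick n B b L) (h' : Thick n B' b' L')
    (lam : ConHomeo L L') (hl : ∀ x ∈ L, b' (lam.toFun x) = b x) :
    ∃ Φ : ConHomeo B B', EqOn Φ.toFun lam.toFun L ∧ Φ.toFun '' L = L' ∧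
      ∀ x ∈ B, b' (Φ.toFun x) = b x := by
  have hLc := h.conicalSet_lat
  have hLc' := h'.conicalSet_lat
  obtain ⟨hL, φ, hφ1, hφ2⟩ := h
  obtain ⟨hL', φ', hφ1', hφ2'⟩ := h'
  let α : ConHomeo L (TL n) := (φ.restr hLc hL).cast rfl hφ2
  let α' : ConHomeo L' (TL n) := (φ'.restr hLc' hL').cast rfl hφ2'
  have hinv : ∀ y ∈ TD n, b (φ.invFun y) = y.2 := fun y hy => by
    rw [← hφ1 _ (φ.mapsTo_inv hy), φ.right_inv hy]
  have hinv' : ∀ y ∈ TD n, b' (φ'.invFun y) = y.2 := fun y hy => by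
    rw [← hφ1' _ (φ'.mapsTo_inv hy), φ'.right_inv hy]
  obtain ⟨Ψ, hΨ1, hΨ2⟩ := exists_extend_TD n (α.symm.trans (lam.trans α')) (by
    intro y hy
    have h1 : φ.invFun y ∈ L := α.mapsTo_inv hy
    show (φ'.toFun (lam.toFun (φ.invFun y))).2 = y.2
    rw [hφ1' _ (hL' (lam.mapsTo h1)), hl _ h1, hinv y (TL_subset_TD n hy)])
  have key : EqOn (φ.trans (Ψ.trans φ'.symm)).toFun lam.toFun L := by
    intro x hx
    show φ'.invFun (Ψ.toFun (φ.toFun x)) = lam.toFun x
    have h1 : φ.toFun x ∈ TL n := hφ2 ▸ mem_image_of_mem _ hx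
    rw [hΨ1 h1]
    show φ'.invFun (φ'.toFun (lam.toFun (φ.invFun (φ.toFun x)))) = lam.toFun x
    rw [φ.left_inv (hL hx), φ'.left_inv (hL' (lam.mapsTo hx))]
  refine ⟨φ.trans (Ψ.trans φ'.symm), key, ?_, ?_⟩
  · rw [key.image_eq, lam.image_eq]
  · intro x hx
    show b' (φ'.invFun (Ψ.toFun (φ.toFun x))) = b x
    rw [hinv' _ (Ψ.mapsTo (φ.mapsTo hx)), hΨ2 _ (φ.mapsTo hx), hφ1 x hx]

/-- transport of thick discs -/
theorem of_homeo {B' : Set F} {b' : F → ℝ} (h : Thick n B b L) (Φ : ConHomeo B' B)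
    (hΦ : ∀ x ∈ B', b (Φ.toFun x) = b' x) {L' : Set F} (hL' : L' ⊆ B') (hΦL : Φ.toFun '' L' = L) :
    Thick n B' b' L' := by
  obtain ⟨hL, φ, hφ1, hφ2⟩ := h
  refine ⟨hL', Φ.trans φ, fun x hx => ?_, ?_⟩
  · show (φ.toFun (Φ.toFun x)).2 = b' x
    rw [hφ1 _ (Φ.mapsTo hx), hΦ x hx]
  · rw [← hφ2, ← hΦL, image_image]
    rfl

theorem congr {b' : E → ℝ} (h : Thick n B b L) (hb : EqOn b' b B) : Thick n B b' L := by
  obtain ⟨hL, φ, hφ1, hφ2⟩ := h
  exact ⟨hL, φ, fun x hx => (hφ1 x hx).trans (hb hx).symm, hφ2⟩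

/-- reflection of the levels -/
theorem neg (h : Thick n B b L) : Thick n B (fun x => -b x) L := by
  obtain ⟨hL, φ, hφ1, hφ2⟩ := h
  let ν : ConHomeo (TD n) (TD n) :=
    { toFun := fun p => (p.1, -p.2)
      invFun := fun p => (p.1, -p.2)
      mapsTo := fun p hp => ⟨hp.1, by
        have := hp.2; simp only [mem_Icc] at this ⊢; constructor <;> linarith [this.1, this.2]⟩
      mapsTo_inv := fun p hp => ⟨hp.1, by
        have := hp.2; simp only [mem_Icc] at this ⊢; constructor <;> linarith [this.1, this.2]⟩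
      left_inv := fun p _ => by simp
      right_inv := fun p _ => by simp
      cont := by fun_prop
      cont_inv := by fun_prop
      conical := (conicalOn_fst (conicalSet_TD n)).prodMk (conicalOn_snd (conicalSet_TD n)).neg }
  refine ⟨hL, φ.trans ν, fun x hx => ?_, ?_⟩
  · show -(φ.toFun x).2 = -b x
    rw [hφ1 x hx]
  · show (ν.toFun ∘ φ.toFun) '' L = TL n
    rw [image_comp, hφ2]
    ext ⟨x, t⟩
    constructor
    · rintro ⟨⟨y, s⟩, ⟨hy, hs⟩, h⟩
      have h1 : (y, -s) = (x, t) := h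
      rw [Prod.mk.injEq] at h1
      refine ⟨h1.1 ▸ hy, ?_⟩
      rw [← h1.2]
      simp only [mem_Icc] at hs ⊢
      constructor <;> linarith [hs.1, hs.2]
    · rintro ⟨hx, ht⟩
      refine ⟨(x, -t), ⟨hx, ?_⟩, by show (x, - -t) = (x, t); rw [neg_neg]⟩
      simp only [mem_Icc] at ht ⊢
      constructor <;> linarith [ht.1, ht.2]

theorem sign {σ : ℝ} (hσ : σ = 1 ∨ σ = -1) (h : Thick n B b L) :
    Thick n B (fun x => σ * b x) L := by
  rcases hσ with rfl | rfl
  · exact h.congr fun x _ => by simp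
  · exact h.neg.congr fun x _ => by simp

end Thick

end P073.H936
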