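import Vale.Agent.P073.H936.Thick
import Vale.Agent.P073.PA644.Sub
import Vale.Agent.P073.H339.SpecPlanar

/-!
# P073, block H936: disjoint annuli in the plane

`exists_inner`: finitely many disjoint conical annuli in the open square; for each of them one of
the two boundary circles is the inner one, and the discs form a laminar family.
-/

open Set Metric Topology Filter

namespace P073.H936

open P073.PA644
open P073.H339 (pairHomeo pe pe_norm pe_symm_norm conSphere_iff specPlanar)

/-- the plane -/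
abbrev P2 : Type := Fin 2 → ℝ

theorem isPreconnected_sphere_P2 : IsPreconnected (sphere (0 : P2) 1) := by
  refine (isConnected_sphere (E := Fin 2 → ℝ) ?_ 0 zero_le_one).isPreconnected
  rw [rank_fun']
  simp

theorem sphere_P2_nonempty : (sphere (0 : P2) 1).Nonempty :=
  NormedSpace.sphere_nonempty.2 zero_le_one

theorem ball_nonempty_bdry {n : ℕ} {E : Type*} [NormedAddCommGroup E] [NormedSpace ℝ E]
    {C B : Set E} (h : ConBall (n + 1) C B) : B.Nonempty := by
  obtain ⟨φ, hφ⟩ := h.eq_preimage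
  rw [← hφ]
  exact (NormedSpace.sphere_nonempty.2 zero_le_one).image _

theorem interior_nonempty_of_conBall {n : ℕ} {C B : Set (Fin (n + 1) → ℝ)}
    (h : ConBall (n + 1) C B) : (interior C).Nonempty := by
  obtain ⟨x, hx⟩ := ball_nonempty_bdry h
  have h1 : x ∈ closure (interior C) := by
    rw [closure_interior_conBall h]; exact h.1 hx
  exact closure_nonempty_iff.1 ⟨x, h1⟩

/-- two planar conical discs with the same boundary are equal -/
theorem conBall_two_unique {O O' γ : Set P2} (h : ConBall 2 O γ) (h' : ConBall 2 O' γ) :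
    O = O' := by
  suffices ∃ K : Set P2, ∀ O : Set P2, ConBall 2 O γ → O = K by
    obtain ⟨K, hK⟩ := this
    rw [hK O h, hK O' h']
  have hc : IsCircle (pairHomeo.symm.toFun '' γ) :=
    H339.IsCircle.image (conSphere_iff.1 h.conSphere) pairHomeo.symm (subset_univ _)
  obtain ⟨D, hD, hf⟩ := SCH.schoenflies hc
  have hfr : frontier (pe '' D) = γ := by
    rw [← pe.image_frontier, hf, image_image]
    have : ∀ x ∈ γ, pe (pairHomeo.symm.toFun x) = x := fun x _ =>
      pairHomeo.right_inv (mem_univ x)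
    rw [image_congr this, image_id']
  have hcl : IsClosed (pe '' D) := pe.isClosedMap _ hD.isClosed
  have hbd : Bornology.IsBounded (pe '' D) := (hD.isCompact.image pe.continuous).isBounded
  have hint : IsPreconnected (interior (pe '' D)) := by
    rw [← pe.image_interior]
    exact hD.isConnected_interior.isPreconnected.image _ pe.continuous.continuousOn
  have hco : IsPreconnected (pe '' D)ᶜ := by
    rw [← pe.image_compl]
    exact hD.isPreconnected_compl.image _ pe.continuous.continuousOn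
  have hintne : (interior (pe '' D)).Nonempty := by
    rw [← pe.image_interior]
    exact hD.isConnected_interior.nonempty.image _
  refine ⟨pe '' D, fun O h => ?_⟩
  have hfO : frontier O = γ := frontier_conBall h
  have hne := interior_nonempty_of_conBall h
  have hOcl : IsClosed O := h.isClosed
  have hdis1 : Disjoint (interior O) (frontier (pe '' D)) := by
    rw [hfr, ← hfO, Set.disjoint_left]
    exact fun x h1 h2 => h2.2 h1
  have hdis2 : Disjoint (interior (pe '' D)) (frontier O) := by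
    rw [hfO, ← hfr, Set.disjoint_left]
    exact fun x h1 h2 => h2.2 h1
  have hdis3 : Disjoint (pe '' D)ᶜ (frontier O) := by
    rw [hfO, ← hfr, disjoint_compl_left_iff_subset]
    exact hcl.frontier_subset
  have h1 : interior O ⊆ interior (pe '' D) := by
    rcases subset_interior_or_compl (preconn_interior_conBall h) hdis1 with h1 | h1
    · exact h1
    · exfalso
      rw [hcl.closure_eq] at h1
      rcases subset_interior_or_compl hco hdis3 with h2 | h2
      · have hb : Bornology.IsBounded (pe '' D)ᶜ :=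
          h.isCompact.isBounded.subset (h2.trans interior_subset)
        have hb' : Bornology.IsBounded (univ : Set P2) := by
          rw [← union_compl_self (pe '' D)]
          exact hbd.union hb
        exact NormedSpace.unbounded_univ ℝ P2 hb'
      · rw [hOcl.closure_eq] at h2
        obtain ⟨x, hx⟩ := hne
        exact h2 (h1 hx) (interior_subset hx)
  have h2 : interior (pe '' D) ⊆ interior O := by
    rcases subset_interior_or_compl hint hdis2 with h2 | h2
    · exact h2
    · exfalso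
      rw [hOcl.closure_eq] at h2
      obtain ⟨x, hx⟩ := hne
      exact h2 (h1 hx) (interior_subset hx)
  have e1 : O = interior O ∪ frontier O := by
    rw [hOcl.frontier_eq, union_sdiff_cancel interior_subset]
  have e2 : pe '' D = interior (pe '' D) ∪ frontier (pe '' D) := by
    rw [hcl.frontier_eq, union_sdiff_cancel interior_subset]
  rw [e1, e2, hfO, hfr, h1.antisymm h2]

/-- the affine homeomorphism `[0,1] → [-1,1]` which starts at `lv σ` -/
noncomputable def affSig (σ : Bool) : ConHomeo (Icc (0:ℝ) 1) (Icc (-1:ℝ) 1) where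
  toFun := fun t => lv σ * (1 - 2 * t)
  invFun := fun y => (1 - lv σ * y) / 2
  mapsTo := fun t ht => by
    cases σ <;> simp only [lv, mem_Icc, if_true, Bool.false_eq_true, if_false] <;>
      constructor <;> linarith [ht.1, ht.2]
  mapsTo_inv := fun t ht => by
    cases σ <;> simp only [lv, mem_Icc, if_true, Bool.false_eq_true, if_false] <;>
      constructor <;> linarith [ht.1, ht.2]
  left_inv := fun t _ => by
    cases σ <;> simp only [lv, if_true, Bool.false_eq_true, if_false] <;> ring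
  right_inv := fun t _ => by
    cases σ <;> simp only [lv, if_true, Bool.false_eq_true, if_false] <;> ring
  cont := by fun_prop
  cont_inv := by fun_prop
  conical := by
    intro x hx
    obtain ⟨r, hr, H⟩ := conicalSet_Icc (0:ℝ) 1 x hx
    refine ⟨r, hr, fun v hv hxv t ht => ⟨H v hv hxv t ht, ?_⟩⟩
    simp only [smul_eq_mul]
    ring

theorem affSig_zero (σ : Bool) : (affSig σ).toFun 0 = lv σ := by
  simp [affSig]

theorem affSig_one (σ : Bool) : (affSig σ).toFun 1 = lv (!σ) := by
  cases σ <;> simp [affSig, lv] <;> norm_num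

section ring

variable {E F : Type*} [NormedAddCommGroup E] [NormedSpace ℝ E]
  [NormedAddCommGroup F] [NormedSpace ℝ F]

/-- the boundary circles of a parametrised annulus -/
def ring {A : Set E} (a : ConHomeo (sphere (0 : P2) 1 ×ˢ Icc (-1:ℝ) 1) A) (σ : Bool) : Set E :=
  a.toFun '' (sphere (0 : P2) 1 ×ˢ {lv σ})

variable {A : Set E} (a : ConHomeo (sphere (0 : P2) 1 ×ˢ Icc (-1:ℝ) 1) A)

theorem ring_sub (σ : Bool) : ring a σ ⊆ A := by
  rintro _ ⟨⟨x, t⟩, ⟨hx, ht⟩, rfl⟩
  exact a.mapsTo ⟨hx, by rw [show t = lv σ from ht]; exact lv_mem σ⟩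

theorem ring_nonempty (σ : Bool) : (ring a σ).Nonempty := by
  obtain ⟨x, hx⟩ := sphere_P2_nonempty
  exact ⟨_, (x, lv σ), ⟨hx, rfl⟩, rfl⟩

theorem sub_cyl (σ : Bool) : (sphere (0 : P2) 1 ×ˢ {lv σ} : Set (P2 × ℝ)) ⊆
    sphere (0 : P2) 1 ×ˢ Icc (-1:ℝ) 1 := by
  rintro ⟨x, t⟩ ⟨hx, ht⟩
  exact ⟨hx, by rw [show t = lv σ from ht]; exact lv_mem σ⟩

theorem ring_disj : Disjoint (ring a true) (ring a false) := by
  rw [Set.disjoint_left]
  rintro _ ⟨⟨x, t⟩, hx, rfl⟩ ⟨⟨y, s⟩, hy, h⟩
  have h1 := a.injOn (sub_cyl false hy) (sub_cyl true hx) h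
  rw [Prod.mk.injEq] at h1
  have h2 : lv false = lv true := by
    rw [← show s = lv false from hy.2, ← show t = lv true from hx.2]; exact h1.2
  exact absurd (lv_inj h2) (by decide)

/-- the boundary circle as a copy of the sphere -/
noncomputable def ringHomeo (σ : Bool) : ConHomeo (sphere (0 : P2) 1) (ring a σ) :=
  (slice (conicalSet_sphere_pi 2) (lv σ)).trans
    (a.restr ((slice (conicalSet_sphere_pi 2) (lv σ)).conicalSet_right) (sub_cyl σ))

theorem ringHomeo_apply (σ : Bool) (x : P2) : (ringHomeo a σ).toFun x = a.toFun (x, lv σ) := rfl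

theorem conSphere_ring (σ : Bool) : ConSphere 1 (ring a σ) := ⟨(ringHomeo a σ).symm⟩

/-- adding the annulus to a disc attached along one of its boundary circles -/
theorem conBall_add {I : Set E} {σ : Bool} (hI : ConBall 2 I (ring a σ)) (hIA : I ∩ A = ring a σ) :
    ConBall 2 (I ∪ A) (ring a (!σ)) := by
  let lam : ConHomeo (ring a σ ×ˢ Icc (0:ℝ) 1) A :=
    ((ringHomeo a σ).symm.prod (affSig σ)).trans a
  have h0 : ∀ y ∈ ring a σ, lam.toFun (y, 0) = y := by
    intro y hy
    show a.toFun ((ringHomeo a σ).invFun y, (affSig σ).toFun 0) = y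
    rw [affSig_zero, ← ringHomeo_apply, (ringHomeo a σ).right_inv hy]
  have h1 := hI.add_collar lam h0 (by rw [inter_comm, hIA])
  have h2 : lam.toFun '' (ring a σ ×ˢ {1}) = ring a (!σ) := by
    ext z
    constructor
    · rintro ⟨⟨y, t⟩, ⟨hy, ht⟩, rfl⟩
      have ht : t = 1 := ht
      subst ht
      show a.toFun ((ringHomeo a σ).invFun y, (affSig σ).toFun 1) ∈ _
      rw [affSig_one]
      exact ⟨((ringHomeo a σ).invFun y, lv (!σ)), ⟨(ringHomeo a σ).mapsTo_inv hy, rfl⟩, rfl⟩
    · rintro ⟨⟨x, t⟩, ⟨hx, ht⟩, rfl⟩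
      have ht : t = lv (!σ) := ht
      subst ht
      refine ⟨((ringHomeo a σ).toFun x, 1), ⟨(ringHomeo a σ).mapsTo hx, rfl⟩, ?_⟩
      show a.toFun ((ringHomeo a σ).invFun ((ringHomeo a σ).toFun x), (affSig σ).toFun 1) = _
      rw [affSig_one, (ringHomeo a σ).left_inv hx]
  rwa [h2] at h1

theorem isPreconnected_annulus_diff (σ : Bool) : IsPreconnected (A \ ring a σ) := by
  have e : A \ ring a σ = a.toFun '' (sphere (0 : P2) 1 ×ˢ (Icc (-1:ℝ) 1 \ {lv σ})) := by
    have e1 : a.toFun '' ((sphere (0 : P2) 1 ×ˢ Icc (-1:ℝ) 1) \ (sphere (0 : P2) 1 ×ˢ {lv σ})) =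
        A \ ring a σ := by
      rw [a.injOn.image_sdiff_subset (sub_cyl σ), a.image_eq]; rfl
    rw [← e1]
    congr 1
    ext ⟨x, t⟩
    constructor
    · rintro ⟨⟨hx, ht⟩, h⟩; exact ⟨hx, ht, fun h2 => h ⟨hx, h2⟩⟩
    · rintro ⟨hx, ht, h⟩; exact ⟨⟨hx, ht⟩, fun h2 => h h2.2⟩
  have h2 : IsPreconnected (Icc (-1:ℝ) 1 \ {lv σ}) := by
    cases σ
    · have : Icc (-1:ℝ) 1 \ {lv false} = Ioc (-1) 1 := by
        ext x
        simp only [lv, Bool.false_eq_true, if_false, Set.mem_sdiff, mem_Icc, mem_singleton_iff, mem_Ioc]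
        constructor
        · rintro ⟨⟨h1, h2⟩, h3⟩; exact ⟨lt_of_le_of_ne h1 (Ne.symm h3), h2⟩
        · rintro ⟨h1, h2⟩; exact ⟨⟨h1.le, h2⟩, h1.ne'⟩
      rw [this]; exact isPreconnected_Ioc
    · have : Icc (-1:ℝ) 1 \ {lv true} = Ico (-1) 1 := by
        ext x
        simp only [lv, if_true, Set.mem_sdiff, mem_Icc, mem_singleton_iff, mem_Ico]
        constructor
        · rintro ⟨⟨h1, h2⟩, h3⟩; exact ⟨h1, lt_of_le_of_ne h2 h3⟩
        · rintro ⟨h1, h2⟩; exact ⟨⟨h1, h2.le⟩, h2.ne⟩
      rw [this]; exact isPreconnected_Ico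
  rw [e]
  refine (isPreconnected_sphere_P2.prod h2).image _ (a.cont.mono ?_)
  exact prod_mono (Subset.refl _) sdiff_subset

end ring

open Classical in
/-- **Disjoint annuli in the plane.** -/
theorem exists_inner {J : Type*} [Finite J] {A : J → Set P2}
    (a : ∀ j, ConHomeo (sphere (0 : P2) 1 ×ˢ Icc (-1:ℝ) 1) (A j)) (hA : ∀ j, A j ⊆ ball 0 1)
    (hd : ∀ i j, i ≠ j → Disjoint (A i) (A j)) :
    ∃ (e : J → Bool) (I : J → Set P2), (∀ j, ConBall 2 (I j) (ring (a j) (!e j))) ∧
      (∀ j, ConBall 2 (I j ∪ A j) (ring (a j) (e j))) ∧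
      (∀ j, I j ∩ A j = ring (a j) (!e j)) ∧ (∀ j, I j ∪ A j ⊆ ball 0 1) ∧
      ∀ i j, i ≠ j → I i ∪ A i ⊆ I j \ ring (a j) (!e j) ∨
        I j ∪ A j ⊆ I i \ ring (a i) (!e i) ∨ Disjoint (I i ∪ A i) (I j ∪ A j) := by
  cases nonempty_fintype J
  let n := Fintype.card (J × Bool)
  let f : Fin n ≃ J × Bool := (Fintype.equivFin (J × Bool)).symm
  have hring : ∀ p q : J × Bool, p ≠ q → Disjoint (ring (a p.1) p.2) (ring (a q.1) q.2) := by
    rintro ⟨i, σ⟩ ⟨j, τ⟩ hpq
    by_cases hij : i = j
    · subst hij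
      have hστ : σ ≠ τ := fun h => hpq (by rw [h])
      cases σ <;> cases τ
      · exact absurd rfl hστ
      · exact (ring_disj (a i)).symm
      · exact ring_disj (a i)
      · exact absurd rfl hστ
    · exact (hd i j hij).mono (ring_sub _ _) (ring_sub _ _)
  let rg : J × Bool → Set P2 := fun p => ring (a p.1) p.2
  obtain ⟨Δ, h1, h2, h3, h4, -⟩ := specPlanar n (fun k => rg (f k))
    (fun k => conSphere_ring _ _) (fun k l hkl => hring _ _ (fun h => hkl (f.injective h)))
    (fun k => (ring_sub _ _).trans (hA _))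
  -- reindexing
  let Δ' : J → Bool → Set P2 := fun j σ => Δ (f.symm (j, σ))
  have g1 : ∀ j σ, ConBall 2 (Δ' j σ) (ring (a j) σ) := by
    intro j σ
    have := h1 (f.symm (j, σ))
    rwa [Equiv.apply_symm_apply] at this
  have g2 : ∀ j σ, Δ' j σ ⊆ ball 0 1 := fun j σ => h2 _
  have g4 : ∀ p q : J × Bool, p ≠ q → Δ' p.1 p.2 ⊆ Δ' q.1 q.2 \ ring (a q.1) q.2 ∨
      Δ' q.1 q.2 ⊆ Δ' p.1 p.2 \ ring (a p.1) p.2 ∨ Disjoint (Δ' p.1 p.2) (Δ' q.1 q.2) := by
    intro p q hpq
    have := h4 (f.symm p) (f.symm q) (fun h => hpq (f.symm.injective h))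
    rwa [Equiv.apply_symm_apply, Equiv.apply_symm_apply] at this
  -- the inner sign
  have hin : ∀ j, ∃ σ, Δ' j σ ∩ A j = ring (a j) σ := by
    intro j
    by_contra hcon
    push Not at hcon
    have hins : ∀ σ, A j \ ring (a j) σ ⊆ Δ' j σ \ ring (a j) σ := by
      intro σ
      have hfr : frontier (Δ' j σ) = ring (a j) σ := frontier_conBall (g1 j σ)
      rcases subset_interior_or_compl (isPreconnected_annulus_diff (a j) σ) (by
        rw [hfr]; exact Set.disjoint_left.2 fun x hx => hx.2) with h | h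
      · rwa [interior_conBall (g1 j σ)] at h
      · exfalso
        apply hcon σ
        rw [(g1 j σ).isClosed.closure_eq] at h
        apply Subset.antisymm
        · rintro x ⟨hx1, hx2⟩
          by_contra hx3
          exact h ⟨hx2, hx3⟩ hx1
        · exact fun x hx => ⟨(g1 j σ).1 hx, ring_sub _ _ hx⟩
    have k1 : ring (a j) false ⊆ Δ' j true \ ring (a j) true := fun x hx =>
      hins true ⟨ring_sub _ _ hx, fun h => Set.disjoint_left.1 (ring_disj (a j)) h hx⟩
    have k2 : ring (a j) true ⊆ Δ' j false \ ring (a j) false := fun x hx =>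
      hins false ⟨ring_sub _ _ hx, fun h => Set.disjoint_left.1 (ring_disj (a j)) hx h⟩
    obtain ⟨x, hx⟩ := ring_nonempty (a j) false
    obtain ⟨y, hy⟩ := ring_nonempty (a j) true
    rcases g4 (j, true) (j, false) (by simp) with h | h | h
    · exact (h (k1 hx).1).2 hx
    · exact (h (k2 hy).1).2 hy
    · exact Set.disjoint_left.1 h (k1 hx).1 ((g1 j false).1 hx)
  choose τ hτ using hin
  have hO : ∀ j, Δ' j (τ j) ∪ A j = Δ' j (!τ j) := fun j =>
    conBall_two_unique (conBall_add (a j) (g1 j (τ j)) (hτ j)) (g1 j (!τ j))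
  refine ⟨fun j => !τ j, fun j => Δ' j (τ j), ?_, ?_, ?_, ?_, ?_⟩
  · intro j; rw [Bool.not_not]; exact g1 j _
  · intro j; exact conBall_add (a j) (g1 j (τ j)) (hτ j)
  · intro j; rw [Bool.not_not]; exact hτ j
  · intro j; rw [hO j]; exact g2 _ _
  · intro i j hij
    simp only [Bool.not_not]
    -- comparison of an outer disc with an inner one
    have key : ∀ i j, i ≠ j → Δ' i (!τ i) ⊆ Δ' j (!τ j) →
        Δ' i (!τ i) ⊆ Δ' j (τ j) \ ring (a j) (τ j) := by
      intro i j hij hsub
      rcases g4 (i, !τ i) (j, τ j) (fun h => hij (Prod.mk.injEq .. ▸ h).1) with h | h | h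
      · exact h
      · exfalso
        obtain ⟨x, hx⟩ := ring_nonempty (a i) (!τ i)
        have h5 : x ∈ Δ' j (!τ j) := hsub ((g1 i _).1 hx)
        rw [← hO j] at h5
        rcases h5 with h5 | h5
        · exact (h h5).2 hx
        · exact Set.disjoint_left.1 (hd i j hij) (ring_sub _ _ hx) h5
      · exfalso
        obtain ⟨x, hx⟩ := ring_nonempty (a i) (!τ i)
        have h5 : x ∈ Δ' j (!τ j) := hsub ((g1 i _).1 hx)
        rw [← hO j] at h5
        rcases h5 with h5 | h5
        · exact Set.disjoint_left.1 h ((g1 i _).1 hx) h5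
        · exact Set.disjoint_left.1 (hd i j hij) (ring_sub _ _ hx) h5
    rw [hO i, hO j]
    rcases g4 (i, !τ i) (j, !τ j) (fun h => hij (Prod.mk.injEq .. ▸ h).1) with h | h | h
    · exact Or.inl (key i j hij (h.trans sdiff_subset))
    · exact Or.inr (Or.inl (key j i hij.symm (h.trans sdiff_subset)))
    · exact Or.inr (Or.inr h)

end P073.H936
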