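import Vale.Agent.P073.H936.RTHook
import Vale.Agent.P073.H919.InMesh

/-!
# P073, block H936: [RT-HOOK], the one-family hook in all boxes, global form
-/

open Set Metric Topology Filter

namespace P073.H936.K3

open P073 P073.H936 P073.H880 P073.H669 P073.H579 P073.H142

variable {E : Type} [NormedAddCommGroup E] [NormedSpace ℝ E] {Ω : Set E} {Λ : Set (Fin 3 → ℝ)}

/-- output of the one-family hook in all boxes -/
structure HTube {γ : Type*} (hΩ : IsOpen Ω) {X : γ → HBox} {h : ConHomeo Ω Λ}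
    (I : ∀ b, (X b).In h) (h' : ConHomeo Ω Λ) : Prop where
  glued : Glued X h h'
  tube : ∀ b, ∃ g : ConHomeo ((X b).U h) (Icc (X b).lo (X b).hi), ((I b).boxK hΩ).Tube g ∧
    EqOn h'.toFun g.toFun ((X b).U h) ∧ EqOn h'.invFun g.invFun (X b).P

theorem exists_htube {γ : Type*} (hΩ : IsOpen Ω) (hΛ : IsOpen Λ) (h : ConHomeo Ω Λ)
    (X : γ → HBox) (I : ∀ b, (X b).In h)
    (hfin : ∀ z ∈ Λ, ∃ O ∈ 𝓝 z, {b | ((X b).P ∩ O).Nonempty}.Finite)
    (hdis : ∀ b b', b ≠ b' → Disjoint (interior (X b).P) (X b').P)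
    (hone : ∀ b i j, (X b).side i = (X b).side j) : ∃ h' : ConHomeo Ω Λ, HTube hΩ I h' := by
  obtain ⟨h', h1, h2⟩ := exists_hook_tube hΩ hΛ h X I hfin hdis hone
  exact ⟨h', h1, h2⟩

namespace HTube

variable {γ : Type*} {hΩ : IsOpen Ω} {X : γ → HBox} {h : ConHomeo Ω Λ} {I : ∀ b, (X b).In h}
  {h' : ConHomeo Ω Λ}

theorem mem (O : HTube hΩ I h') (b : γ) {x : E} (hx : x ∈ Ω) :
    h'.toFun x ∈ (X b).P ↔ h.toFun x ∈ (X b).P := O.glued.mem b x hx

/-- **[KEEP]** -/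
theorem keep (O : HTube hΩ I h') (b : γ) {i : (X b).ι} {x : E} (hx : x ∈ Ω)
    (hxP : h'.toFun x ∈ (X b).P) (hV : ∀ q, x ∉ interior ((I b).K.C q))
    (h1 : |h'.toFun x ((X b).ax ((X b).side i)) - (X b).c i| ≤ (X b).w i) :
    |h.toFun x ((X b).ax ((X b).side i)) - (X b).c i| ≤ (X b).w i ∧
      h.toFun x ((X b).ax ((X b).side i)) = h'.toFun x ((X b).ax ((X b).side i)) := by
  obtain ⟨g, hg, h2, -⟩ := O.tube b
  have hxU : x ∈ (X b).U h := (HBox.mem_U (I b) hx).2 ((O.mem b hx).1 hxP)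
  rw [h2 hxU] at h1 ⊢
  exact hg.keep hxU hV h1

/-- **[FIBRE]** -/
theorem fibre (O : HTube hΩ I h') (b : γ) {i : (X b).ι} {x x' : E} (hx : x ∈ Ω) (hx' : x' ∈ Ω)
    (hxP : h'.toFun x ∈ (X b).P) (hxP' : h.toFun x' ∈ (X b).P)
    (hV : ∀ q, x ∉ interior ((I b).K.C q))
    (h1 : |h'.toFun x ((X b).ax ((X b).side i)) - (X b).c i| ≤ (X b).w i)
    (h2 : |h.toFun x' ((X b).ax ((X b).side i)) - (X b).c i| ≤ (X b).w i)
    (h3 : ∀ l, l ≠ (X b).ax ((X b).side i) → h.toFun x' l = h.toFun x l) :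
    (∀ l, l ≠ (X b).ax ((X b).side i) → h'.toFun x' l = h'.toFun x l) ∧
      h'.toFun x' ((X b).ax ((X b).side i)) = h.toFun x' ((X b).ax ((X b).side i)) := by
  obtain ⟨g, hg, h4, -⟩ := O.tube b
  have hxU : x ∈ (X b).U h := (HBox.mem_U (I b) hx).2 ((O.mem b hx).1 hxP)
  have hxU' : x' ∈ (X b).U h := (HBox.mem_U (I b) hx').2 hxP'
  rw [h4 hxU] at h1 ⊢
  rw [h4 hxU']
  exact hg.fibre hxU hxU' hV h1 h2 h3

/-- vertical sets stay vertical -/
theorem bandInv (O : HTube hΩ I h') (b : γ) {M : Set E}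
    (hM : BandInv (X b).side (X b).ax (X b).c (X b).w ((X b).U h) h.toFun M)
    (hMV : ∀ q, Disjoint M (interior ((I b).K.C q))) :
    BandInv (X b).side (X b).ax (X b).c (X b).w ((X b).U h) h'.toFun M := by
  obtain ⟨g, hg, h2, -⟩ := O.tube b
  have := (hg.bandInv (M := M) hM hMV)
  intro i x hx x' hx' h3 h4 h5
  rw [h2 hx] at h3
  rw [h2 hx'] at h4
  refine this i x hx x' hx' h3 h4 fun l hl => ?_
  rw [← h2 hx, ← h2 hx']; exact h5 l hl

/-- the drawn cells are vertical -/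
theorem bandInv_cell (O : HTube hΩ I h') (b : γ) (q : (X b).Q) :
    BandInv (X b).side (X b).ax (X b).c (X b).w ((X b).U h) h'.toFun ((I b).K.C q) := by
  obtain ⟨g, hg, h2, -⟩ := O.tube b
  have := hg.bandInv_cell q
  intro i x hx x' hx' h3 h4 h5
  rw [h2 hx] at h3
  rw [h2 hx'] at h4
  refine this i x hx x' hx' h3 h4 fun l hl => ?_
  rw [← h2 hx, ← h2 hx']; exact h5 l hl

/-- the image of a vertical set: invariance under moves in the band, in the target -/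
theorem image_update (O : HTube hΩ I h') (b : γ) {M : Set E} (hMΩ : M ⊆ Ω)
    (hM : BandInv (X b).side (X b).ax (X b).c (X b).w ((X b).U h) h'.toFun M) {i : (X b).ι}
    {y : Fin 3 → ℝ} {t : ℝ} (hy : y ∈ (X b).P)
    (hy' : Function.update y ((X b).ax ((X b).side i)) t ∈ (X b).P)
    (h1 : |y ((X b).ax ((X b).side i)) - (X b).c i| ≤ (X b).w i) (h2 : |t - (X b).c i| ≤ (X b).w i)
    (h3 : y ∈ h'.toFun '' M) :
    Function.update y ((X b).ax ((X b).side i)) t ∈ h'.toFun '' M := by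
  classical
  obtain ⟨x, hxM, rfl⟩ := h3
  have hxΩ := hMΩ hxM
  have hsub := (I b).sub
  set y' := Function.update (h'.toFun x) ((X b).ax ((X b).side i)) t with hy'd
  have hyΛ : y' ∈ Λ := hsub hy'
  set x' := h'.invFun y' with hx'd
  have hx'Ω : x' ∈ Ω := h'.mapsTo_inv hyΛ
  have hx'y : h'.toFun x' = y' := h'.right_inv hyΛ
  have hxU : x ∈ (X b).U h := (HBox.mem_U (I b) hxΩ).2 ((O.mem b hxΩ).1 hy)
  have hxU' : x' ∈ (X b).U h := (HBox.mem_U (I b) hx'Ω).2 ((O.mem b hx'Ω).1 (by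
    rw [hx'y]; exact hy'))
  refine ⟨x', hM i x hxU x' hxU' h1 ?_ (fun l hl => ?_) hxM, hx'y⟩
  · rw [hx'y, hy'd, Function.update_self]; exact h2
  · rw [hx'y, hy'd, Function.update_of_ne hl]

end HTube

end P073.H936.K3
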