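import Vale.Agent.P073.H880.Eq4

/-!
# P073, block H936: one family of fibred sheets, fibre preserving equivalence
-/

open Set Metric Topology Filter

namespace P073.H936.K3

open P073 P073.H936 P073.H341 P073.H880

variable {E G : Type*} [NormedAddCommGroup E] [NormedSpace ℝ E]
  [NormedAddCommGroup G] [NormedSpace ℝ G]
  {ι : Type*} {side : ι → Bool} {C B : Set E} {D N : ι → Set E} {s : ι → E → ℝ}
  {C' B' : Set G} {D' N' : ι → Set G} {s' : ι → G → ℝ}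

/-- the pieces of the skeleton -/
def Wo (B : Set E) (N : ι → Set E) : Option ι → Set E
  | none => B
  | some i => N i

theorem W0_one (hone : ∀ i j, side i = side j) : W0 side B N = B := by
  ext x
  rw [mem_W0]
  constructor
  · rintro (h | ⟨a, b, ha, hb, -, -⟩)
    · exact h
    · rw [hone a b, hb] at ha; exact absurd ha (by decide)
  · exact Or.inl

theorem skel_one [Fintype ι] (hone : ∀ i j, side i = side j) :
    skel B (fam side false) N (fam side true) N = ⋃ o, Wo B N o := by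
  rw [skel_eq]
  refine iUnion_congr fun o => ?_
  cases o with
  | none => exact W0_one hone
  | some i => rfl

/-- **Equivalence of one family of fibred sheets, preserving the fibres.** -/
theorem exists_equiv_one [Fintype ι] (S : FSys side C B D N s) (S' : FSys side C' B' D' N' s')
    (hone : ∀ i j, side i = side j) {h : ConHomeo B B'}
    (hD : ∀ i, ∀ x ∈ B, (h.toFun x ∈ D' i ↔ x ∈ D i))
    (hf : ∀ i, ∀ z ∈ D i, z ∈ B → ∀ t ∈ H880.LI,
      h.toFun ((S.F i).Γ.toFun (z, t)) = (S'.F i).Γ.toFun (h.toFun z, t)) :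
    ∃ Φ : ConHomeo C C', EqOn Φ.toFun h.toFun B ∧ (∀ i, Φ.toFun '' D i = D' i) ∧
      ∀ i, ∀ z ∈ D i, ∀ t ∈ H880.LI,
        Φ.toFun ((S.F i).Γ.toFun (z, t)) = (S'.F i).Γ.toFun (Φ.toFun z, t) := by
  -- the middle sheets
  have hψ : ∀ i, ∃ ψ : ConHomeo (D i) (D' i), EqOn ψ.toFun h.toFun (D i ∩ B) := by
    intro i
    have him : h.toFun '' (D i ∩ B) = D' i ∩ B' := by
      ext y
      constructor
      · rintro ⟨x, ⟨hx, hxB⟩, rfl⟩
        exact ⟨(hD i x hxB).2 hx, h.mapsTo hxB⟩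
      · rintro ⟨hy, hyB⟩
        have h1 := h.mapsTo_inv hyB
        have h2 := h.right_inv hyB
        exact ⟨h.invFun y, ⟨(hD i _ h1).1 (by rw [h2]; exact hy), h1⟩, h2⟩
    obtain ⟨ψ, h1, -⟩ := (S.disc i).exists_extend (S'.disc i)
      ((h.restr (S.disc i).conicalSet_bdry inter_subset_right).cast rfl him)
    exact ⟨ψ, h1⟩
  choose ψ hψ using hψ
  let φ : ∀ i, ConHomeo (N i) (N' i) := fun i =>
    ((S.F i).Γ.symm.trans ((ψ i).prod (ConHomeo.refl (conicalSet_Icc (-1:ℝ) 1)))).trans (S'.F i).Γ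
  have φΓ : ∀ i, ∀ z ∈ D i, ∀ t ∈ H880.LI, (φ i).toFun ((S.F i).Γ.toFun (z, t)) =
      (S'.F i).Γ.toFun ((ψ i).toFun z, t) := by
    intro i z hz t ht
    have h1 : (S.F i).Γ.invFun ((S.F i).Γ.toFun (z, t)) = (z, t) :=
      (S.F i).Γ.left_inv (show (z, t) ∈ D i ×ˢ Icc (-1:ℝ) 1 from ⟨hz, ht⟩)
    show (S'.F i).Γ.toFun ((ψ i).toFun ((S.F i).Γ.invFun ((S.F i).Γ.toFun (z, t))).1,
      ((S.F i).Γ.invFun ((S.F i).Γ.toFun (z, t))).2) = _
    rw [h1]
  have φs : ∀ i, ∀ x ∈ N i, s' i ((φ i).toFun x) = s i x := by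
    intro i x hx
    obtain ⟨h1, h2⟩ := (S.F i).Γ.mapsTo_inv hx
    have h3 : (S.F i).Γ.toFun (((S.F i).Γ.invFun x).1, ((S.F i).Γ.invFun x).2) = x :=
      (S.F i).Γ.right_inv hx
    rw [← h3, φΓ i _ h1 _ h2, (S'.F i).lev _ ((ψ i).mapsTo h1) _ h2, (S.F i).lev _ h1 _ h2]
  have φB : ∀ i, ∀ x ∈ N i, x ∈ B → (φ i).toFun x = h.toFun x := by
    intro i x hx hB
    obtain ⟨h1, h2⟩ := (S.F i).Γ.mapsTo_inv hx
    have h3 : (S.F i).Γ.toFun (((S.F i).Γ.invFun x).1, ((S.F i).Γ.invFun x).2) = x :=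
      (S.F i).Γ.right_inv hx
    have h4 : ((S.F i).Γ.invFun x).1 ∈ B := (S.bd i _ h1 _ h2).1 (by rw [h3]; exact hB)
    rw [← h3, φΓ i _ h1 _ h2, hf i _ h1 h4 _ h2, hψ i ⟨h1, h4⟩]
  have hmem : ∀ i, ∀ y ∈ N' i, y ∈ B' → h.invFun y ∈ N i := by
    intro i y hy hyB
    obtain ⟨h1, h2⟩ := (S'.F i).Γ.mapsTo_inv hy
    have h3 : (S'.F i).Γ.toFun (((S'.F i).Γ.invFun y).1, ((S'.F i).Γ.invFun y).2) = y :=
      (S'.F i).Γ.right_inv hy
    have h4 : ((S'.F i).Γ.invFun y).1 ∈ B' := (S'.bd i _ h1 _ h2).1 (by rw [h3]; exact hyB)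
    have h5 := h.mapsTo_inv h4
    have h6 := h.right_inv h4
    have h7 : h.invFun (((S'.F i).Γ.invFun y).1) ∈ D i := (hD i _ h5).1 (by rw [h6]; exact h1)
    have h8 := hf i _ h7 h5 _ h2
    rw [h6, h3] at h8
    have h9 := (S.F i).mem_N h7 h2
    have h10 : (S.F i).Γ.toFun (h.invFun (((S'.F i).Γ.invFun y).1), ((S'.F i).Γ.invFun y).2) ∈ B :=
      (S.bd i _ h7 _ h2).2 h5
    rw [← h8, h.left_inv h10]
    exact h9
  -- glue
  let θ : ∀ o, ConHomeo (Wo B N o) (Wo B' N' o) := fun o =>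
    match o with
    | none => h
    | some i => φ i
  have hag : ∀ o o', EqOn (θ o).toFun (θ o').toFun (Wo B N o ∩ Wo B N o') := by
    rintro (_ | i) (_ | j) x ⟨hx, hx'⟩
    · rfl
    · exact (φB j x hx' hx).symm
    · exact φB i x hx hx'
    · have e := S.eq_of_mem (hone i j) hx hx'
      subst e; rfl
  have himg : ∀ o o', Wo B' N' o ∩ Wo B' N' o' ⊆ (θ o).toFun '' (Wo B N o ∩ Wo B N o') := by
    rintro (_ | i) (_ | j) y ⟨hy, hy'⟩
    · exact ⟨_, ⟨h.mapsTo_inv hy, h.mapsTo_inv hy⟩, h.right_inv hy⟩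
    · exact ⟨_, ⟨h.mapsTo_inv hy, hmem j y hy' hy⟩, h.right_inv hy⟩
    · exact ⟨_, ⟨hmem i y hy hy', h.mapsTo_inv hy'⟩,
        (φB i _ (hmem i y hy hy') (h.mapsTo_inv hy')).trans (h.right_inv hy')⟩
    · have e := S'.eq_of_mem (hone i j) hy hy'
      subst e
      exact ⟨_, ⟨(φ i).mapsTo_inv hy, (φ i).mapsTo_inv hy⟩, (φ i).right_inv hy⟩
  have hcl : ∀ o, IsClosed (Wo B N o) := by
    rintro (_ | i)
    · exact S.hC.isCompact_bdry.isClosed
    · exact (S.isCompact_N i).isClosed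
  have hcl' : ∀ o, IsClosed (Wo B' N' o) := by
    rintro (_ | i)
    · exact S'.hC.isCompact_bdry.isClosed
    · exact (S'.isCompact_N i).isClosed
  obtain ⟨Θ, hΘ⟩ := ConHomeo.exists_glue_family (RelLF.of_finite hcl)
    (RelLF.of_finite hcl') θ hag himg
  have eB : ∀ x ∈ B, Θ.toFun x = h.toFun x := fun x hx => (hΘ none).1 hx
  have eN : ∀ i, ∀ x ∈ N i, Θ.toFun x = (φ i).toFun x := fun i x hx => (hΘ (some i)).1 hx
  have iB : Θ.toFun '' B = B' := by
    rw [EqOn.image_eq (show EqOn Θ.toFun h.toFun B from eB), h.image_eq]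
  have iface : ∀ i, ∀ c : ℝ, Θ.toFun '' face (N i) (s i) c = face (N' i) (s' i) c := by
    intro i c
    ext y
    constructor
    · rintro ⟨x, ⟨hx, hxc⟩, rfl⟩
      rw [eN i x hx]
      exact ⟨(φ i).mapsTo hx, (φs i x hx).trans hxc⟩
    · rintro ⟨hy, hyc⟩
      have h1 := (φ i).mapsTo_inv hy
      have h2 := (φ i).right_inv hy
      refine ⟨(φ i).invFun y, ⟨h1, ?_⟩, (eN i _ h1).trans h2⟩
      rw [← φs i _ h1, h2, hyc]
  have hs1 : skel B (fam side false) N (fam side true) N = ⋃ o, Wo B N o := skel_one hone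
  have hs2 : skel B' (fam side false) N' (fam side true) N' = ⋃ o, Wo B' N' o := skel_one hone
  obtain ⟨Φ, hΦ⟩ := exists_extend_thick (n := 1) cutP_two' cutP_two' cutP_one cutP_one (ioDP 3)
    (S.ttwo (fam side false) (fam side true) (fun k hk => mem_fam.1 hk) fun k hk => mem_fam.1 hk)
    (S'.ttwo (fam side false) (fam side true) (fun k hk => mem_fam.1 hk) fun k hk => mem_fam.1 hk)
    (by
      intro k hk l hl a b _
      exfalso
      have h1 := mem_fam.1 hk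
      have h2 := mem_fam.1 hl
      rw [hone k l, h2] at h1
      exact absurd h1 (by decide))
    hs1.symm hs2.symm Θ iB (fun k _ => iface k _) (fun k _ => iface k _)
    (fun k _ => iface k _) (fun k _ => iface k _)
  have NW : ∀ i, ∀ x ∈ N i, x ∈ ⋃ o, Wo B N o := fun i x hx => mem_iUnion.2 ⟨some i, hx⟩
  have eΦ : ∀ i, ∀ z ∈ D i, ∀ t ∈ H880.LI, Φ.toFun ((S.F i).Γ.toFun (z, t)) =
      (S'.F i).Γ.toFun ((ψ i).toFun z, t) := by
    intro i z hz t ht
    have hN := (S.F i).mem_N hz ht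
    rw [hΦ (NW i _ hN), eN i _ hN, φΓ i z hz t ht]
  have eΦ0 : ∀ i, ∀ z ∈ D i, Φ.toFun z = (ψ i).toFun z := by
    intro i z hz
    have h1 := eΦ i z hz 0 zero_mem_LI
    rwa [(S.F i).zero z hz, (S'.F i).zero _ ((ψ i).mapsTo hz)] at h1
  refine ⟨Φ, fun x hx => ?_, fun i => ?_, fun i z hz t ht => ?_⟩
  · rw [hΦ (mem_iUnion.2 ⟨none, hx⟩), eB x hx]
  · rw [EqOn.image_eq (show EqOn Φ.toFun (ψ i).toFun (D i) from eΦ0 i), (ψ i).image_eq]
  · rw [eΦ0 i z hz]; exact eΦ i z hz t ht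

end P073.H936.K3
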