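import Vale.Agent.P073.H936.K3Box
import Vale.Agent.P073.H936.K3One

/-!
# P073, block H936: [K3TUBE], the box theorem for one family, preserving the fibres
-/

open Set Metric Topology Filter

namespace P073.H936.K3

open P073 P073.H936 P073.H880 P073.H669 P073.H579

variable {ι : Type*} {E : Type} [NormedAddCommGroup E] [NormedSpace ℝ E]
  {side : ι → Bool} {ax : Bool → Fin 3} {lo hi : Fin 3 → ℝ} {c w : ι → ℝ} {U : Set E} {Q : Type}

namespace BoxK

variable (D : BoxK side ax lo hi c w U Q) [Finite ι]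

/-- the drawn sheets as fibred sheets (one family) -/
noncomputable def newSys (hone : ∀ i j, side i = side j) :
    FSys side U D.Bd D.pre.D' D.pre.N' D.pre.s' where
  hC := (dsys D.H D.h).hC
  F := fun i =>
    { Γ := D.pre.Γ' i
      lev := fun _ hz _ ht => D.pre.s'_Γ' i hz ht
      zero := fun _ hz => D.pre.Γ'_zero i hz }
  sub := D.N_sub
  disc := D.pre.D'_ball
  bd := fun i _ hz _ ht => D.pre.Γ'_bd i hz ht
  disj := fun _ _ hij hs => D.pre.N'_disj hij hs
  pres := fun i j hs => absurd (hone i j) hs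
  arc := fun i j hs => absurd (hone i j) hs

/-- The output for one family: `g = h` on the boundary, `g` maps the fibres of the drawn sheets to
the coordinate lines of the bands. -/
structure Tube [Fintype ι] (g : ConHomeo U (Icc lo hi)) : Prop where
  bd : EqOn g.toFun D.h.toFun D.Bd
  mid : ∀ i, g.toFun '' D.pre.D' i = sheet lo hi (ax (side i)) (c i)
  fib : ∀ i, ∀ z ∈ D.pre.D' i, ∀ t ∈ Icc (-1:ℝ) 1, g.toFun ((D.pre.Γ' i).toFun (z, t)) =
    slide (ax (side i)) (c i) (w i) (g.toFun z, t)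

/-- **[K3TUBE]** -/
theorem exists_tube [Fintype ι] (hone : ∀ i j, side i = side j) :
    ∃ g : ConHomeo U (Icc lo hi), D.Tube g := by
  have hpi : ∀ i, ∀ x ∈ D.Bd, x ∈ D.pre.D' i ↔ x ∈ D.pre.D i := by
    intro i x hx
    have h1 := D.pre.D'_bd i
    constructor
    · intro h2
      exact (h1.subset ⟨h2, hx⟩).1
    · intro h2
      exact (h1.superset ⟨h2, hx⟩).1
  obtain ⟨g, h1, h2, h3⟩ := exists_equiv_one (D.newSys hone) D.H.sys hone (h := D.hB)
    (fun i x hx => by
      rw [hpi i x hx, hB_toFun]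
      have hxU := D.Bd_sub hx
      have h3 := mem_dsheet (side := side) (ax := ax) (c := c) D.h (i := i) hxU
      rw [show D.pre.D i = D.h.symm.toFun '' sheet lo hi (ax (side i)) (c i) from rfl, h3]
      exact ⟨fun h => h.2, fun h => ⟨D.h.mapsTo hxU, h⟩⟩) (fun i z hz hzB t ht => by
      have hz' : z ∈ D.pre.D i := (hpi i z hzB).1 hz
      have hco := D.pre.bd_co i hz' hzB
      have h3 : (D.pre.Γ' i).toFun (z, t) = (D.pre.Γ i).toFun (z, t) := D.pre.Γ'_co i hco ht
      show D.h.toFun ((D.pre.Γ' i).toFun (z, t)) = slide (ax (side i)) (c i) (w i) (D.h.toFun z, t)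
      rw [h3]
      have h4 : (D.pre.Γ i).toFun (z, t) = D.h.invFun (slide (ax (side i)) (c i) (w i)
        (D.h.toFun z, t)) := dsys_fib D.H D.h i hz' t
      rw [h4, D.h.right_inv (slide_mem (D.H.ok i) (D.h.mapsTo (D.Bd_sub hzB)) (abs_le.2 ht))])
  exact ⟨g, h1, h2, h3⟩

variable {D}

theorem Tube.slide_mem [Fintype ι] {g : ConHomeo U (Icc lo hi)} (T : D.Tube g) {i : ι} {z : E}
    (hz : z ∈ D.pre.D' i) : g.toFun z (ax (side i)) = c i := by
  have h1 : g.toFun z ∈ sheet lo hi (ax (side i)) (c i) := by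
    rw [← T.mid i]; exact ⟨z, hz, rfl⟩
  exact h1.2

/-- the levels of `g` in the drawn sheets -/
theorem Tube.level [Fintype ι] {g : ConHomeo U (Icc lo hi)} (T : D.Tube g) {i : ι} {x : E}
    (hx : x ∈ D.vf.N i) : (g.toFun x (ax (side i)) - c i) / w i = D.vf.s i x := by
  obtain ⟨hz, ht⟩ := (D.pre.Γ' i).mapsTo_inv hx
  have h3 : (D.pre.Γ' i).toFun (((D.pre.Γ' i).invFun x).1, ((D.pre.Γ' i).invFun x).2) = x :=
    (D.pre.Γ' i).right_inv hx
  have h4 := T.fib i _ hz _ ht
  rw [h3] at h4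
  rw [h4]
  exact blev_slide (D.H.ok i) _ _

/-- the bands of `g` -/
theorem Tube.mem_iff [Fintype ι] {g : ConHomeo U (Icc lo hi)} (T : D.Tube g) (i : ι) {x : E}
    (hx : x ∈ U) : x ∈ D.vf.N i ↔ |g.toFun x (ax (side i)) - c i| ≤ w i := by
  have hw := (D.H.ok i).pos
  constructor
  · intro h1
    have h2 := T.level h1
    have h3 : D.vf.s i x ∈ Icc (-1:ℝ) 1 := ((D.pre.Γ' i).mapsTo_inv h1).2
    rw [← h2, mem_Icc, ← abs_le, abs_div, abs_of_pos hw, div_le_one hw] at h3
    exact h3
  · intro h1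
    set y := g.toFun x with hy
    set t := blev (ax (side i)) (c i) (w i) y with ht
    have htI : t ∈ Icc (-1:ℝ) 1 := by
      rw [mem_Icc, ← abs_le, ht]
      show |(y (ax (side i)) - c i) / w i| ≤ 1
      rw [abs_div, abs_of_pos hw, div_le_one hw]
      exact h1
    have h0 : slide (ax (side i)) (c i) (w i) (y, 0) ∈ sheet lo hi (ax (side i)) (c i) := by
      refine ⟨H880.slide_mem (D.H.ok i) (g.mapsTo hx) (by norm_num), ?_⟩
      rw [slide_self, zero_mul, add_zero]
    rw [← T.mid i] at h0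
    obtain ⟨z, hz, hzy⟩ := h0
    have h2 := T.fib i z hz t htI
    rw [hzy, slide_slide, ht, slide_blev (D.H.ok i)] at h2
    have h3 := (D.pre.Γ' i).mapsTo (show (z, t) ∈ D.pre.D' i ×ˢ Icc (-1:ℝ) 1 from ⟨hz, htI⟩)
    have h4 : (D.pre.Γ' i).toFun (z, t) = x := g.injOn (D.N_sub i h3) hx h2
    rw [← h4]
    exact h3

/-- **[MET]** for one family -/
theorem Tube.eventually_dsum_le [Fintype ι] {g : ConHomeo U (Icc lo hi)} (T : D.Tube g) {x : E}
    (hx : x ∈ U) : ∀ᶠ y in 𝓝[U] x,
      dsum (wlev side ax 1 c w g.toFun) x y ≤ tot D.vf.N D.vf.s x y := by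
  have hcl : ∀ i, IsClosed (D.vf.N i) := fun i =>
    ((D.pre.Γ' i).isCompact_right ((D.pre.D'_ball i).isCompact.prod isCompact_Icc)).isClosed
  have e1 : ∀ᶠ y in 𝓝[U] x, ∀ i, (x ∈ D.vf.N i ∧ y ∈ D.vf.N i) ∨
      wlev side ax 1 c w g.toFun i y = wlev side ax 1 c w g.toFun i x := by
    rw [eventually_all]
    intro i
    have hw := (D.H.ok i).pos
    refine eventually_clip one_pos (hcl i) ?_ ?_ ?_ hx
    · refine ContinuousOn.comp (g := clp 1) (t := univ) (continuous_clp 1).continuousOn ?_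
        (mapsTo_univ _ _)
      have h2 : ContinuousOn (fun x => g.toFun x (ax (side i))) U :=
        (continuous_apply (ax (side i))).comp_continuousOn g.cont
      exact (h2.sub continuousOn_const).div_const _
    · exact fun x _ => abs_clp_le one_pos
    · intro x hx hxN
      refine abs_clp_of_ge one_pos ?_
      rw [T.mem_iff i hx] at hxN
      push Not at hxN
      rw [abs_div, abs_of_pos hw, one_le_div hw]
      exact hxN.le
  filter_upwards [e1] with y hy
  unfold dsum tot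
  refine Finset.sum_le_sum fun i _ => ?_
  by_cases h : x ∈ D.vf.N i ∧ y ∈ D.vf.N i
  · rw [chg_eq h.1 h.2]
    have key : ∀ z ∈ D.vf.N i, wlev side ax 1 c w g.toFun i z = D.vf.s i z := by
      intro z hz
      have h3 : D.vf.s i z ∈ Icc (-1:ℝ) 1 := ((D.pre.Γ' i).mapsTo_inv hz).2
      show clp 1 ((g.toFun z (ax (side i)) - c i) / w i) = _
      rw [T.level hz]
      exact clp_of_le (abs_le.2 h3)
    rw [key x h.1, key y h.2]
  · rw [(hy i).resolve_left h, sub_self, abs_zero]
    exact chg_nonneg _ _ _ _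

end BoxK

end P073.H936.K3
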