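import Vale.Agent.P073.H926.Num3B
import Vale.Agent.P073.H341.PIn3F

/-!
# P073, H936: **[K3R]**, the target of [K3-TOP] (plan B, [SPLIT] form B)

* `QW G s β`: the slab around the wall `|n| = τ / 4` on the side `β` of the square `s`;
* `QZG`: the union of the slabs over the processed squares and their unprotected sides;
* `NWG`: on every face which meets a slab the map `h` is affine, and these faces do not cross the
  wall;
* `FHyp`, `FOsc`: oscillation of the faces (233's text);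
* `K3R p`: the statement which is proved by [K3-TOP]: on every mesh `OutB` and `SharpOut3`; on a
  mesh with `NWG`, in the world of Round 1, `OutB` and `FOsc`.
-/

open Set Metric Topology
open scoped ENNReal

namespace Vale.Agent.P073.H936.KR

open _root_.P073 _root_.P073.Net _root_.P073.PA691
open Vale.Agent.P073
open Vale.Agent.P073.St (V)
open Vale.Agent.P073.H73 (Mesh onSeg)
open Vale.Agent.P073.H471 Vale.Agent.P073.H267
open Vale.Agent.P073.H304 (IsEdge Cst)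
open Vale.Agent.P073.H926

/-- the hypothesis of `FOsc` for the face `k` of the cell `i` -/
def FHyp {Ω : Set V} (M : Mesh Ω) (h : V → V) (i : M.ι) (k : M.κ) (b : ℝ) : Prop :=
  (∀ x ∈ M.Q i, ∀ y ∈ M.Q i, ‖h x - h y‖ ≤ b) ∧
  ∃ E : Finset (V × V), (∀ e, IsEdge M e → segment ℝ e.1 e.2 ⊆ M.F k → e ∈ E) ∧
    ∑ e ∈ E, len (onSeg h e) (Icc 0 1) ≤ ENNReal.ofReal b

/-- oscillation of the faces: own edges of the face, oscillation of `h` on the cell -/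
def FOsc {Ω : Set V} (D D' : ℝ) (M : Mesh Ω) (h : V → V) (P : Set M.ι) (Y : Set M.κ)
    (g : V → V) : Prop :=
  ∀ i, i ∉ P → ∀ C, Cst M Y D D' (M.Q i) C → ∀ k, M.F k ⊆ M.Q i →
    ∀ b > 0, FHyp M h i k b → ∀ x ∈ M.F k, ∀ y ∈ M.F k, ‖g x - g y‖ ≤ C * b

section geo

variable {Λ : Set V} {w : V} {K : BoxCx Λ w} {S : Rad K} {W : Wid K S} {B : Boxes W}

/-- height of `y` over the square `s`, on the side `β` -/
def hgt (K : BoxCx Λ w) (s : K.S) (β : Bool) (y : V) : ℝ :=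
  if β then y (K.nrm s) - K.slo s (K.nrm s) else K.slo s (K.nrm s) - y (K.nrm s)

/-- **the slab around the wall of the safe set** (tangential distance `3 / 4 p`) -/
def QW (G : Geo B) (s : K.S) (β : Bool) : Set V :=
  {y | (∀ k, k ≠ K.nrm s → K.slo s k + 3 / 4 * G.p s ≤ y k ∧
      y k ≤ K.shi s k - 3 / 4 * G.p s) ∧
    3 / 16 * B.τ s ≤ hgt K s β y ∧ hgt K s β y ≤ 5 / 16 * B.τ s}

/-- the slabs of the squares of `S₀`, on the sides without `sd` -/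
def QZG (G : Geo B) (S₀ : Set K.S) (sd : K.S → Bool → Prop) : Set (Set V) :=
  {Q | ∃ s ∈ S₀, ∃ β, ¬ sd s β ∧ Q = QW G s β}

/-- **no face crosses the wall of a safe set** -/
structure NWG (G : Geo B) (S₀ : Set K.S) (sd : K.S → Bool → Prop) {Ω : Set V} (M : Mesh Ω)
    (h : V → V) : Prop where
  aff : ∀ Q ∈ QZG G S₀ sd, ∀ k, (h '' M.F k ∩ Q).Nonempty → ∃ A : V →ᵃ[ℝ] V, EqOn h A (M.F k)
  side : ∀ s ∈ S₀, ∀ β, ¬ sd s β → ∀ k, (h '' M.F k ∩ QW G s β).Nonempty →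
    (∀ x ∈ M.F k, B.τ s / 4 ≤ hgt K s β (h x)) ∨ ∀ x ∈ M.F k, hgt K s β (h x) ≤ B.τ s / 4

end geo

variable {c₀ n δ : ℝ} {j : ℕ} {Ω Λ : Set V} {v w : V} {ρ : V → ℝ} {M : Mesh Ω} {h : ConHomeo Ω Λ}
  {J₀ J : Set (ℕ × (Fin 3 → ℤ))} {P Z : Set M.ι} {K : BoxCx Λ w}

/-- the walls of the mesh (238's `Zw`) -/
def Zw (D : KIn3 c₀ n j δ v w ρ M h J₀ J P Z) (C : Cells ρ w K) : Set (Set V) :=
  QZG (D.G C) (pS C J₀) (D.dat C).sd

/-- **no face of the mesh crosses the wall of a safe set** -/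
def NW (D : KIn3 c₀ n j δ v w ρ M h J₀ J P Z) (C : Cells ρ w K) : Prop :=
  NWG (D.G C) (pS C J₀) (D.dat C).sd M h.toFun

/-- **[K3R]** -/
def K3R (p : ℝ) : Prop :=
  ∃ D : ℝ, 1 ≤ D ∧ ∀ μ > 0, ∃ D' ≥ D, ∃ r > 0, ∀ c₀ : ℝ, 0 < c₀ → c₀ ≤ 1 / 64 →
    ∃ n : ℝ, 0 < n ∧ n ≤ c₀ ∧ ∃ j : ℕ, 1 / 2 ^ j ≤ δ3 n ∧ ∃ δ > 0, 4096 * δ ≤ 1 / 2 ^ j ∧
    ∃ m : ℝ, 0 < m ∧ m ≤ c₀ ∧
    ∀ (Ω Λ : Set V) (v w : V) (ρ : V → ℝ) (M : Mesh Ω) (h : ConHomeo Ω Λ)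
      (J₀ J : Set (ℕ × (Fin 3 → ℤ))) (P Z : Set M.ι)
      (D₀ : KIn3 c₀ n j δ v w ρ M h J₀ J P Z) (K : BoxCx Λ w) (C : Cells ρ w K)
      (Y : Set M.κ) (ε : M.κ → ℝ), (∀ k, 0 < ε k) →
      (∃ g : ConHomeo Ω Λ, H304.OutB p D D' (1 / 2 ^ j) c₀ m w ρ M h.toFun J₀ J P Z Y ε g ∧
        H212.SharpOut3 p D c₀ δ μ r w ρ M h.toFun J₀ Y ε g) ∧
      (J = J₀ → (∀ t ∈ J₀, ∀ t' ∈ J₀, t'.1 = t.1) → Y = ∅ → NW D₀ C →
        ∃ g : ConHomeo Ω Λ, H304.OutB p D D' (1 / 2 ^ j) c₀ m w ρ M h.toFun J₀ J P Z Y ε g ∧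
          FOsc D D' M h.toFun P Y g.toFun)

end Vale.Agent.P073.H936.KR
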