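import Vale.Agent.P073.H936.K3R
import Vale.Agent.P073.H238.RT0
import Vale.Agent.P073.H669.PLevA

/-!
# P073, H936: the slabs of `K3R` are walls for ROUND T

`QW_eq`: the slabs are closed boxes; `zwall_of_NW`: on a mesh with `NW` they are `ZWall`s in the
sense of 238; `zwall_empty`: no walls.
-/

open Set Metric Topology
open scoped ENNReal

namespace Vale.Agent.P073.H936.KR

open _root_.P073 _root_.P073.Net _root_.P073.PA691
open Vale.Agent.P073
open Vale.Agent.P073.St (V)
open Vale.Agent.P073.H73 (Mesh)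
open Vale.Agent.P073.H471 Vale.Agent.P073.H267
open Vale.Agent.P073.H926

section geo

variable {Λ : Set V} {w : V} {K : BoxCx Λ w} {S : Rad K} {W : Wid K S} {B : Boxes W}

/-- lower corner of a slab -/
noncomputable def qlo (G : Geo B) (s : K.S) (β : Bool) : V := fun k =>
  if k = K.nrm s then
    (if β then K.slo s k + 3 / 16 * B.τ s else K.slo s k - 5 / 16 * B.τ s)
  else K.slo s k + 3 / 4 * G.p s

/-- upper corner of a slab -/
noncomputable def qhi (G : Geo B) (s : K.S) (β : Bool) : V := fun k =>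
  if k = K.nrm s then
    (if β then K.slo s k + 5 / 16 * B.τ s else K.slo s k - 3 / 16 * B.τ s)
  else K.shi s k - 3 / 4 * G.p s

theorem QW_eq (G : Geo B) (s : K.S) (β : Bool) : QW G s β = Icc (qlo G s β) (qhi G s β) := by
  ext y
  constructor
  · rintro ⟨h1, h2, h3⟩
    have key : ∀ k, qlo G s β k ≤ y k ∧ y k ≤ qhi G s β k := by
      intro k
      by_cases hk : k = K.nrm s
      · subst hk
        cases β
        · simp only [hgt, Bool.false_eq_true, if_false] at h2 h3
          simp only [qlo, qhi, if_true, Bool.false_eq_true, if_false]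
          constructor <;> linarith
        · simp only [hgt, if_true] at h2 h3
          simp only [qlo, qhi, if_true]
          constructor <;> linarith
      · simp only [qlo, qhi, if_neg hk]
        exact h1 k hk
    exact ⟨fun k => (key k).1, fun k => (key k).2⟩
  · rintro ⟨h1, h2⟩
    refine ⟨fun k hk => ?_, ?_⟩
    · have h3 := h1 k
      have h4 := h2 k
      simp only [qlo, qhi, if_neg hk] at h3 h4
      exact ⟨h3, h4⟩
    · have h3 := h1 (K.nrm s)
      have h4 := h2 (K.nrm s)
      cases β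
      · simp only [qlo, qhi, if_true, Bool.false_eq_true, if_false] at h3 h4
        simp only [hgt, Bool.false_eq_true, if_false]
        constructor <;> linarith
      · simp only [qlo, qhi, if_true] at h3 h4
        simp only [hgt, if_true]
        constructor <;> linarith

theorem QW_PB (G : Geo B) (s : K.S) (β : Bool) : QW G s β ⊆ G.PB (3 / 4) s := by
  rintro y ⟨h1, h2, h3⟩
  have h0 := B.τ_pos s
  refine Geo.mem_PB.2 ⟨h1, ?_⟩
  cases β
  · simp only [hgt, Bool.false_eq_true, if_false] at h2 h3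
    rw [abs_le]; constructor <;> linarith
  · simp only [hgt, if_true] at h2 h3
    rw [abs_le]; constructor <;> linarith

/-- the slabs are large -/
theorem q_size (G : Geo B) (s : K.S) (β : Bool) (k : Fin 3) :
    B.τ s / 8 ≤ qhi G s β k - qlo G s β k := by
  have h0 := B.τ_pos s
  by_cases hk : k = K.nrm s
  · subst hk
    cases β
    · simp only [qlo, qhi, if_true, Bool.false_eq_true, if_false]; linarith
    · simp only [qlo, qhi, if_true]; linarith
  · simp only [qlo, qhi, if_neg hk]
    obtain ⟨e, i, he, hi, hx⟩ := corner (s := s) (slo_mem s) fun _ _ => Or.inl rfl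
    have hi : K.w i ∈ K.sq s := by rw [hx]; exact slo_mem s
    have h1 := G.size hk
    have h2 := G.p_be s i hi
    have h3 := G.be_a s i hi
    have h4 := G.a_u s
    have h5 := G.τ_p s
    linarith

end geo

variable {c₀ n δ : ℝ} {j : ℕ} {Ω Λ : Set V} {v w : V} {ρ : V → ℝ} {M : Mesh Ω} {h : ConHomeo Ω Λ}
  {J₀ J : Set (ℕ × (Fin 3 → ℤ))} {P Z : Set M.ι} {K : BoxCx Λ w}

/-- a point of the zone of a square in a box of ROUND T: the oscillation is small -/
theorem ω_of_met (D : KIn3 c₀ n j δ v w ρ M h J₀ J P Z) (C : Cells ρ w K) {s : K.S} {y : V}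
    (hy : y ∈ (D.W C).ss s) {b : TBx K} (hb : y ∈ (D.G C).TB false b) :
    16777216000 * ω3T δ C b ≤ (D.B C).τ s := by
  have h1 := D.ω3T_oT C b
  rcases b with e | H
  · have hZe := Geo.TB_subset_Ze e hb
    have h2 := (D.G C).oG_τ s e (edge_subset_sq hy hZe.1 (Ze_nJ hZe))
    change 16777216 * ω3T δ C (.inl e) ≤ (D.G C).oG e at h1
    linarith
  · have h0 : H.s = s := by
      by_contra hne
      exact (disjoint_ss (W := D.W C) hne).notMem_of_mem_left
        (Zs_subset (Geo.TB_subset_Zs H hb)) hy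
    have h3 : K.w H.i ∈ K.sq s := by
      have := Geo.hang_mem H
      rwa [h0] at this
    have h2 := (D.G C).oW_τ s H.i h3
    change 16777216 * ω3T δ C (.inr H) ≤ (D.G C).oW H.i at h1
    linarith

/-- **the slabs are walls for ROUND T** -/
theorem zwall_of_NW (D : KIn3 c₀ n j δ v w ρ M h J₀ J P Z) (C : Cells ρ w K) (H : NW D C) :
    H238.K3.ZWall (D.G C) M h (H238.K3.Act D C) (pB C J₀) (ω3T δ C) (Zw D C) where
  box := by
    rintro Q ⟨s, hs, β, hβ, rfl⟩ b hb ⟨y, hy, hyb⟩
    refine ⟨_, _, QW_eq _ _ _, fun k => ?_⟩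
    have h1 := q_size (D.G C) s β k
    have h2 := Geo.PB_subset (by norm_num) s (QW_PB (D.G C) s β hy)
    have h4 := ω_of_met D C (Zs_subset h2) hyb
    have h5 := D.ω3T_pos C b
    linarith
  fin := by
    intro b hb
    have h1 : {s : K.S | ((D.G C).PB (3 / 4) s ∩ (D.G C).TB false b).Nonempty}.Finite :=
      H669.lf_fin (Geo.lf_PB (D.G C) (by norm_num)) isCompact_Icc (Geo.TB_sub b)
    refine ((h1.prod (Set.finite_univ (α := Bool))).image
      fun q : K.S × Bool => QW (D.G C) q.1 q.2).subset ?_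
    rintro Q ⟨⟨s, hs, β, hβ, rfl⟩, y, hy, hyb⟩
    exact ⟨(s, β), ⟨⟨y, QW_PB _ _ _ hy, hyb⟩, mem_univ _⟩, rfl⟩
  aff := by
    rintro Q hQ k - hne
    obtain ⟨A, hA⟩ := H.aff Q hQ k hne
    exact ⟨⟨A, A.continuous_of_finiteDimensional⟩, hA⟩

end Vale.Agent.P073.H936.KR
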