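import Vale.Agent.P073.H936.FlowS

/-!
# P073, H936: the level-preserving product structure of bands
-/

open Set Metric Topology Filter

namespace P073.H936

open P073 P073.TR

variable {E : Type*} [NormedAddCommGroup E] [NormedSpace ℝ E]

/-- rescaling of the second coordinate -/
theorem exists_rescale {N : Set E} (hN : IsCompact N) (hNc : ConicalSet N) {η : ℝ} (hη : 0 < η) :
    ∃ S : ConHomeo (N ×ˢ Icc (-1:ℝ) 1) (N ×ˢ Icc (-η) η),
      S.toFun = fun q : E × ℝ => (q.1, η * q.2) := by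
  have hNI : ConicalSet (N ×ˢ Icc (-1:ℝ) 1) := conicalSet_prod_Icc hNc _ _
  have hlin : ConicalOn (fun q : E × ℝ => (q.1, η * q.2)) (N ×ˢ Icc (-1:ℝ) 1) :=
    conicalOn_linear ((LinearMap.fst ℝ E ℝ).prod (η • LinearMap.snd ℝ E ℝ)) hNI
  have himg2 : (fun q : E × ℝ => (q.1, η * q.2)) '' (N ×ˢ Icc (-1:ℝ) 1) = N ×ˢ Icc (-η) η := by
    ext ⟨z, s⟩
    constructor
    · rintro ⟨⟨z', s'⟩, ⟨hz', hs'⟩, h⟩
      simp only [Prod.mk.injEq] at h
      obtain ⟨rfl, rfl⟩ := h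
      have h1 : -1 ≤ s' := hs'.1
      have h2 : s' ≤ 1 := hs'.2
      exact ⟨hz', by nlinarith, by nlinarith⟩
    · rintro ⟨hz, hs⟩
      have h1 : -η ≤ s := hs.1
      have h2 : s ≤ η := hs.2
      refine ⟨(z, s / η), ⟨hz, ?_, ?_⟩, ?_⟩
      · show -1 ≤ s / η
        rw [le_div_iff₀ hη]; linarith
      · show s / η ≤ 1
        rw [div_le_iff₀ hη]; linarith
      · simp only [Prod.mk.injEq, true_and]
        field_simp
  refine ⟨ConHomeo.ofCompact (hN.prod isCompact_Icc) (fun q : E × ℝ => (q.1, η * q.2))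
      (by fun_prop) ?_ hlin himg2, ConHomeo.ofCompact_toFun _ _ _ _ _ _⟩
  rintro ⟨z, s⟩ - ⟨z', s'⟩ - h
  simp only [Prod.mk.injEq] at h
  obtain ⟨h1, h2⟩ := h
  rw [h1, mul_left_cancel₀ hη.ne' h2]

/-- the product structure of a band, from a small flow -/
theorem FlowS.exists_prod {ι : Type*} {u : E → ℝ} {M : ι → Set E} {C O : Set E} {t θ A : ℝ}
    {m : ℝ → E → E} {τ : ℝ → E → ℝ} (h : FlowS u M O θ A m τ) (hC : IsCompact C)
    (i₀ : ι) (hi₀ : M i₀ = C) (hu : ContinuousOn u C) (huc : ConicalOn u C)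
    {η : ℝ} (hη : θ = 2 * η) (hband : band C u t η ⊆ O) :
    ∃ Γ : ConHomeo (lev C u t ×ˢ Icc (-η) η) (band C u t η),
      ∀ z ∈ lev C u t, ∀ s ∈ Icc (-η) η, ∃ a ∈ Icc (-θ) θ, τ a z = s ∧ Γ.toFun (z, s) = m a z := by
  have hη0 : 0 < η := by linarith [h.θpos]
  have hNc : IsCompact (lev C u t) := isCompact_lev hC hu
  have hNcon : ConicalSet (lev C u t) := conicalSet_lev huc
  have hNO : lev C u t ⊆ O := fun z hz => hband ⟨hz.1, by rw [hz.2, sub_self, abs_zero]; exact hη0.le⟩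
  have hPc : IsCompact (lev C u t ×ˢ Icc (-θ) θ) := hNc.prod isCompact_Icc
  have hPcon : ConicalSet (lev C u t ×ˢ Icc (-θ) θ) := conicalSet_prod_Icc hNcon _ _
  obtain ⟨G, hGf⟩ : ∃ G : ConHomeo (lev C u t ×ˢ Icc (-θ) θ)
      ((fun q : E × ℝ => m q.2 q.1) '' (lev C u t ×ˢ Icc (-θ) θ)),
      G.toFun = fun q : E × ℝ => m q.2 q.1 :=
    ⟨ConHomeo.ofCompact hPc _ h.mcont.continuousOn (h.injOn_m hNO fun z hz => hz.2)
      (h.mcon.mono hPcon (subset_univ _)) rfl, ConHomeo.ofCompact_toFun _ _ _ _ _ _⟩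
  have hTc : Continuous (fun q : E × ℝ => (q.1, τ q.2 q.1)) := continuous_fst.prodMk h.tcont
  have hTcon : ConicalOn (fun q : E × ℝ => (q.1, τ q.2 q.1)) (lev C u t ×ˢ Icc (-θ) θ) :=
    ((conicalOn_linear (LinearMap.fst ℝ E ℝ) isOpen_univ.conicalSet).prodMk h.tcon).mono hPcon
      (subset_univ _)
  obtain ⟨T, hTf⟩ : ∃ T : ConHomeo (lev C u t ×ˢ Icc (-θ) θ)
      ((fun q : E × ℝ => (q.1, τ q.2 q.1)) '' (lev C u t ×ˢ Icc (-θ) θ)),
      T.toFun = fun q : E × ℝ => (q.1, τ q.2 q.1) :=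
    ⟨ConHomeo.ofCompact hPc _ hTc.continuousOn (h.injOn_t hNO) hTcon rfl,
      ConHomeo.ofCompact_toFun _ _ _ _ _ _⟩
  have hex : ∀ z ∈ lev C u t, ∀ s ∈ Icc (-η) η, ∃ a ∈ Icc (-θ) θ, τ a z = s := by
    intro z hz s hs
    obtain ⟨a, ha, has⟩ := h.exists_level (z := fun _ => z) continuous_const
      (fun a _ => h.full_of_mem (hNO hz)) (s := s) (by rw [hη]; rw [mul_div_cancel_left₀]
                                                       · exact abs_le.2 hs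
                                                       · norm_num)
    exact ⟨a, ha, has⟩
  have hQsub : lev C u t ×ˢ Icc (-η) η ⊆
      (fun q : E × ℝ => (q.1, τ q.2 q.1)) '' (lev C u t ×ˢ Icc (-θ) θ) := by
    rintro ⟨z, s⟩ ⟨hz, hs⟩
    obtain ⟨a, ha, has⟩ := hex z hz s hs
    exact ⟨(z, a), ⟨hz, ha⟩, by simp only; rw [has]⟩
  have hQcon : ConicalSet (lev C u t ×ˢ Icc (-η) η) := conicalSet_prod_Icc hNcon _ _
  set T' := T.symm.restr hQcon hQsub with hT'
  have hT'sub : T.symm.toFun '' (lev C u t ×ˢ Icc (-η) η) ⊆ lev C u t ×ˢ Icc (-θ) θ := by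
    rintro _ ⟨q, hq, rfl⟩
    exact T.mapsTo_inv (hQsub hq)
  have hT'con : ConicalSet (T.symm.toFun '' (lev C u t ×ˢ Icc (-η) η)) := T'.conicalSet_right
  have hform : ∀ z ∈ lev C u t, ∀ a ∈ Icc (-θ) θ,
      G.toFun (T.symm.toFun (z, τ a z)) = m a z := by
    intro z hz a ha
    have h1 : T.invFun (z, τ a z) = (z, a) := by
      have := T.left_inv (x := (z, a)) ⟨hz, ha⟩
      rw [hTf] at this
      exact this
    show G.toFun (T.invFun (z, τ a z)) = _
    rw [h1, hGf]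
  have himg : G.toFun '' (T.symm.toFun '' (lev C u t ×ˢ Icc (-η) η)) = band C u t η := by
    ext y
    constructor
    · rintro ⟨_, ⟨⟨z, s⟩, ⟨hz, hs⟩, rfl⟩, rfl⟩
      obtain ⟨a, ha, rfl⟩ := hex z hz s hs
      rw [hform z hz a ha]
      refine ⟨?_, ?_⟩
      · rw [← hi₀, h.mem, hi₀]; exact hz.1
      · rw [h.level, hz.2, add_sub_cancel_left]
        exact abs_le.2 hs
    · rintro ⟨hyC, hyη⟩
      have hyO : y ∈ O := hband ⟨hyC, hyη⟩
      obtain ⟨z, hzc, hz⟩ := h.inv y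
      have hzfull : ∀ a, |a| ≤ θ → ∃ y₀ ∈ O, ‖z a - y₀‖ ≤ A * θ := by
        intro a ha
        refine ⟨y, hyO, ?_⟩
        have := h.disp (z a) ha
        rw [hz a, norm_sub_rev] at this
        exact this
      obtain ⟨a, ha, has⟩ := h.exists_level hzc hzfull (s := u y - t)
        (by rw [hη, mul_div_cancel_left₀ _ (by norm_num : (2:ℝ) ≠ 0)]; exact hyη)
      have hza : z a ∈ lev C u t := by
        constructor
        · have : m a (z a) ∈ M i₀ := by rw [hz a, hi₀]; exact hyC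
          rw [h.mem, hi₀] at this
          exact this
        · have := h.level a (z a)
          rw [hz a, has] at this
          linarith
      refine ⟨T.symm.toFun (z a, u y - t), ⟨(z a, u y - t), ⟨hza, abs_le.1 hyη⟩, rfl⟩, ?_⟩
      have h2 := hform (z a) hza a ha
      rw [has, hz a] at h2
      exact h2
  refine ⟨(T'.trans (G.restr hT'con hT'sub)).cast rfl himg, ?_⟩
  intro z hz s hs
  obtain ⟨a, ha, rfl⟩ := hex z hz s hs
  exact ⟨a, ha, rfl, hform z hz a ha⟩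

/-- **[PROD], the level-preserving product structure of a thin band.** `u` is conical on the
compact conical set `C = M i₀`, with flow boxes for `u` and the family `M` at every point of the
level set. Then for all small `η` the band `|u - t| ≤ η` in `C` is the product of the level set and
an interval; `u` is the second coordinate, and all the sets `M i` are vertical. -/
theorem prod_band [FiniteDimensional ℝ E] {ι : Type*} {u : E → ℝ} {M : ι → Set E} {C W : Set E}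
    {t : ℝ} (hC : IsCompact C) (i₀ : ι) (hi₀ : M i₀ = C) (hu : ContinuousOn u C)
    (huc : ConicalOn u C) (hW : IsOpen W) (hCW : lev C u t ⊆ W)
    (hbox : ∀ x ∈ lev C u t, ∃ (σ : ℝ →ₗ[ℝ] E) (r : ℝ), FlowBox u M x σ r) :
    ∃ (η₀ : ℝ) (c : ℝ), 0 < η₀ ∧ 0 ≤ c ∧ ∀ η, 0 < η → η ≤ η₀ →
      ∃ Γ : ConHomeo (lev C u t ×ˢ Icc (-1:ℝ) 1) (band C u t η),
        (∀ z ∈ lev C u t, ∀ s ∈ Icc (-1:ℝ) 1, u (Γ.toFun (z, s)) = t + η * s) ∧
        (∀ z ∈ lev C u t, Γ.toFun (z, 0) = z) ∧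
        (∀ i, ∀ z ∈ lev C u t, ∀ s ∈ Icc (-1:ℝ) 1, (Γ.toFun (z, s) ∈ M i ↔ z ∈ M i)) ∧
        (∀ z ∈ lev C u t, ∀ s ∈ Icc (-1:ℝ) 1, ‖Γ.toFun (z, s) - z‖ ≤ c * η) ∧
        band C u t η ⊆ W := by
  obtain ⟨O, θ₀, A, hO, hNO, hθ₀, hA, hflow⟩ :=
    exists_flowS (M := M) (isCompact_lev hC hu) hW hCW hbox
  obtain ⟨η₁, hη₁, hband⟩ := exists_band_subset hC hu (hO.inter hW) (subset_inter hNO hCW)
  refine ⟨min (θ₀ / 2) η₁, 2 * A, by positivity, by positivity, fun η hη hηε => ?_⟩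
  have hη1 : η ≤ θ₀ / 2 := hηε.trans (min_le_left _ _)
  have hη2 : η ≤ η₁ := hηε.trans (min_le_right _ _)
  obtain ⟨m, τ, h, -⟩ := hflow (2 * η) (by positivity) (by linarith)
  have hsub : band C u t η ⊆ O ∩ W := fun x hx => hband ⟨hx.1, hx.2.trans hη2⟩
  obtain ⟨Γ, hΓ⟩ := h.exists_prod hC i₀ hi₀ hu huc rfl (hsub.trans inter_subset_left)
  obtain ⟨S, hS⟩ := exists_rescale (isCompact_lev (t := t) hC hu) (conicalSet_lev huc) hη
  have hfin : ∀ z ∈ lev C u t, ∀ s ∈ Icc (-1:ℝ) 1, ∃ a ∈ Icc (-(2 * η)) (2 * η),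
      τ a z = η * s ∧ (S.trans Γ).toFun (z, s) = m a z := by
    intro z hz s hs
    have hs' : η * s ∈ Icc (-η) η := ⟨by nlinarith [hs.1], by nlinarith [hs.2]⟩
    obtain ⟨a, ha, h1, h2⟩ := hΓ z hz (η * s) hs'
    refine ⟨a, ha, h1, ?_⟩
    show Γ.toFun (S.toFun (z, s)) = _
    rw [hS]
    exact h2
  refine ⟨S.trans Γ, ?_, ?_, ?_, ?_, hsub.trans inter_subset_right⟩
  · intro z hz s hs
    obtain ⟨a, ha, has, h1⟩ := hfin z hz s hs
    rw [h1, h.level, has, hz.2]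
  · intro z hz
    obtain ⟨a, ha, has, h1⟩ := hfin z hz 0 ⟨by norm_num, by norm_num⟩
    rw [mul_zero] at has
    have hzO : z ∈ O := (hsub ⟨hz.1, by rw [hz.2, sub_self, abs_zero]; exact hη.le⟩).1
    have h0 : (z, a) = (z, (0:ℝ)) := by
      refine h.injOn_t (N := {z}) (by simpa using hzO) ⟨mem_singleton z, ha⟩ ⟨mem_singleton z, ?_⟩ ?_
      · exact ⟨by linarith, by linarith⟩
      · simp only [h.t0, has]
    have h0' : a = 0 := congrArg Prod.snd h0
    rw [h1, h0', h.m0]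
  · intro i z hz s hs
    obtain ⟨a, ha, has, h1⟩ := hfin z hz s hs
    rw [h1, h.mem]
  · intro z hz s hs
    obtain ⟨a, ha, has, h1⟩ := hfin z hz s hs
    rw [h1]
    refine (h.disp z (abs_le.2 ha)).trans (le_of_eq ?_)
    ring

end P073.H936
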