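import Vale.Agent.P073.H936.K3R

/-!
# P073, H936: `TopS`, `TopO`, the two targets of [K3-TOP]

The two conjuncts of `K3R` as two independent statements (340's order of the quantifiers: the
numbers `j` and `δ` of the two statements can be chosen together).
-/

open Set Metric Topology
open scoped ENNReal

namespace Vale.Agent.P073.H936.KR

open _root_.P073 _root_.P073.Net _root_.P073.PA691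
open Vale.Agent.P073
open Vale.Agent.P073.St (V)
open Vale.Agent.P073.H73 (Mesh)
open Vale.Agent.P073.H471 Vale.Agent.P073.H267
open Vale.Agent.P073.H926

/-- **[TOP-S]** (the given mesh: `OutB` and the sharp clauses) -/
def TopS (p : ℝ) : Prop :=
  ∃ D : ℝ, 1 ≤ D ∧ ∀ μ > 0, ∃ D' ≥ D, ∃ r > 0, ∀ c₀ : ℝ, 0 < c₀ → c₀ ≤ 1 / 64 →
    ∃ n : ℝ, 0 < n ∧ n ≤ c₀ ∧ ∃ j₀ : ℕ, ∀ j ≥ j₀, ∃ δ₀ > 0, ∀ δ : ℝ, 0 < δ → δ ≤ δ₀ →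
    ∃ m : ℝ, 0 < m ∧ m ≤ c₀ ∧
    ∀ (Ω Λ : Set V) (v w : V) (ρ : V → ℝ) (M : Mesh Ω) (h : ConHomeo Ω Λ)
      (J₀ J : Set (ℕ × (Fin 3 → ℤ))) (P Z : Set M.ι) (_ : KIn3 c₀ n j δ v w ρ M h J₀ J P Z)
      (K : BoxCx Λ w) (_ : Cells ρ w K) (Y : Set M.κ) (ε : M.κ → ℝ), (∀ k, 0 < ε k) →
      ∃ g : ConHomeo Ω Λ, H304.OutB p D D' (1 / 2 ^ j) c₀ m w ρ M h.toFun J₀ J P Z Y ε g ∧
        H212.SharpOut3 p D c₀ δ μ r w ρ M h.toFun J₀ Y ε g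

/-- **[TOP-O]** (a mesh with `NW`, world of Round 1: `OutB` and the oscillation of the faces) -/
def TopO (p : ℝ) : Prop :=
  ∃ D : ℝ, 1 ≤ D ∧ ∃ D' ≥ D, ∀ c₀ : ℝ, 0 < c₀ → c₀ ≤ 1 / 64 →
    ∃ n : ℝ, 0 < n ∧ n ≤ c₀ ∧ ∃ j₀ : ℕ, ∀ j ≥ j₀, ∃ δ₀ > 0, ∀ δ : ℝ, 0 < δ → δ ≤ δ₀ →
    ∃ m : ℝ, 0 < m ∧ m ≤ c₀ ∧
    ∀ (Ω Λ : Set V) (v w : V) (ρ : V → ℝ) (M : Mesh Ω) (h : ConHomeo Ω Λ)
      (J₀ : Set (ℕ × (Fin 3 → ℤ))) (P Z : Set M.ι) (D₀ : KIn3 c₀ n j δ v w ρ M h J₀ J₀ P Z)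
      (K : BoxCx Λ w) (C : Cells ρ w K) (ε : M.κ → ℝ), (∀ k, 0 < ε k) →
      (∀ t ∈ J₀, ∀ t' ∈ J₀, t'.1 = t.1) → NW D₀ C →
      ∃ g : ConHomeo Ω Λ, H304.OutB p D D' (1 / 2 ^ j) c₀ m w ρ M h.toFun J₀ J₀ P Z ∅ ε g ∧
        FOsc D D' M h.toFun P ∅ g.toFun

end Vale.Agent.P073.H936.KR
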