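import Vale.Agent.P073.H936.Fib2B

/-!
# P073, block H936: [FIB2], the box theorem for two families, with fibres
-/

open Set Metric Topology Filter

namespace P073.H936.K3

open P073 P073.H936 P073.H880 P073.H669 P073.H579

section rest

variable {ι : Type*} {lo hi : Fin 3 → ℝ} {c w : ι → ℝ}

/-- the part of the box outside the open bands of one family -/
def rst (side : ι → Bool) (ax : Bool → Fin 3) (lo hi : Fin 3 → ℝ) (c w : ι → ℝ) (r : ℝ)
    (X : Bool) : Set (Fin 3 → ℝ) :=
  Icc lo hi ∩ ⋂ i : {i // side i = X}, {y | y (ax X) ≤ c i.1 - r * w i.1} ∪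
    {y | c i.1 + r * w i.1 ≤ y (ax X)}

variable {side : ι → Bool} {ax : Bool → Fin 3} {r : ℝ}

theorem mem_rst {X : Bool} {y : Fin 3 → ℝ} : y ∈ rst side ax lo hi c w r X ↔ y ∈ Icc lo hi ∧
    ∀ i, side i = X → r * w i ≤ |y (ax X) - c i| := by
  unfold rst
  simp only [mem_inter_iff, mem_iInter, mem_union, mem_ofPred_eq, Subtype.forall]
  refine and_congr_right fun _ => forall_congr' fun i => forall_congr' fun _ => ?_
  rw [le_abs]
  constructor
  · rintro (h | h)
    · right; linarith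
    · left; linarith
  · rintro (h | h)
    · right; linarith
    · left; linarith

theorem locCone_rst [Finite ι] (X : Bool) : LocCone (rst side ax lo hi c w r X) := by
  refine (locCone_Icc_pi lo hi).inter (LocCone.iInter_finite fun i => ?_)
  have h1 : Continuous fun y : Fin 3 → ℝ => y (ax X) := continuous_apply _
  have h2 : ConicalOn (fun y : Fin 3 → ℝ => y (ax X)) univ :=
    conicalOn_linear (LinearMap.proj (ax X) : (Fin 3 → ℝ) →ₗ[ℝ] ℝ) locCone_univ.conicalSet
  exact (locCone_setOf_le h1 h2 _).union (locCone_setOf_ge h1 h2 _)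

theorem isCompact_rst (X : Bool) : IsCompact (rst side ax lo hi c w r X) := by
  refine isCompact_Icc.inter_right (isClosed_iInter fun i => ?_)
  exact (isClosed_le (continuous_apply _) continuous_const).union
    (isClosed_le continuous_const (continuous_apply _))

end rest

variable {ι : Type*} {E : Type} [NormedAddCommGroup E] [NormedSpace ℝ E]
  {side : ι → Bool} {ax : Bool → Fin 3} {lo hi : Fin 3 → ℝ} {c w : ι → ℝ} {U : Set E} {Q : Type}

theorem mem_shrB {k : Fin 3} {c w r : ℝ} (hw : 0 < w) (h1 : r ≤ 1) {y : Fin 3 → ℝ} :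
    y ∈ shr (band lo hi k c w) (blev k c w) r ↔ y ∈ Icc lo hi ∧ |y k - c| ≤ r * w := by
  constructor
  · rintro ⟨⟨hy, -⟩, h2⟩
    refine ⟨hy, ?_⟩
    have h2' : |(y k - c) / w| ≤ r := h2
    rwa [abs_div, abs_of_pos hw, div_le_iff₀ hw] at h2'
  · rintro ⟨hy, h2⟩
    refine ⟨⟨hy, h2.trans (mul_le_of_le_one_left hw.le h1)⟩, ?_⟩
    show |(y k - c) / w| ≤ r
    rwa [abs_div, abs_of_pos hw, div_le_iff₀ hw]

namespace BoxK

variable (D : BoxK side ax lo hi c w U Q) [Finite ι]

/-- **the output for two families, with fibres** -/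
structure SwitchedF [Fintype ι] (r q : ℝ) (g : ConHomeo U (Icc lo hi)) (L : LamData D.vf.swData)
    (O : SwOut D.vf.swData L r) : Prop where
  bd : EqOn g.toFun D.h.toFun D.Bd
  img : ∀ i, g.toFun '' O.B i = {y | y ∈ Icc lo hi ∧ |y (ax (side i)) - c i| ≤ r * w i}
  lev : ∀ i, ∀ x ∈ O.B i, (g.toFun x (ax (side i)) - c i) / w i = O.b i x
  Lev : Lev O U (wlev side ax r c w g.toFun)
  fib : ∀ i, ∀ z ∈ L.PP r (Sum.inl i), D.vf.s i z = 0 → (∀ j, side j ≠ side i → z ∉ O.B j) →
    ∀ t, |t| ≤ q * r → g.toFun ((D.vf.Gam i).toFun (z, t)) =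
      slide (ax (side i)) (c i) (w i) (g.toFun z, t)

variable {D}

theorem SwitchedF.switched [Fintype ι] {r q : ℝ} {g : ConHomeo U (Icc lo hi)}
    {L : LamData D.vf.swData} {O : SwOut D.vf.swData L r} (S : D.SwitchedF r q g L O) :
    D.Switched r g := ⟨S.bd, L, O, S.img, S.lev, S.Lev⟩

/-- the levels of a map with the right sheets -/
theorem lev_of {r : ℝ} (h0 : 0 < r) (g : ConHomeo U (Icc lo hi))
    {L : LamData D.vf.swData} {O : SwOut D.vf.swData L r}
    (hmem : ∀ i, ∀ x ∈ U, (|g.toFun x (ax (side i)) - c i| ≤ r * w i ↔ x ∈ O.B i))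
    (hlev : ∀ i, ∀ x ∈ O.B i, (g.toFun x (ax (side i)) - c i) / w i = O.b i x)
    (hBsub : ∀ i, O.B i ⊆ U) : Lev O U (wlev side ax r c w g.toFun) := by
  refine ⟨?_, ?_, ?_, ?_⟩
  · intro i
    refine ContinuousOn.comp (g := clp r) (t := univ) (continuous_clp r).continuousOn ?_
      (mapsTo_univ _ _)
    have h2 : ContinuousOn (fun x => g.toFun x (ax (side i))) U :=
      (continuous_apply (ax (side i))).comp_continuousOn g.cont
    exact (h2.sub continuousOn_const).div_const _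
  · intro i x _
    exact abs_clp_le h0
  · intro i x hx hxB
    refine abs_clp_of_ge h0 ?_
    have hw := (D.H.ok i).pos
    rw [abs_div, abs_of_pos hw, le_div_iff₀ hw]
    by_contra hlt
    push Not at hlt
    exact hxB ((hmem i x hx).1 hlt.le)
  · intro i x hx
    have h2 := hlev i x hx
    have hw := (D.H.ok i).pos
    have h3 := (hmem i x (hBsub i hx)).2 hx
    show clp r ((g.toFun x (ax (side i)) - c i) / w i) = O.b i x
    rw [← h2]
    refine clp_of_le ?_
    rwa [abs_div, abs_of_pos hw, div_le_iff₀ hw]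

/-- the fibres of the capped sheets over the core are the vertical moves of `D.h` -/
theorem gam_co {i : ι} {z : E} (hz : z ∈ D.pre.co i) {t : ℝ} (ht : t ∈ H880.LI) :
    (D.vf.Gam i).toFun (z, t) = D.h.invFun (slide (ax (side i)) (c i) (w i) (D.h.toFun z, t)) := by
  have e4 : (D.vf.Gam i).toFun (z, t) = (D.pre.Γ i).toFun (z, t) := D.pre.Γ'_co i hz ht
  rw [e4]
  exact dsys_fib D.H D.h i hz.1 t

/-- points of a capped sheet outside the open cells are over the core -/
theorem foot_co {i : ι} {x : E} (hx : x ∈ D.vf.N i) (hV : ∀ q, x ∉ interior (D.K.C q)) :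
    D.vf.foot i x ∈ D.pre.co i := by
  have hz := VFam.foot_mem hx
  have hzD' : D.vf.foot i x ∈ D.pre.D' i := by rw [← D.pre.mid_eq i]; exact hz
  rcases hzD' with h | h
  · exact h
  · obtain ⟨d, hd⟩ := mem_iUnion.1 h
    -- the cap of a cell: the point is in the cap over the same point
    have hs := VFam.s_mem hx
    have e1 : x = (D.pre.G i d).toFun (D.vf.foot i x, D.vf.s i x) := by
      have := D.pre.Γ'_cap i d hd hs
      rw [← this]
      exact (VFam.gam_foot hx).symm
    have hxΔ : x ∈ D.pre.Δ i d := by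
      rw [e1]; exact (D.pre.G i d).mapsTo ⟨hd, hs⟩
    rcases D.pre.cap_sub i d hxΔ with h2 | h2
    · exact absurd h2 (hV _)
    · rw [e1] at h2
      exact D.pre.γ_co i d.2 (D.pre.mem_γ_of i d hd hs h2)

/-- outside the open cells, the capped sheets are the old ones, in the root regions of the caps -/
theorem lev_core {i : ι} {x : E} (hx : x ∈ D.vf.N i) (hV : ∀ q, x ∉ interior (D.K.C q)) :
    |D.h.toFun x (ax (side i)) - c i| ≤ w i ∧
      D.vf.s i x = (D.h.toFun x (ax (side i)) - c i) / w i := by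
  have hco := foot_co hx hV
  have hs := VFam.s_mem hx
  have hxU := D.N_sub i hx
  have hPP : x ∈ D.pre.PP i := by
    refine ⟨(D.vf.foot i x, D.vf.s i x), ⟨hco, hs⟩, ?_⟩
    have := D.pre.Γ'_co i hco hs
    rw [← this]
    exact VFam.gam_foot hx
  exact ⟨(D.pre_N i hxU).1 (D.pre.PP_N i hPP), D.pre.s'_PP i hPP⟩

/-- the fibres of the new sheets over the boundary are the old ones -/
theorem bd_fib {r : ℝ} (h0 : 0 < r) (h1 : r ≤ 1)
    {L : LamData D.vf.swData} (O : SwOut D.vf.swData L r) {i : ι} {z : E}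
    (hz : z ∈ face (O.B i) (fun x => O.b i x / r) 0) (hzB : z ∈ D.Bd) {t : ℝ} (ht : t ∈ H880.LI) :
    D.h.toFun ((nfib O h0 h1 i).Γ.toFun (z, t)) =
      slide (ax (side i)) (c i) (w i) (D.h.toFun z, r * t) := by
  have hxB : (nfib O h0 h1 i).Γ.toFun (z, t) ∈ D.Bd := (nfib_bd O h0 h1 i z hz t ht).2 hzB
  have hzr := root_of_bd O hz.1 hzB
  have hxr := root_of_bd O ((nfib O h0 h1 i).mem_N hz ht) hxB
  have hrt := mul_mem_LI h0 h1 ht
  have e1 : (O.Φ i).toFun z = z := O.Φ_id i hzr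
  have e2 : (O.Φ i).toFun ((nfib O h0 h1 i).Γ.toFun (z, t)) = (nfib O h0 h1 i).Γ.toFun (z, t) :=
    O.Φ_id i hxr
  have hs0 : D.vf.s i z = 0 := by
    rw [← lev_root O hzr]
    rcases div_eq_zero_iff.1 hz.2 with h | h
    · exact h
    · exact absurd h h0.ne'
  have hzm : z ∈ mid (D.vf.N i) (D.vf.s i) := ⟨hzr.1, hs0⟩
  have g1 : (D.vf.Gam i).toFun (z, r * t) ∈ {x | x ∈ D.vf.N i ∧ |D.vf.s i x| ≤ r} := by
    refine ⟨VFam.gam_mem hzm hrt, ?_⟩
    rw [D.vf.gam_s i _ hzm _ hrt, abs_mul, abs_of_pos h0]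
    have h3 : |t| ≤ 1 := abs_le.2 ht
    nlinarith [abs_nonneg t]
  have e3 : (nfib O h0 h1 i).Γ.toFun (z, t) = (D.vf.Gam i).toFun (z, r * t) := by
    rw [← e2, nfib_toFun, e1]
    exact (O.Φ i).right_inv g1
  rw [e3]
  have hzU := D.Bd_sub hzB
  have hzco : z ∈ D.pre.co i := by
    have hzD' : z ∈ D.pre.D' i := by rw [← D.pre.mid_eq i]; exact hzm
    have hzD : z ∈ D.pre.D i := by
      have : z ∈ D.pre.D' i ∩ D.pre.Bd := ⟨hzD', hzB⟩
      rw [D.pre.D'_bd i] at this; exact this.1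
    exact D.pre.bd_co i hzD hzB
  rw [gam_co hzco hrt]
  exact D.h.right_inv (slide_mem (D.H.ok i) (D.h.mapsTo hzU) (abs_le.2 hrt))

/-- **[FIB2] (a), (b)**: the box theorem for two families, with fibres -/
theorem exists_switchedF (D : BoxK side ax lo hi c w U Q) [Fintype ι] {r q : ℝ} (h0 : 0 < r)
    (h1 : r < 1) (hq0 : 0 < q) (hq1 : q < 1) :
    ∃ (g : ConHomeo U (Icc lo hi)) (L : LamData D.vf.swData) (O : SwOut D.vf.swData L r),
      D.SwitchedF r q g L O := by
  obtain ⟨g, hbd, L, O, himg, hlev, -⟩ := D.exists_switched h0 h1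
  have hBsub : ∀ i, O.B i ⊆ U := fun i => B_sub O D.one i
  have hmem : ∀ i, ∀ x ∈ U, (|g.toFun x (ax (side i)) - c i| ≤ r * w i ↔ x ∈ O.B i) := by
    intro i x hx
    constructor
    · intro h
      have h2 : g.toFun x ∈ g.toFun '' O.B i := by
        rw [himg i]; exact ⟨g.mapsTo hx, h⟩
      obtain ⟨z, hz, hzx⟩ := h2
      rwa [← g.injOn (hBsub i hz) hx hzx]
    · intro h
      have h2 : g.toFun x ∈ g.toFun '' O.B i := ⟨x, h, rfl⟩
      rw [himg i] at h2
      exact h2.2
  set S := newSys O h0 h1.le D.one with hS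
  set S' := D.H.sys.shrink h0 h1.le with hS'
  have memS' : ∀ (i : ι) (y : Fin 3 → ℝ),
      y ∈ shr (band lo hi (ax (side i)) (c i) (w i)) (blev (ax (side i)) (c i) (w i)) r ↔
        y ∈ Icc lo hi ∧ |y (ax (side i)) - c i| ≤ r * w i := fun i y =>
    mem_shrB (D.H.ok i).pos h1.le
  have hg : GEq U O.B (fun i x => O.b i x / r)
      (fun i => shr (band lo hi (ax (side i)) (c i) (w i)) (blev (ax (side i)) (c i) (w i)) r)
      (fun i y => blev (ax (side i)) (c i) (w i) y / r) g.toFun := by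
    constructor
    · intro i x hx
      rw [memS', ← hmem i x hx]
      exact and_iff_right (g.mapsTo hx)
    · intro i x hx hxB
      show (g.toFun x (ax (side i)) - c i) / w i / r = O.b i x / r
      rw [hlev i x hxB]
  obtain ⟨g', k1, k2, -, k4⟩ := exists_straight2 S S' g hg
    (R := rst side ax lo hi c w r)
    (fun X => isCompact_rst X) (fun X => (locCone_rst X).conicalSet)
    (fun X y hy => (mem_rst.1 hy).1)
    (by
      intro X y hy
      by_cases h : ∃ i, side i = X ∧ |y (ax X) - c i| < r * w i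
      · obtain ⟨i, hi, h⟩ := h
        right
        refine ⟨i, hi, (memS' i y).2 ⟨hy, ?_⟩⟩
        rw [hi]; exact h.le
      · push Not at h
        exact Or.inl (mem_rst.2 ⟨hy, h⟩))
    (by
      intro i y hy hyN
      have h2 := (mem_rst.1 hy).2 i rfl
      have h3 := ((memS' i y).1 hyN).2
      have h4 : |y (ax (side i)) - c i| = r * w i := le_antisymm h3 h2
      have hw := (D.H.ok i).pos
      show (y (ax (side i)) - c i) / w i / r = -1 ∨ (y (ax (side i)) - c i) / w i / r = 1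
      rw [div_div, div_eq_iff (mul_pos hw h0).ne', div_eq_iff (mul_pos hw h0).ne']
      rcases (abs_eq (mul_pos h0 hw).le).1 h4 with h5 | h5
      · right; rw [h5]; ring
      · left; rw [h5]; ring)
    (by
      intro i z hz hzB t ht
      have hxB : (nfib O h0 h1.le i).Γ.toFun (z, t) ∈ D.Bd :=
        (nfib_bd O h0 h1.le i z hz t ht).2 hzB
      show g.toFun ((nfib O h0 h1.le i).Γ.toFun (z, t)) =
        slide (ax (side i)) (c i) (w i) (g.toFun z, r * t)
      rw [hbd hxB, hbd hzB]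
      exact bd_fib h0 h1.le O hz hzB ht)
    hq0.le hq1
  have hmem' : ∀ i, ∀ x ∈ U, (|g'.toFun x (ax (side i)) - c i| ≤ r * w i ↔ x ∈ O.B i) := by
    intro i x hx
    rw [← k1.mem i x hx, memS']
    exact (and_iff_right (g'.mapsTo hx)).symm
  have hlev' : ∀ i, ∀ x ∈ O.B i, (g'.toFun x (ax (side i)) - c i) / w i = O.b i x := by
    intro i x hx
    have h2 : (g'.toFun x (ax (side i)) - c i) / w i / r = O.b i x / r := k1.lev i x (hBsub i hx) hx
    have h3 : (g'.toFun x (ax (side i)) - c i) / w i / r * r = O.b i x / r * r := by rw [h2]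
    rwa [div_mul_cancel₀ _ h0.ne', div_mul_cancel₀ _ h0.ne'] at h3
  refine ⟨g', L, O, fun x hx => (k2 hx).trans (hbd hx), fun i => ?_, hlev',
    lev_of h0 g' hmem' hlev' hBsub, ?_⟩
  · ext y
    constructor
    · rintro ⟨x, hx, rfl⟩
      exact ⟨g'.mapsTo (hBsub i hx), (hmem' i x (hBsub i hx)).2 hx⟩
    · rintro ⟨hy, hy2⟩
      have h2 := g'.mapsTo_inv hy
      have h3 := g'.right_inv hy
      exact ⟨g'.invFun y, (hmem' i _ h2).1 (by rw [h3]; exact hy2), h3⟩
  · intro i z hz hs hj t ht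
    have hzB := root_sub O i hz
    have hz0 : z ∈ face (O.B i) (fun x => O.b i x / r) 0 := by
      refine ⟨hzB, ?_⟩
      show O.b i z / r = 0
      rw [lev_root O hz, hs, zero_div]
    have htr : |t / r| ≤ q := by
      rw [abs_div, abs_of_pos h0, div_le_iff₀ h0]; exact ht
    have htr' : t / r ∈ H880.LI := abs_le.1 (htr.trans hq1.le)
    have h5 := k4 i z hz0 hj (t / r) htr
    have h6 : (S'.F i).Γ.toFun (g'.toFun z, t / r) =
        slide (ax (side i)) (c i) (w i) (g'.toFun z, t) := by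
      show slide (ax (side i)) (c i) (w i) (g'.toFun z, r * (t / r)) = _
      rw [mul_div_cancel₀ _ h0.ne']
    rw [h6] at h5
    rw [← h5]
    congr 1
    have hzm : z ∈ mid (D.vf.N i) (D.vf.s i) := ⟨hz.1, hs⟩
    have ht1 : |t| ≤ r := ht.trans (by nlinarith)
    have htI : t ∈ Icc (-1:ℝ) 1 := abs_le.1 (ht1.trans h1.le)
    have e1 : (O.Φ i).toFun z = z := O.Φ_id i hz
    have e2 : (D.vf.Gam i).toFun (z, t) ∈ L.PP r (Sum.inl i) := by
      have hm := VFam.gam_mem hzm htI
      refine ⟨hm, ?_, ?_⟩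
      · have h7 : ((D.vf.phi i).toFun z).1 ∈ L.pp (Sum.inl i) := hz.2.1
        show ((D.vf.phi i).toFun ((D.vf.Gam i).toFun (z, t))).1 ∈ L.pp (Sum.inl i)
        rw [VFam.phi_apply hm, VFam.foot_gam hzm htI]
        rw [VFam.phi_apply hz.1, VFam.foot_of_mid hzm] at h7
        exact h7
      · show |D.vf.s i ((D.vf.Gam i).toFun (z, t))| ≤ r
        rw [D.vf.gam_s i _ hzm _ htI]; exact ht1
    show (D.vf.Gam i).toFun (z, t) = (nfib O h0 h1.le i).Γ.toFun (z, t / r)
    rw [nfib_toFun, e1, mul_div_cancel₀ _ h0.ne']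
    have e3 : (O.Φ i).toFun ((D.vf.Gam i).toFun (z, t)) = (D.vf.Gam i).toFun (z, t) :=
      O.Φ_id i e2
    conv_rhs => rw [← e3]
    exact ((O.Φ i).left_inv (root_sub O i e2)).symm

end BoxK

end P073.H936.K3
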