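import Vale.Agent.P073.H936.K3Tube

/-!
# P073, block H936: [K3TUBE], vertical sets
-/

open Set Metric Topology Filter

namespace P073.H936.K3

open P073 P073.H936 P073.H880 P073.H669 P073.H579

variable {ι : Type*} {E : Type} [NormedAddCommGroup E] [NormedSpace ℝ E]
  {side : ι → Bool} {ax : Bool → Fin 3} {lo hi : Fin 3 → ℝ} {c w : ι → ℝ} {U : Set E} {Q : Type}

/-- a closed set is vertical if its boundary is -/
theorem BandInv.of_frontier (h : ConHomeo U (Icc lo hi)) {M : Set E} (hM : IsClosed M)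
    (hfr : BandInv side ax c w U h.toFun (frontier M)) : BandInv side ax c w U h.toFun M := by
  intro i x hx x' hx' h1 h2 h3 hxM
  by_contra hx'M
  -- the segment in the band
  set γ : ℝ → E := fun s => h.invFun (AffineMap.lineMap (h.toFun x) (h.toFun x') s) with hγ
  have hseg : ∀ s ∈ Icc (0:ℝ) 1, AffineMap.lineMap (h.toFun x) (h.toFun x') s ∈ Icc lo hi :=
    fun s hs => (convex_Icc lo hi).lineMap_mem (h.mapsTo hx) (h.mapsTo hx') hs
  have hγc : ContinuousOn γ (Icc (0:ℝ) 1) :=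
    h.cont_inv.comp (AffineMap.lineMap_continuous.continuousOn) hseg
  have hγU : ∀ s ∈ Icc (0:ℝ) 1, γ s ∈ U := fun s hs => h.mapsTo_inv (hseg s hs)
  have hγh : ∀ s ∈ Icc (0:ℝ) 1, h.toFun (γ s) =
      AffineMap.lineMap (h.toFun x) (h.toFun x') s := fun s hs => h.right_inv (hseg s hs)
  have hγ0 : γ 0 = x := by
    show h.invFun (AffineMap.lineMap (h.toFun x) (h.toFun x') (0:ℝ)) = x
    rw [AffineMap.lineMap_apply_zero]; exact h.left_inv hx
  have hγ1 : γ 1 = x' := by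
    show h.invFun (AffineMap.lineMap (h.toFun x) (h.toFun x') (1:ℝ)) = x'
    rw [AffineMap.lineMap_apply_one]; exact h.left_inv hx'
  have hcoord : ∀ s ∈ Icc (0:ℝ) 1, ∀ l, h.toFun (γ s) l =
      h.toFun x l + s * (h.toFun x' l - h.toFun x l) := by
    intro s hs l
    rw [hγh s hs, AffineMap.lineMap_apply]
    simp only [vsub_eq_sub, vadd_eq_add, Pi.add_apply, Pi.smul_apply, Pi.sub_apply, smul_eq_mul]
    ring
  have hnot : ∀ s ∈ Icc (0:ℝ) 1, γ s ∉ frontier M := by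
    intro s hs hf
    refine hx'M (hM.frontier_subset (hfr i (γ s) (hγU s hs) x' hx' ?_ h2 ?_ hf))
    · rw [hcoord s hs]
      obtain ⟨a1, a2⟩ := abs_le.1 h1
      obtain ⟨b1, b2⟩ := abs_le.1 h2
      rw [abs_le]
      constructor <;> nlinarith [hs.1, hs.2]
    · intro l hl
      rw [hcoord s hs, h3 l hl, sub_self, mul_zero, add_zero]
  have hpre : IsPreconnected (γ '' Icc (0:ℝ) 1) := isPreconnected_Icc.image γ hγc
  have hsub : γ '' Icc (0:ℝ) 1 ⊆ interior M ∪ Mᶜ := by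
    rintro _ ⟨s, hs, rfl⟩
    by_cases h : γ s ∈ M
    · left
      by_contra hi
      exact hnot s hs ⟨subset_closure h, hi⟩
    · exact Or.inr h
  have hdis : Disjoint (interior M) Mᶜ := disjoint_left.2 fun x h h' => h' (interior_subset h)
  have hne : (γ '' Icc (0:ℝ) 1 ∩ interior M).Nonempty := by
    refine ⟨x, ⟨0, ⟨le_refl _, zero_le_one⟩, hγ0⟩, ?_⟩
    by_contra hi
    refine hnot 0 ⟨le_refl _, zero_le_one⟩ ?_
    rw [hγ0]
    exact ⟨subset_closure hxM, hi⟩
  have h5 := hpre.subset_left_of_subset_union isOpen_interior hM.isOpen_compl hdis hsub hne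
  exact hx'M (interior_subset (h5 ⟨1, ⟨zero_le_one, le_refl _⟩, hγ1⟩))

namespace BoxK

variable {D : BoxK side ax lo hi c w U Q} [Fintype ι]

/-- two points of a band of `g` on one vertical line -/
theorem Tube.exists_foot {g : ConHomeo U (Icc lo hi)} (T : D.Tube g) {i : ι} {x x' : E}
    (hx : x ∈ U) (hx' : x' ∈ U) (h1 : |g.toFun x (ax (side i)) - c i| ≤ w i)
    (h2 : |g.toFun x' (ax (side i)) - c i| ≤ w i)
    (h3 : ∀ l, l ≠ ax (side i) → g.toFun x l = g.toFun x' l) :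
    ∃ z ∈ D.pre.D' i, ∃ t ∈ Icc (-1:ℝ) 1, ∃ t' ∈ Icc (-1:ℝ) 1,
      (D.pre.Γ' i).toFun (z, t) = x ∧ (D.pre.Γ' i).toFun (z, t') = x' := by
  have hx1 := (T.mem_iff i hx).2 h1
  have hx2 := (T.mem_iff i hx').2 h2
  obtain ⟨a1, a2⟩ := (D.pre.Γ' i).mapsTo_inv hx1
  obtain ⟨b1, b2⟩ := (D.pre.Γ' i).mapsTo_inv hx2
  have a3 : (D.pre.Γ' i).toFun (((D.pre.Γ' i).invFun x).1, ((D.pre.Γ' i).invFun x).2) = x :=
    (D.pre.Γ' i).right_inv hx1
  have b3 : (D.pre.Γ' i).toFun (((D.pre.Γ' i).invFun x').1, ((D.pre.Γ' i).invFun x').2) = x' :=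
    (D.pre.Γ' i).right_inv hx2
  have a4 := T.fib i _ a1 _ a2
  have b4 := T.fib i _ b1 _ b2
  rw [a3] at a4
  rw [b3] at b4
  have hz : g.toFun ((D.pre.Γ' i).invFun x).1 = g.toFun ((D.pre.Γ' i).invFun x').1 := by
    funext l
    by_cases hl : l = ax (side i)
    · subst hl
      rw [T.slide_mem a1, T.slide_mem b1]
    · have := h3 l hl
      rw [a4, b4, slide_ne hl, slide_ne hl] at this
      exact this
  have hU : ∀ {z}, z ∈ D.pre.D' i → z ∈ U := fun {z} hz => D.N_sub i (by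
    rw [← D.pre.Γ'_zero i hz]
    exact (D.pre.Γ' i).mapsTo ⟨hz, H142.Pre.zero_mem_I⟩)
  have hzz := g.injOn (hU a1) (hU b1) hz
  exact ⟨_, a1, _, a2, _, b2, a3, by rw [hzz]; exact b3⟩

/-- **vertical sets stay vertical** -/
theorem Tube.bandInv {g : ConHomeo U (Icc lo hi)} (T : D.Tube g) {M : Set E}
    (hM : BandInv side ax c w U D.h.toFun M) (hMV : ∀ q, Disjoint M (interior (D.K.C q))) :
    BandInv side ax c w U g.toFun M := by
  intro i x hx x' hx' h1 h2 h3 hxM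
  obtain ⟨z, hz, t, ht, t', ht', rfl, rfl⟩ := T.exists_foot hx hx' h1 h2 h3
  have hco : z ∈ D.pre.co i := by
    rcases hz with hz | hz
    · exact hz
    · obtain ⟨k, hz⟩ := mem_iUnion.1 hz
      have e := D.pre.Γ'_cap i k hz ht
      have hΔ : (D.pre.G i k).toFun (z, t) ∈ D.pre.Δ i k := (D.pre.G i k).mapsTo ⟨hz, ht⟩
      rcases D.pre.cap_sub i k hΔ with h4 | h4
      · exact absurd h4 (disjoint_left.1 (hMV (D.pre.cell i k)) (by rw [← e]; exact hxM))
      · exact D.pre.γ_co i k.2 (D.pre.mem_γ_of i k hz ht h4)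
  rw [D.pre.Γ'_co i hco ht] at hxM
  rw [D.pre.Γ'_co i hco ht']
  have hzD := D.pre.co_sub i hco
  exact (hM.vert D.H D.h i hzD ht').2 ((hM.vert D.H D.h i hzD ht).1 hxM)

/-- the processed cells stay vertical -/
theorem Tube.bandInv_cell {g : ConHomeo U (Icc lo hi)} (T : D.Tube g) (q : Q) :
    BandInv side ax c w U g.toFun (D.K.C q) := by
  refine BandInv.of_frontier g (D.bi.C_closed q) (T.bandInv (D.hK q) fun q' => ?_)
  exact (D.bi.VB q' q).symm

end BoxK

end P073.H936.K3
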