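import Vale.Agent.P073.H936.K3Box

/-!
# P073, block H936: [FIB2], straightening of the fibres of a homeomorphism which preserves levels
-/

open Set Metric Topology Filter

namespace P073.H936.K3

open P073 P073.H936 P073.H880

/-! ### reparametrisation of the levels -/

/-- `0` on `[-q, q]`, linear on both collars -/
noncomputable def rep (q t : ℝ) : ℝ := (t - clp q t) / (1 - q)

variable {q : ℝ}

theorem rep_zero {t : ℝ} (h : |t| ≤ q) : rep q t = 0 := by
  rw [rep, clp_of_le h, sub_self, zero_div]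

theorem rep_one (h0 : 0 ≤ q) (h1 : q < 1) : rep q 1 = 1 := by
  rw [rep, clp, min_eq_right h1.le, max_eq_right (by linarith), div_self]
  linarith

theorem rep_neg_one (h0 : 0 ≤ q) (h1 : q < 1) : rep q (-1) = -1 := by
  rw [rep, clp, min_eq_left (by linarith), max_eq_left (by linarith), sub_neg_eq_add,
    div_eq_iff (by linarith)]
  ring

theorem rep_mem (h0 : 0 ≤ q) (h1 : q < 1) {t : ℝ} (ht : t ∈ LI) : rep q t ∈ LI := by
  have h2 : 0 < 1 - q := by linarith
  rw [mem_Icc, rep, le_div_iff₀ h2, div_le_iff₀ h2]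
  obtain ⟨ht1, ht2⟩ := ht
  unfold clp
  constructor
  · rcases le_total (-q) (min t q) with h | h
    · rw [max_eq_right h]
      have := min_le_left t q
      linarith
    · rw [max_eq_left h]; linarith
  · rcases le_total (-q) (min t q) with h | h
    · rw [max_eq_right h]
      rcases le_total t q with h' | h'
      · rw [min_eq_left h']; linarith
      · rw [min_eq_right h']; linarith
    · rw [max_eq_left h]
      rcases le_total t q with h3 | h3
      · rw [min_eq_left h3] at h; linarith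
      · rw [min_eq_right h3] at h; linarith

theorem continuous_rep (q : ℝ) : Continuous (rep q) := by
  unfold rep
  exact (continuous_id.sub (continuous_clp q)).div_const _

variable {E G : Type*} [NormedAddCommGroup E] [NormedSpace ℝ E] [NormedAddCommGroup G]
  [NormedSpace ℝ G]

theorem conicalOn_rep {X : Set E} {a : E → ℝ} (ha : ConicalOn a X) (hc : ContinuousOn a X) :
    ConicalOn (fun x => rep q (a x)) X := by
  have hX := ha.conicalSet
  have h1 : ConicalOn (fun x => max (-q) (min (a x) q)) X := by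
    refine (conicalOn_const (-q) hX).rmax (ha.rmin (conicalOn_const q hX) hc continuousOn_const)
      continuousOn_const ?_
    exact hc.inf continuousOn_const
  refine ((ha.sub h1).const_smul (1 - q)⁻¹).congr fun x _ => ?_
  simp only [rep, clp, smul_eq_mul]
  rw [div_eq_inv_mul]

/-! ### one sheet -/

section one

variable {D N : Set E} {s : E → ℝ} {D' N' : Set G} {s' : G → ℝ}

/-- the straightened map -/
noncomputable def stf (F : Fib D N s) (F' : Fib D' N' s') (q : ℝ) (g : E → G) (x : E) : G :=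
  F'.Γ.toFun (F'.pr (g (F.Γ.toFun (F.pr x, rep q (s x)))), s x)

variable {F : Fib D N s} {F' : Fib D' N' s'} {g : E → G}

theorem stf_mem (h0 : 0 ≤ q) (h1 : q < 1) {x : E} (hx : x ∈ N) :
    F.Γ.toFun (F.pr x, rep q (s x)) ∈ N := F.mem_N (F.pr_mem hx) (rep_mem h0 h1 (F.lev_mem hx))

theorem stf_lev (h0 : 0 ≤ q) (h1 : q < 1) (hm : MapsTo g N N') {x : E} (hx : x ∈ N) :
    s' (stf F F' q g x) = s x :=
  F'.lev _ (F'.pr_mem (hm (stf_mem h0 h1 hx))) _ (F.lev_mem hx)

theorem stf_apply (F' : Fib D' N' s') {z : E} (hz : z ∈ D) {t : ℝ} (ht : t ∈ LI) :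
    stf F F' q g (F.Γ.toFun (z, t)) = F'.Γ.toFun (F'.pr (g (F.Γ.toFun (z, rep q t))), t) := by
  rw [stf, F.pr_apply hz ht, F.lev z hz t ht]

/-- at the levels `|t| ≤ q` -/
theorem stf_core (hm : MapsTo g N N') (hs : ∀ x ∈ N, s' (g x) = s x) (h1 : q < 1) {z : E}
    (hz : z ∈ D) {t : ℝ} (ht : |t| ≤ q) :
    stf F F' q g (F.Γ.toFun (z, t)) = F'.Γ.toFun (g z, t) := by
  have ht' : t ∈ LI := abs_le.1 (ht.trans h1.le)
  have hzN := F.sub hz
  have h2 : g z ∈ D' := F'.mem_D_iff.2 ⟨hm hzN, (hs z hzN).trans (F.mem_D_iff.1 hz).2⟩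
  rw [stf_apply F' hz ht', rep_zero ht, F.zero z hz, F'.pr_of_mem h2]

/-- where the reparametrisation is the identity -/
theorem stf_eq (hm : MapsTo g N N') (hs : ∀ x ∈ N, s' (g x) = s x) {x : E} (hx : x ∈ N)
    (h : rep q (s x) = s x) : stf F F' q g x = g x := by
  rw [stf, h, F.pr_eq hx, ← hs x hx, F'.pr_eq (hm hx)]

/-- at fibres which are preserved -/
theorem stf_fib (h0 : 0 ≤ q) (h1 : q < 1) {z : E} (hz : z ∈ D) {z' : G} (hz' : z' ∈ D')
    (h : ∀ t ∈ LI, g (F.Γ.toFun (z, t)) = F'.Γ.toFun (z', t)) {t : ℝ} (ht : t ∈ LI) :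
    stf F F' q g (F.Γ.toFun (z, t)) = g (F.Γ.toFun (z, t)) := by
  rw [stf_apply F' hz ht, h _ (rep_mem h0 h1 ht), F'.pr_apply hz' (rep_mem h0 h1 ht), h t ht]

/-- other levels which are preserved by both systems of fibres -/
theorem stf_pres (h0 : 0 ≤ q) (h1 : q < 1) {N₂ : Set E} {s₂ : E → ℝ} {N₂' : Set G} {s₂' : G → ℝ}
    (hm : MapsTo g N N') (P : Pres F N₂ s₂) (P' : Pres F' N₂' s₂')
    (h2 : ∀ x ∈ N, x ∈ N₂ → g x ∈ N₂' ∧ s₂' (g x) = s₂ x) {x : E} (hx : x ∈ N) (hx2 : x ∈ N₂) :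
    stf F F' q g x ∈ N₂' ∧ s₂' (stf F F' q g x) = s₂ x := by
  have k1 := P (F.pr x) (F.pr_mem hx) (s x) (F.lev_mem hx) (rep q (s x))
    (rep_mem h0 h1 (F.lev_mem hx)) (by rw [F.pr_eq hx]; exact hx2)
  rw [F.pr_eq hx] at k1
  have k2 := h2 _ (stf_mem h0 h1 hx) k1.1
  have k3 := P'.pr_mem (hm (stf_mem (F := F) h0 h1 hx)) k2.1
  have k4 := P' _ (F'.pr_mem (hm (stf_mem (F := F) h0 h1 hx))) 0 zero_mem_LI (s x) (F.lev_mem hx)
    (by rw [F'.zero _ (F'.pr_mem (hm (stf_mem (F := F) h0 h1 hx)))]; exact k3.1)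
  rw [F'.zero _ (F'.pr_mem (hm (stf_mem (F := F) h0 h1 hx)))] at k4
  exact ⟨k4.1, k4.2.trans (k3.2.trans (k2.2.trans k1.2))⟩

/-- **the straightened map of one sheet** -/
theorem exists_stf (F : Fib D N s) (F' : Fib D' N' s') (hD : IsCompact D) (h0 : 0 ≤ q)
    (h1 : q < 1) (g : ConHomeo N N') (hs : ∀ x ∈ N, s' (g.toFun x) = s x) :
    ∃ Φ : ConHomeo N N', Φ.toFun = stf F F' q g.toFun := by
  have hN := F.isCompact_N hD
  have hNc : ConicalSet N := F.Γ.conicalSet_right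
  -- the inner map
  set a : E → E × ℝ := fun x => (F.pr x, rep q (s x)) with ha
  have a_m : MapsTo a N (D ×ˢ Icc (-1:ℝ) 1) := fun x hx =>
    ⟨F.pr_mem hx, rep_mem h0 h1 (F.lev_mem hx)⟩
  have a_c : ContinuousOn a N :=
    F.continuousOn_pr.prodMk ((continuous_rep q).comp_continuousOn F.continuousOn_s)
  have a_k : ConicalOn a N := F.conicalOn_pr.prodMk (conicalOn_rep F.conicalOn_s F.continuousOn_s)
  set b : E → E := fun x => F.Γ.toFun (a x) with hb
  have b_m : MapsTo b N N := fun x hx => F.Γ.mapsTo (a_m hx)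
  have b_c : ContinuousOn b N := F.Γ.cont.comp a_c a_m
  have b_k : ConicalOn b N := ConicalOn.comp (g := F.Γ.toFun) F.Γ.conical a_k a_m a_c
  have c_c : ContinuousOn (fun x => g.toFun (b x)) N := g.cont.comp b_c b_m
  have c_k : ConicalOn (fun x => g.toFun (b x)) N :=
    ConicalOn.comp (g := g.toFun) g.conical b_k b_m b_c
  have c_m : MapsTo (fun x => g.toFun (b x)) N N' := fun x hx => g.mapsTo (b_m hx)
  have d_c : ContinuousOn (fun x => F'.pr (g.toFun (b x))) N := F'.continuousOn_pr.comp c_c c_m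
  have d_k : ConicalOn (fun x => F'.pr (g.toFun (b x))) N :=
    ConicalOn.comp (g := F'.pr) F'.conicalOn_pr c_k c_m c_c
  set e : E → G × ℝ := fun x => (F'.pr (g.toFun (b x)), s x) with he
  have e_m : MapsTo e N (D' ×ˢ Icc (-1:ℝ) 1) := fun x hx => ⟨F'.pr_mem (c_m hx), F.lev_mem hx⟩
  have e_c : ContinuousOn e N := d_c.prodMk F.continuousOn_s
  have e_k : ConicalOn e N := d_k.prodMk F.conicalOn_s
  have f_c : ContinuousOn (stf F F' q g.toFun) N := F'.Γ.cont.comp e_c e_m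
  have f_k : ConicalOn (stf F F' q g.toFun) N :=
    ConicalOn.comp (g := F'.Γ.toFun) F'.Γ.conical e_k e_m e_c
  have hinj : InjOn (stf F F' q g.toFun) N := by
    intro x hx y hy hxy
    have l1 : s x = s y := by
      have k1 := stf_lev (F := F) (F' := F') h0 h1 g.mapsTo hx
      have k2 := stf_lev (F := F) (F' := F') h0 h1 g.mapsTo hy
      rw [← k1, hxy, k2]
    have l2 := congrArg F'.pr hxy
    rw [stf, stf, F'.pr_apply (F'.pr_mem (c_m hx)) (F.lev_mem hx),
      F'.pr_apply (F'.pr_mem (c_m hy)) (F.lev_mem hy)] at l2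
    have lx : s' (g.toFun (b x)) = rep q (s x) := by
      rw [hs _ (b_m hx)]; exact F.lev _ (a_m hx).1 _ (a_m hx).2
    have ly : s' (g.toFun (b y)) = rep q (s y) := by
      rw [hs _ (b_m hy)]; exact F.lev _ (a_m hy).1 _ (a_m hy).2
    have l3 : g.toFun (b x) = g.toFun (b y) := by
      have k1 : F'.Γ.toFun (F'.pr (g.toFun (b x)), s' (g.toFun (b x))) = g.toFun (b x) :=
        F'.pr_eq (c_m hx)
      have k2 : F'.Γ.toFun (F'.pr (g.toFun (b y)), s' (g.toFun (b y))) = g.toFun (b y) :=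
        F'.pr_eq (c_m hy)
      rw [← k1, ← k2, lx, ly, l1]
      exact congrArg (fun z => F'.Γ.toFun (z, rep q (s y))) l2
    have l4 := g.injOn (b_m hx) (b_m hy) l3
    have l5 : F.pr x = F.pr y := by
      have := congrArg F.pr l4
      rwa [hb, F.pr_apply (a_m hx).1 (a_m hx).2, F.pr_apply (a_m hy).1 (a_m hy).2] at this
    rw [← F.pr_eq hx, ← F.pr_eq hy, l5, l1]
  have himg : stf F F' q g.toFun '' N = N' := by
    apply Subset.antisymm
    · rintro _ ⟨x, hx, rfl⟩
      exact F'.Γ.mapsTo (e_m hx)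
    · intro y hy
      have ht := F'.lev_mem hy
      have hr := rep_mem h0 h1 ht
      have hy1 : F'.Γ.toFun (F'.pr y, rep q (s' y)) ∈ N' := F'.mem_N (F'.pr_mem hy) hr
      set x1 := g.invFun (F'.Γ.toFun (F'.pr y, rep q (s' y))) with hx1
      have x1N : x1 ∈ N := g.mapsTo_inv hy1
      have gx1 : g.toFun x1 = F'.Γ.toFun (F'.pr y, rep q (s' y)) := g.right_inv hy1
      have sx1 : s x1 = rep q (s' y) := by
        rw [← hs x1 x1N, gx1]; exact F'.lev _ (F'.pr_mem hy) _ hr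
      refine ⟨F.Γ.toFun (F.pr x1, s' y), F.mem_N (F.pr_mem x1N) ht, ?_⟩
      rw [stf_apply F' (F.pr_mem x1N) ht, ← sx1, F.pr_eq x1N, gx1,
        F'.pr_apply (F'.pr_mem hy) hr, F'.pr_eq hy]
  exact ⟨ConHomeo.ofCompact hN _ f_c hinj f_k himg, ConHomeo.ofCompact_toFun _ _ _ _ _ _⟩

end one

/-! ### a family of disjoint sheets -/

/-- **[STRAIGHT]** straightening of a homeomorphism on finitely many disjoint sheets -/
theorem exists_straight {κ : Type*} [Finite κ] {C : Set E} {C' : Set G} {D N : κ → Set E}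
    {s : κ → E → ℝ} {D' N' : κ → Set G} {s' : κ → G → ℝ} (g : ConHomeo C C')
    (F : ∀ i, Fib (D i) (N i) (s i)) (F' : ∀ i, Fib (D' i) (N' i) (s' i))
    (hD : ∀ i, IsCompact (D i)) (hN : ∀ i, N i ⊆ C) (him : ∀ i, g.toFun '' N i = N' i)
    (hs : ∀ i, ∀ x ∈ N i, s' i (g.toFun x) = s i x)
    (hdis : ∀ i j, i ≠ j → Disjoint (N i) (N j)) {R : Set G} (hR : IsCompact R)
    (hRc : ConicalSet R) (hRC : R ⊆ C') (hcov : ∀ y ∈ C', y ∈ R ∨ ∃ i, y ∈ N' i)
    (hRN : ∀ i, ∀ y ∈ R, y ∈ N' i → s' i y = -1 ∨ s' i y = 1) (h0 : 0 ≤ q) (h1 : q < 1) :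
    ∃ g' : ConHomeo C C', (∀ x ∈ C, g.toFun x ∈ R → g'.toFun x = g.toFun x) ∧
      ∀ i, ∀ x ∈ N i, g'.toFun x = stf (F i) (F' i) q g.toFun x := by
  have hcN : ∀ i, ConicalSet (N i) := fun i => (F i).Γ.conicalSet_right
  have hN' : ∀ i, N' i ⊆ C' := fun i => by
    rw [← him i]; rintro _ ⟨x, hx, rfl⟩; exact g.mapsTo (hN i hx)
  have hmem : ∀ i, ∀ x ∈ C, (g.toFun x ∈ N' i ↔ x ∈ N i) := by
    intro i x hx
    rw [← him i]
    constructor
    · rintro ⟨z, hz, hzx⟩
      rwa [← g.injOn (hN i hz) hx hzx]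
    · exact fun h => ⟨x, h, rfl⟩
  let γ : ∀ i, ConHomeo (N i) (N' i) := fun i => (g.restr (hcN i) (hN i)).cast rfl (him i)
  have hγ : ∀ i, (γ i).toFun = g.toFun := fun i => rfl
  have hΦ : ∀ i, ∃ Φ : ConHomeo (N i) (N' i), Φ.toFun = stf (F i) (F' i) q g.toFun := fun i =>
    exists_stf (F i) (F' i) (hD i) h0 h1 (γ i) (hs i)
  choose Φ hΦ using hΦ
  let X : Option κ → Set E := fun o => match o with
    | none => g.invFun '' R
    | some i => N i
  let Y : Option κ → Set G := fun o => match o with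
    | none => R
    | some i => N' i
  let θ : ∀ o, ConHomeo (X o) (Y o) := fun o => match o with
    | none => (g.symm.restr hRc hRC).symm
    | some i => Φ i
  have hedge : ∀ i, ∀ x ∈ N i, g.toFun x ∈ R → (Φ i).toFun x = g.toFun x := by
    intro i x hx hxR
    rw [hΦ i]
    refine stf_eq (g := g.toFun) (fun x hx => (γ i).mapsTo hx) (hs i) hx ?_
    rw [← hs i x hx]
    rcases hRN i _ hxR ((γ i).mapsTo hx) with h | h
    · rw [h, rep_neg_one h0 h1]
    · rw [h, rep_one h0 h1]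
  have inR : ∀ x, x ∈ g.invFun '' R → x ∈ C ∧ g.toFun x ∈ R := by
    rintro _ ⟨y, hy, rfl⟩
    refine ⟨g.mapsTo_inv (hRC hy), ?_⟩
    rw [g.right_inv (hRC hy)]; exact hy
  have hag : ∀ o o', EqOn (θ o).toFun (θ o').toFun (X o ∩ X o') := by
    rintro (_ | i) (_ | j) x ⟨hx, hx'⟩
    · rfl
    · exact (hedge j x hx' (inR x hx).2).symm
    · exact hedge i x hx (inR x hx').2
    · by_cases hij : i = j
      · subst hij; rfl
      · exact absurd hx' (disjoint_left.1 (hdis i j hij) hx)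
  have himg : ∀ o o', Y o ∩ Y o' ⊆ (θ o).toFun '' (X o ∩ X o') := by
    have pre : ∀ i, ∀ y ∈ R, y ∈ N' i → g.invFun y ∈ N i := by
      intro i y hy hyN
      rw [← hmem i _ (g.mapsTo_inv (hRC hy)), g.right_inv (hRC hy)]; exact hyN
    rintro (_ | i) (_ | j) y ⟨hy, hy'⟩
    · exact ⟨g.invFun y, ⟨⟨y, hy, rfl⟩, ⟨y, hy, rfl⟩⟩, g.right_inv (hRC hy)⟩
    · exact ⟨g.invFun y, ⟨⟨y, hy, rfl⟩, pre j y hy hy'⟩, g.right_inv (hRC hy)⟩
    · refine ⟨g.invFun y, ⟨pre i y hy' hy, ⟨y, hy', rfl⟩⟩, ?_⟩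
      show (Φ i).toFun (g.invFun y) = y
      rw [hedge i _ (pre i y hy' hy) (by rw [g.right_inv (hRC hy')]; exact hy')]
      exact g.right_inv (hRC hy')
    · by_cases hij : i = j
      · subst hij
        exact ⟨(Φ i).invFun y, ⟨(Φ i).mapsTo_inv hy, (Φ i).mapsTo_inv hy⟩, (Φ i).right_inv hy⟩
      · exfalso
        have k1 := g.mapsTo_inv (hN' i hy)
        have k2 := g.right_inv (hN' i hy)
        exact disjoint_left.1 (hdis i j hij) ((hmem i _ k1).1 (by rw [k2]; exact hy))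
          ((hmem j _ k1).1 (by rw [k2]; exact hy'))
  have hXcl : ∀ o, IsClosed (X o) := by
    rintro (_ | i)
    · exact (hR.image_of_continuousOn (g.cont_inv.mono hRC)).isClosed
    · exact ((F i).isCompact_N (hD i)).isClosed
  have hYcl : ∀ o, IsClosed (Y o) := by
    rintro (_ | i)
    · exact hR.isClosed
    · exact ((Φ i).isCompact_right ((F i).isCompact_N (hD i))).isClosed
  obtain ⟨Θ, hΘ⟩ := ConHomeo.exists_glue_family (RelLF.of_finite hXcl) (RelLF.of_finite hYcl) θ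
    hag himg
  have eX : ⋃ o, X o = C := by
    apply Subset.antisymm
    · refine iUnion_subset ?_
      rintro (_ | i) x hx
      · exact (inR x hx).1
      · exact hN i hx
    · intro x hx
      rcases hcov _ (g.mapsTo hx) with h | ⟨i, h⟩
      · exact mem_iUnion.2 ⟨none, ⟨_, h, g.left_inv hx⟩⟩
      · exact mem_iUnion.2 ⟨some i, (hmem i x hx).1 h⟩
  have eY : ⋃ o, Y o = C' := by
    apply Subset.antisymm
    · refine iUnion_subset ?_
      rintro (_ | i) y hy
      · exact hRC hy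
      · exact hN' i hy
    · intro y hy
      rcases hcov y hy with h | ⟨i, h⟩
      · exact mem_iUnion.2 ⟨none, h⟩
      · exact mem_iUnion.2 ⟨some i, h⟩
  refine ⟨Θ.cast eX eY, fun x hx hxR => ?_, fun i x hx => ?_⟩
  · exact (hΘ none).1 (show x ∈ g.invFun '' R from ⟨_, hxR, g.left_inv hx⟩)
  · exact ((hΘ (some i)).1 hx).trans (congrFun (hΦ i) x)

end P073.H936.K3
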