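import Vale.Agent.P073.H936.Fib2A

/-!
# P073, block H936: [FIB2], straightening of two families of fibred sheets
-/

open Set Metric Topology Filter

namespace P073.H936.K3

open P073 P073.H936 P073.H880 P073.H669 P073.H341

variable {ι : Type*} {E G : Type*} [NormedAddCommGroup E] [NormedSpace ℝ E]
  [NormedAddCommGroup G] [NormedSpace ℝ G] {q : ℝ} {side : ι → Bool} {C B : Set E}
  {D N : ι → Set E} {s : ι → E → ℝ} {C' B' : Set G} {D' N' : ι → Set G} {s' : ι → G → ℝ}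

/-- a homeomorphism which preserves the sheets and their levels -/
structure GEq (C : Set E) (N : ι → Set E) (s : ι → E → ℝ) (N' : ι → Set G) (s' : ι → G → ℝ)
    (g : E → G) : Prop where
  mem : ∀ i, ∀ x ∈ C, (g x ∈ N' i ↔ x ∈ N i)
  lev : ∀ i, ∀ x ∈ C, x ∈ N i → s' i (g x) = s i x

theorem pres_iff {D₁ N₁ N₂ : Set E} {s₁ s₂ : E → ℝ} {F : Fib D₁ N₁ s₁} (P : Pres F N₂ s₂) {z : E}
    (hz : z ∈ D₁) {t t' : ℝ} (ht : t ∈ Icc (-1:ℝ) 1) (ht' : t' ∈ Icc (-1:ℝ) 1) :
    F.Γ.toFun (z, t) ∈ N₂ ↔ F.Γ.toFun (z, t') ∈ N₂ :=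
  ⟨fun h => (P z hz t ht t' ht' h).1, fun h => (P z hz t' ht' t ht h).1⟩

/-- straightening of the sheets of one side -/
theorem exists_step [Finite ι] (S : FSys side C B D N s) (S' : FSys side C' B' D' N' s')
    (g : ConHomeo C C') (hg : GEq C N s N' s' g.toFun) (X : Bool) {R : Set G} (hR : IsCompact R)
    (hRc : ConicalSet R) (hRC : R ⊆ C') (hcov : ∀ y ∈ C', y ∈ R ∨ ∃ i, side i = X ∧ y ∈ N' i)
    (hRN : ∀ i, side i = X → ∀ y ∈ R, y ∈ N' i → s' i y = -1 ∨ s' i y = 1) (h0 : 0 ≤ q)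
    (h1 : q < 1) :
    ∃ g' : ConHomeo C C', GEq C N s N' s' g'.toFun ∧
      (∀ x ∈ C, (∀ i, side i = X → x ∉ N i) → g'.toFun x = g.toFun x) ∧
      ∀ i, side i = X → ∀ x ∈ N i, g'.toFun x = stf (S.F i) (S'.F i) q g.toFun x := by
  have him : ∀ i, g.toFun '' N i = N' i := by
    intro i
    apply Subset.antisymm
    · rintro _ ⟨x, hx, rfl⟩
      exact (hg.mem i x (S.sub i hx)).2 hx
    · intro y hy
      have k1 := g.mapsTo_inv (S'.sub i hy)
      have k2 := g.right_inv (S'.sub i hy)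
      exact ⟨g.invFun y, (hg.mem i _ k1).1 (by rw [k2]; exact hy), k2⟩
  obtain ⟨g', hoff, hon⟩ := exists_straight (κ := {i // side i = X}) g (fun i => S.F i.1)
    (fun i => S'.F i.1) (fun i => (S.disc i.1).isCompact) (fun i => S.sub i.1) (fun i => him i.1)
    (fun i x hx => hg.lev i.1 x (S.sub i.1 hx) hx)
    (fun i j hij => S.disj i.1 j.1 (fun h => hij (Subtype.ext h)) (i.2.trans j.2.symm)) hR hRc hRC
    (fun y hy => (hcov y hy).imp id fun ⟨i, h2, h3⟩ => ⟨⟨i, h2⟩, h3⟩)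
    (fun i => hRN i.1 i.2) h0 h1
  have e1 : ∀ x ∈ C, (∀ i, side i = X → x ∉ N i) → g'.toFun x = g.toFun x := by
    intro x hx h
    refine hoff x hx ?_
    rcases hcov _ (g.mapsTo hx) with h2 | ⟨i, h2, h3⟩
    · exact h2
    · exact absurd ((hg.mem i x hx).1 h3) (h i h2)
  have e2 : ∀ i, side i = X → ∀ x ∈ N i, g'.toFun x = stf (S.F i) (S'.F i) q g.toFun x :=
    fun i hi x hx => hon ⟨i, hi⟩ x hx
  have hmt : ∀ i, MapsTo g.toFun (N i) (N' i) := fun i x hx => (hg.mem i x (S.sub i hx)).2 hx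
  refine ⟨g', ⟨?_, ?_⟩, e1, e2⟩
  · intro j x hx
    by_cases h : ∃ i, side i = X ∧ x ∈ N i
    · obtain ⟨i, hi, hxi⟩ := h
      rw [e2 i hi x hxi]
      have m1 := stf_mem (F := S.F i) h0 h1 hxi
      have m2 := hmt i m1
      by_cases hj : side i = side j
      · have k1 : stf (S.F i) (S'.F i) q g.toFun x ∈ N' i :=
          (S'.F i).mem_N ((S'.F i).pr_mem m2) ((S.F i).lev_mem hxi)
        constructor
        · intro h2
          rw [← S'.eq_of_mem hj k1 h2]; exact hxi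
        · intro h2
          rw [← S.eq_of_mem hj hxi h2]; exact k1
      · have a1 : stf (S.F i) (S'.F i) q g.toFun x ∈ N' j ↔
            (S'.F i).pr (g.toFun ((S.F i).Γ.toFun ((S.F i).pr x, rep q (s i x)))) ∈ N' j := by
          have := pres_iff (S'.pres i j hj) ((S'.F i).pr_mem m2) ((S.F i).lev_mem hxi)
            zero_mem_LI
          rw [(S'.F i).zero _ ((S'.F i).pr_mem m2)] at this
          exact this
        have a2 : x ∈ N j ↔ (S.F i).Γ.toFun ((S.F i).pr x, rep q (s i x)) ∈ N j := by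
          have := pres_iff (S.pres i j hj) ((S.F i).pr_mem hxi) ((S.F i).lev_mem hxi)
            (rep_mem h0 h1 ((S.F i).lev_mem hxi))
          rwa [(S.F i).pr_eq hxi] at this
        rw [a1, a2, (S'.pr_mem_iff hj m2).1, hg.mem j _ (S.sub i m1)]
    · push Not at h
      rw [e1 x hx h, hg.mem j x hx]
  · intro j x hx hxj
    by_cases h : ∃ i, side i = X ∧ x ∈ N i
    · obtain ⟨i, hi, hxi⟩ := h
      rw [e2 i hi x hxi]
      by_cases hj : side i = side j
      · obtain rfl := S.eq_of_mem hj hxi hxj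
        exact stf_lev h0 h1 (hmt _) hxi
      · exact (stf_pres h0 h1 (hmt i) (S.pres i j hj) (S'.pres i j hj)
          (fun y hy hyj => ⟨(hg.mem j y (S.sub i hy)).2 hyj, hg.lev j y (S.sub i hy) hyj⟩)
          hxi hxj).2
    · push Not at h
      rw [e1 x hx h, hg.lev j x hx hxj]

/-- **[STRAIGHT-2]** straightening of both families: the new map preserves the fibres at the levels
`|t| ≤ q`, over the points which are in no band of the other family -/
theorem exists_straight2 [Finite ι] (S : FSys side C B D N s) (S' : FSys side C' B' D' N' s')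
    (g : ConHomeo C C') (hg : GEq C N s N' s' g.toFun) {R : Bool → Set G}
    (hR : ∀ X, IsCompact (R X)) (hRc : ∀ X, ConicalSet (R X)) (hRC : ∀ X, R X ⊆ C')
    (hcov : ∀ X, ∀ y ∈ C', y ∈ R X ∨ ∃ i, side i = X ∧ y ∈ N' i)
    (hRN : ∀ i, ∀ y ∈ R (side i), y ∈ N' i → s' i y = -1 ∨ s' i y = 1)
    (hB : ∀ i, ∀ z ∈ D i, z ∈ B → ∀ t ∈ H880.LI,
      g.toFun ((S.F i).Γ.toFun (z, t)) = (S'.F i).Γ.toFun (g.toFun z, t))
    (h0 : 0 ≤ q) (h1 : q < 1) :
    ∃ g' : ConHomeo C C', GEq C N s N' s' g'.toFun ∧ EqOn g'.toFun g.toFun B ∧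
      (∀ x ∈ C, (∀ i, x ∉ N i) → g'.toFun x = g.toFun x) ∧
      ∀ i, ∀ z ∈ D i, (∀ j, side j ≠ side i → z ∉ N j) → ∀ t, |t| ≤ q →
        g'.toFun ((S.F i).Γ.toFun (z, t)) = (S'.F i).Γ.toFun (g'.toFun z, t) := by
  have hD' : ∀ (g : ConHomeo C C'), GEq C N s N' s' g.toFun → ∀ i, ∀ z ∈ D i, g.toFun z ∈ D' i := by
    intro g hg i z hz
    have hzN := S.D_sub_N i hz
    have hzC := S.sub i hzN
    exact (S'.F i).mem_D_iff.2 ⟨(hg.mem i z hzC).2 hzN,
      (hg.lev i z hzC hzN).trans ((S.F i).mem_D_iff.1 hz).2⟩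
  have hmt : ∀ (g : ConHomeo C C'), GEq C N s N' s' g.toFun → ∀ i, MapsTo g.toFun (N i) (N' i) :=
    fun g hg i x hx => (hg.mem i x (S.sub i hx)).2 hx
  -- a step is the identity on the boundary
  have hbd : ∀ (X : Bool) (g g' : ConHomeo C C'), GEq C N s N' s' g.toFun →
      (∀ i, ∀ z ∈ D i, z ∈ B → ∀ t ∈ H880.LI,
        g.toFun ((S.F i).Γ.toFun (z, t)) = (S'.F i).Γ.toFun (g.toFun z, t)) →
      (∀ x ∈ C, (∀ i, side i = X → x ∉ N i) → g'.toFun x = g.toFun x) →
      (∀ i, side i = X → ∀ x ∈ N i, g'.toFun x = stf (S.F i) (S'.F i) q g.toFun x) →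
      EqOn g'.toFun g.toFun B := by
    intro X g g' hg hB e1 e2 x hxB
    by_cases h : ∃ i, side i = X ∧ x ∈ N i
    · obtain ⟨i, hi, hxi⟩ := h
      have hz := (S.F i).pr_mem hxi
      have hzB : (S.F i).pr x ∈ B := ((S.bd i).pr_iff hxi).2 hxB
      have k := stf_fib (g := g.toFun) (F := S.F i) (F' := S'.F i) h0 h1 hz (hD' g hg i _ hz)
        (fun t ht => hB i _ hz hzB t ht) ((S.F i).lev_mem hxi)
      rw [(S.F i).pr_eq hxi] at k
      rw [e2 i hi x hxi, k]
    · push Not at h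
      exact e1 x (S.subB hxB) h
  obtain ⟨g1, a1, a2, a3⟩ := exists_step S S' g hg false (hR false) (hRc false) (hRC false)
    (hcov false) (fun i hi y hy => hRN i y (hi ▸ hy)) h0 h1
  have b1 := hbd false g g1 hg hB a2 a3
  have hB1 : ∀ i, ∀ z ∈ D i, z ∈ B → ∀ t ∈ H880.LI,
      g1.toFun ((S.F i).Γ.toFun (z, t)) = (S'.F i).Γ.toFun (g1.toFun z, t) := by
    intro i z hz hzB t ht
    rw [b1 ((S.bd i z hz t ht).2 hzB), b1 hzB, hB i z hz hzB t ht]
  obtain ⟨g2, c1, c2, c3⟩ := exists_step S S' g1 a1 true (hR true) (hRc true) (hRC true)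
    (hcov true) (fun i hi y hy => hRN i y (hi ▸ hy)) h0 h1
  have d1 := hbd true g1 g2 a1 hB1 c2 c3
  refine ⟨g2, c1, fun x hx => (d1 hx).trans (b1 hx), fun x hx h => ?_, ?_⟩
  · rw [c2 x hx fun i _ => h i, a2 x hx fun i _ => h i]
  · intro i z hz hzj t ht
    have ht' : t ∈ H880.LI := abs_le.1 (ht.trans h1.le)
    have hzN := S.D_sub_N i hz
    cases hi : side i with
    | true =>
      have k1 : ∀ t, |t| ≤ q → g2.toFun ((S.F i).Γ.toFun (z, t)) =
          (S'.F i).Γ.toFun (g1.toFun z, t) := by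
        intro t ht
        have ht' : t ∈ H880.LI := abs_le.1 (ht.trans h1.le)
        rw [c3 i hi _ ((S.F i).mem_N hz ht')]
        exact stf_core (hmt g1 a1 i) (fun x hx => a1.lev i x (S.sub i hx) hx) h1 hz ht
      have k2 : g2.toFun z = g1.toFun z := by
        have := k1 0 (by rw [abs_zero]; exact h0)
        rwa [(S.F i).zero z hz, (S'.F i).zero _ (hD' g1 a1 i z hz)] at this
      rw [k1 t ht, k2]
    | false =>
      have k0 : ∀ t ∈ H880.LI, ∀ j, side j = true → (S.F i).Γ.toFun (z, t) ∉ N j := by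
        intro t ht j hj hm
        have hij : side i ≠ side j := by rw [hi, hj]; simp
        refine hzj j hij.symm ?_
        have := (pres_iff (S.pres i j hij) hz ht zero_mem_LI).1 hm
        rwa [(S.F i).zero z hz] at this
      have k1 : ∀ t, |t| ≤ q → g2.toFun ((S.F i).Γ.toFun (z, t)) =
          (S'.F i).Γ.toFun (g.toFun z, t) := by
        intro t ht
        have ht' : t ∈ H880.LI := abs_le.1 (ht.trans h1.le)
        rw [c2 _ (S.sub i ((S.F i).mem_N hz ht')) (k0 t ht'), a3 i hi _ ((S.F i).mem_N hz ht')]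
        exact stf_core (hmt g hg i) (fun x hx => hg.lev i x (S.sub i hx) hx) h1 hz ht
      have k2 : g2.toFun z = g.toFun z := by
        have := k1 0 (by rw [abs_zero]; exact h0)
        rwa [(S.F i).zero z hz, (S'.F i).zero _ (hD' g hg i z hz)] at this
      rw [k1 t ht, k2]

end P073.H936.K3
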