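import Vale.Agent.P073.H936.MoverB

/-!
# P073, H936: abstract small flows transversal to a level set, and the product structure of bands
-/

open Set Metric Topology Filter

namespace P073.H936

open P073 P073.TR

variable {E : Type*} [NormedAddCommGroup E] [NormedSpace ℝ E]

/-- the level set in `C` -/
def lev (C : Set E) (u : E → ℝ) (t : ℝ) : Set E := {x | x ∈ C ∧ u x = t}

/-- the band in `C` -/
def band (C : Set E) (u : E → ℝ) (t η : ℝ) : Set E := {x | x ∈ C ∧ |u x - t| ≤ η}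

omit [NormedSpace ℝ E] in
theorem isCompact_lev {C : Set E} {u : E → ℝ} {t : ℝ} (hC : IsCompact C)
    (hu : ContinuousOn u C) : IsCompact (lev C u t) := by
  have h := hu.preimage_isClosed_of_isClosed hC.isClosed (isClosed_singleton (x := t))
  exact hC.of_isClosed_subset h fun x hx => hx.1

omit [NormedSpace ℝ E] in
theorem isCompact_band {C : Set E} {u : E → ℝ} {t η : ℝ} (hC : IsCompact C)
    (hu : ContinuousOn u C) : IsCompact (band C u t η) := by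
  have h := hu.preimage_isClosed_of_isClosed hC.isClosed (isClosed_Icc (a := t - η) (b := t + η))
  have he : band C u t η = C ∩ u ⁻¹' Icc (t - η) (t + η) := by
    ext x
    simp only [band, mem_ofPred_eq, mem_inter_iff, mem_preimage, mem_Icc, abs_le]
    refine and_congr_right fun _ => ⟨fun h => ⟨by linarith, by linarith⟩,
      fun h => ⟨by linarith, by linarith⟩⟩
  rw [he]
  exact hC.of_isClosed_subset h fun x hx => hx.1

theorem conicalSet_lev {C : Set E} {u : E → ℝ} {t : ℝ} (hu : ConicalOn u C) :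
    ConicalSet (lev C u t) := by
  rintro x ⟨hx, hxt⟩
  obtain ⟨r, hr, h⟩ := hu x hx
  refine ⟨r, hr, fun v hv hxv s hs => ?_⟩
  obtain ⟨h1, h2⟩ := h v hv hxv.1 s hs
  refine ⟨h1, ?_⟩
  rw [h2, hxv.2, hxt, sub_self, smul_zero, add_zero]

theorem conicalSet_prod_Icc {N : Set E} (hN : ConicalSet N) (a b : ℝ) :
    ConicalSet (N ×ˢ Icc a b) := by
  rintro ⟨x, s⟩ ⟨hx, hs⟩
  obtain ⟨r, hr, h1⟩ := hN x hx
  refine ⟨r, hr, fun v hv hxv τ hτ => ⟨?_, ?_⟩⟩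
  · exact h1 v.1 ((norm_fst_le v).trans hv) hxv.1 τ hτ
  · have h2 : s + v.2 ∈ Icc a b := hxv.2
    have h3 : s + τ * v.2 ∈ Icc a b := by
      constructor
      · nlinarith [hs.1, h2.1, hτ.1, hτ.2]
      · nlinarith [hs.2, h2.2, hτ.1, hτ.2]
    exact h3

omit [NormedSpace ℝ E] in
/-- a thin band is contained in a given neighbourhood of the level set -/
theorem exists_band_subset {C : Set E} {u : E → ℝ} {t : ℝ} (hC : IsCompact C)
    (hu : ContinuousOn u C) {O : Set E} (hO : IsOpen O) (hlev : lev C u t ⊆ O) :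
    ∃ η > 0, band C u t η ⊆ O := by
  have hK : IsCompact (C \ O) := hC.diff hO
  rcases (C \ O).eq_empty_or_nonempty with h0 | h0
  · refine ⟨1, one_pos, fun x hx => ?_⟩
    by_contra hxO
    exact notMem_empty x (h0 ▸ ⟨hx.1, hxO⟩)
  have hc : ContinuousOn (fun x => |u x - t|) (C \ O) :=
    ((hu.mono fun x hx => hx.1).sub continuousOn_const).abs
  obtain ⟨x₀, hx₀, hmin⟩ := hK.exists_isMinOn h0 hc
  have h1 : 0 < |u x₀ - t| := by
    rw [abs_pos, sub_ne_zero]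
    intro h
    exact hx₀.2 (hlev ⟨hx₀.1, h⟩)
  refine ⟨|u x₀ - t| / 2, half_pos h1, fun x hx => ?_⟩
  by_contra hxO
  have h2 : |u x₀ - t| ≤ |u x - t| := hmin ⟨hx.1, hxO⟩
  linarith [hx.2]

/-- A small flow: `m a` for `|a| ≤ θ`, with change of level `τ a`. -/
structure FlowS {ι : Type*} (u : E → ℝ) (M : ι → Set E) (O : Set E) (θ A : ℝ) (m : ℝ → E → E)
    (τ : ℝ → E → ℝ) : Prop where
  θpos : 0 < θ
  Apos : 0 < A
  small : A * θ ≤ 1 / 4
  small2 : 4 * A ^ 2 * θ ≤ 1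
  mcon : ConicalOn (fun z : E × ℝ => m z.2 z.1) univ
  mcont : Continuous (fun z : E × ℝ => m z.2 z.1)
  tcon : ConicalOn (fun z : E × ℝ => τ z.2 z.1) univ
  tcont : Continuous (fun z : E × ℝ => τ z.2 z.1)
  m0 : ∀ y, m 0 y = y
  t0 : ∀ y, τ 0 y = 0
  lip : ∀ a a' y y', ‖m a y - m a' y' - (y - y')‖ ≤ A * (θ * ‖y - y'‖ + |a - a'|)
  tlip : ∀ a y y', |τ a y - τ a y'| ≤ A * (θ * ‖y - y'‖)
  mono : ∀ y, (∃ y₀ ∈ O, ‖y - y₀‖ ≤ A * θ) → ∀ a a', |a| ≤ θ → |a'| ≤ θ → a' ≤ a →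
      (a - a') / 2 ≤ τ a y - τ a' y
  mem : ∀ i a y, m a y ∈ M i ↔ y ∈ M i
  level : ∀ a y, u (m a y) = u y + τ a y
  inv : ∀ y, ∃ z : ℝ → E, Continuous z ∧ ∀ a, m a (z a) = y

theorem exists_flowS [FiniteDimensional ℝ E] {ι : Type*} {u : E → ℝ} {M : ι → Set E} {N W : Set E}
    (hN : IsCompact N) (hW : IsOpen W) (hNW : N ⊆ W)
    (hbox : ∀ x ∈ N, ∃ (σ : ℝ →ₗ[ℝ] E) (r : ℝ), FlowBox u M x σ r) :
    ∃ (O : Set E) (θ₀ A : ℝ), IsOpen O ∧ N ⊆ O ∧ 0 < θ₀ ∧ 0 < A ∧ ∀ θ, 0 < θ → θ ≤ θ₀ →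
      ∃ (m : ℝ → E → E) (τ : ℝ → E → ℝ), FlowS u M O θ A m τ ∧ ∀ a y, y ∉ W → m a y = y := by
  have hcomp : CompleteSpace E := FiniteDimensional.complete ℝ E
  obtain ⟨l, ρ, K, L, δ, O, hρ, hK, hL, hδ, hl, hO, hNO, hfull, hsupp⟩ :=
    exists_movers (M := M) hN hW hNW hbox
  obtain ⟨C₁, hC₁, hlip⟩ := exists_lip hl hK hL
  obtain ⟨C₂, hC₂, htot⟩ := exists_lip_tot hl hK hL
  obtain ⟨C₃, hC₃, hmono⟩ := exists_mono hl hK hL
  set A := C₁ + C₂ + C₃ + 1 with hA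
  have hA1 : 1 ≤ A := by rw [hA]; linarith
  have hA0 : 0 < A := by linarith
  have hAC1 : C₁ ≤ A := by rw [hA]; linarith
  have hAC2 : C₂ ≤ A := by rw [hA]; linarith
  have hAC3 : C₃ ≤ A := by rw [hA]; linarith
  clear_value A
  obtain ⟨ε, hε, hερ, hε1, hεA, hεδ⟩ : ∃ ε > 0, ε ≤ ρ ∧ ε ≤ 1 ∧ 4 * A ^ 2 * ε ≤ 1 ∧
      4 * A * ε ≤ δ := by
    refine ⟨min (min ρ 1) (min (1 / (4 * A ^ 2)) (δ / (4 * A))), by positivity,
      (min_le_left _ _).trans (min_le_left _ _), (min_le_left _ _).trans (min_le_right _ _),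
      ?_, ?_⟩
    · have h : min (min ρ 1) (min (1 / (4 * A ^ 2)) (δ / (4 * A))) ≤ 1 / (4 * A ^ 2) :=
        (min_le_right _ _).trans (min_le_left _ _)
      calc _ ≤ 4 * A ^ 2 * (1 / (4 * A ^ 2)) := mul_le_mul_of_nonneg_left h (by positivity)
        _ = 1 := by field_simp
    · have h : min (min ρ 1) (min (1 / (4 * A ^ 2)) (δ / (4 * A))) ≤ δ / (4 * A) :=
        (min_le_right _ _).trans (min_le_right _ _)
      calc _ ≤ 4 * A * (δ / (4 * A)) := mul_le_mul_of_nonneg_left h (by positivity)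
        _ = δ := by field_simp
  refine ⟨O, ε, A, hO, hNO, hε, hA0, fun θ hθ0 hθε => ?_⟩
  have hθ1 : θ ≤ 1 := hθε.trans hε1
  have hθρ : θ ≤ ρ := hθε.trans hερ
  have hA2θ : 4 * A ^ 2 * θ ≤ 1 := (mul_le_mul_of_nonneg_left hθε (by positivity)).trans hεA
  have hAθ : A * θ ≤ 1 / 4 := by
    have h1 : A * θ ≤ A ^ 2 * θ := by
      rw [sq]
      exact mul_le_mul_of_nonneg_right (le_mul_of_one_le_left hA0.le hA1) hθ0.le
    linarith
  have hAθδ : 4 * A * θ ≤ δ := (mul_le_mul_of_nonneg_left hθε (by positivity)).trans hεδ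
  have hlipθ : ∀ a a' y y', ‖mvs θ l a y - mvs θ l a' y' - (y - y')‖ ≤
      A * (θ * ‖y - y'‖ + |a - a'|) := fun a a' y y' =>
    (hlip θ hθ0.le hθ1 a a' y y').trans (mul_le_mul_of_nonneg_right hAC1 (by positivity))
  obtain ⟨hk1, hk2, hk3, hk4⟩ := conicalOn_mvs hl θ
  refine ⟨mvs θ l, tot θ l, ⟨hθ0, hA0, hAθ, hA2θ, hk1, hk2, hk3, hk4, mvs_zero hl hθ0.le,
    tot_zero hl hθ0.le, hlipθ, ?_, ?_, ?_, ?_, ?_⟩, ?_⟩
  · intro a y y'
    exact ((htot θ hθ0.le hθ1).1 a y y').trans (mul_le_mul_of_nonneg_right hAC2 (by positivity))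
  · rintro y ⟨y₀, hy₀, hyy₀⟩ a a' ha ha' haa
    have hf : ∃ q ∈ l, ∀ y', ‖y' - y‖ ≤ C₃ * θ → q.2 y' = 1 := by
      obtain ⟨q, hq, h⟩ := hfull y₀ hy₀
      refine ⟨q, hq, fun y' hy' => h y' ?_⟩
      have h1 : ‖y' - y₀‖ ≤ ‖y' - y‖ + ‖y - y₀‖ := by
        have := norm_add_le (y' - y) (y - y₀)
        simpa using this
      have h2 : C₃ * θ ≤ A * θ := mul_le_mul_of_nonneg_right hAC3 hθ0.le
      have h3 : 0 ≤ A * θ := by positivity
      linarith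
    have h1 := (hmono θ hθ0.le hθ1 a a' y haa).2 ha ha' hf
    have h2 : C₃ * θ ≤ 1 / 2 := by
      have : C₃ * θ ≤ A * θ := mul_le_mul_of_nonneg_right hAC3 hθ0.le
      linarith
    have h3 : C₃ * θ * (a - a') ≤ 1 / 2 * (a - a') :=
      mul_le_mul_of_nonneg_right h2 (sub_nonneg.2 haa)
    linarith
  · exact fun i a y => mem_mvs hl hθ0.le hθρ a y i
  · exact fun a y => u_mvs hl hθ0.le hθρ a y
  · intro y
    exact exists_inverse (l := l) hA0.le hθ0.le (by linarith) hlipθ y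
  · -- the support
    intro a y hy
    have : ∀ l' : List (E × (E → ℝ)), (∀ q ∈ l', q ∈ l) → mvs θ l' a y = y := by
      intro l'
      induction l' with
      | nil => intro _; rfl
      | cons q l' ih =>
        intro h
        have hq : q.2 y = 0 := by
          by_contra hq
          exact hy (hsupp q (h q (List.mem_cons_self)) y hq)
        show mvs θ l' a (mv θ q a y) = y
        rw [mv_eq_self hq]
        exact ih fun q' hq' => h q' (List.mem_cons_of_mem _ hq')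
    exact this l fun _ h => h

namespace FlowS

variable {ι : Type*} {u : E → ℝ} {M : ι → Set E} {O : Set E} {θ A : ℝ} {m : ℝ → E → E}
  {τ : ℝ → E → ℝ}

theorem disp (h : FlowS u M O θ A m τ) (y : E) {a : ℝ} (ha : |a| ≤ θ) : ‖m a y - y‖ ≤ A * θ := by
  have h1 := h.lip a 0 y y
  rw [h.m0] at h1
  simp only [sub_self, norm_zero, mul_zero, zero_add, sub_zero] at h1
  exact h1.trans (mul_le_mul_of_nonneg_left ha h.Apos.le)

theorem full_of_mem (h : FlowS u M O θ A m τ) {y : E} (hy : y ∈ O) :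
    ∃ y₀ ∈ O, ‖y - y₀‖ ≤ A * θ :=
  ⟨y, hy, by rw [sub_self, norm_zero]; exact mul_nonneg h.Apos.le h.θpos.le⟩

theorem inj_aux (h : FlowS u M O θ A m τ) {t : ℝ} {z z' : E} (hz : z ∈ O)
    (hzt : u z = t) (hzt' : u z' = t) {a a' : ℝ} (ha : |a| ≤ θ) (ha' : |a'| ≤ θ) (haa : a' ≤ a)
    (he : m a z = m a' z') : z = z' ∧ a = a' := by
  have h1 : τ a z = τ a' z' := by
    have h2 := h.level a z
    have h3 := h.level a' z'
    rw [he, h3, hzt, hzt'] at h2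
    linarith
  have h2 := h.mono z (h.full_of_mem hz) a a' ha ha' haa
  have h3 := h.tlip a' z' z
  have h4 : (a - a') / 2 ≤ A * (θ * ‖z' - z‖) := by
    refine h2.trans ?_
    rw [h1]
    exact (le_abs_self _).trans h3
  have h5 := h.lip a a' z z'
  rw [he, sub_self, zero_sub, norm_neg, abs_of_nonneg (sub_nonneg.2 haa)] at h5
  rw [norm_sub_rev] at h4
  have hA := h.Apos
  have hn := norm_nonneg (z - z')
  have h6 : A * (a - a') ≤ A * (2 * (A * (θ * ‖z - z'‖))) :=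
    mul_le_mul_of_nonneg_left (by linarith) hA.le
  have h7 : ‖z - z'‖ ≤ A * θ * ‖z - z'‖ + 2 * A ^ 2 * θ * ‖z - z'‖ := by
    calc ‖z - z'‖ ≤ A * (θ * ‖z - z'‖ + (a - a')) := h5
      _ = A * θ * ‖z - z'‖ + A * (a - a') := by ring
      _ ≤ A * θ * ‖z - z'‖ + A * (2 * (A * (θ * ‖z - z'‖))) := by linarith
      _ = _ := by ring
  have h8 : A * θ * ‖z - z'‖ ≤ 1 / 4 * ‖z - z'‖ := mul_le_mul_of_nonneg_right h.small hn
  have h8' : 2 * A ^ 2 * θ * ‖z - z'‖ ≤ 1 / 2 * ‖z - z'‖ :=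
    mul_le_mul_of_nonneg_right (by linarith [h.small2]) hn
  have h9 : ‖z - z'‖ = 0 := le_antisymm (by linarith) hn
  have h10 : z - z' = 0 := norm_eq_zero.1 h9
  refine ⟨sub_eq_zero.1 h10, ?_⟩
  rw [h9] at h4
  linarith

theorem injOn_m (h : FlowS u M O θ A m τ) {N : Set E} {t : ℝ} (hNO : N ⊆ O)
    (hNt : ∀ z ∈ N, u z = t) : InjOn (fun q : E × ℝ => m q.2 q.1) (N ×ˢ Icc (-θ) θ) := by
  rintro ⟨z, a⟩ ⟨hz, ha⟩ ⟨z', a'⟩ ⟨hz', ha'⟩ he
  simp only at hz hz' ha ha' he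
  rcases le_total a' a with haa | haa
  · obtain ⟨h1, h2⟩ := h.inj_aux (hNO hz) (hNt z hz) (hNt z' hz') (abs_le.2 ha) (abs_le.2 ha')
      haa he
    rw [h1, h2]
  · obtain ⟨h1, h2⟩ := h.inj_aux (hNO hz') (hNt z' hz') (hNt z hz) (abs_le.2 ha') (abs_le.2 ha)
      haa he.symm
    rw [h1, h2]

theorem injOn_t (h : FlowS u M O θ A m τ) {N : Set E} (hNO : N ⊆ O) :
    InjOn (fun q : E × ℝ => (q.1, τ q.2 q.1)) (N ×ˢ Icc (-θ) θ) := by
  rintro ⟨z, a⟩ ⟨hz, ha⟩ ⟨z', a'⟩ ⟨hz', ha'⟩ he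
  simp only [Prod.mk.injEq] at he
  obtain ⟨h1, h2⟩ := he
  subst h1
  congr 1
  rcases le_total a' a with haa | haa
  · have := h.mono z (h.full_of_mem (hNO hz)) a a' (abs_le.2 ha) (abs_le.2 ha') haa
    linarith
  · have := h.mono z (h.full_of_mem (hNO hz)) a' a (abs_le.2 ha') (abs_le.2 ha) haa
    linarith

/-- every small level is attained -/
theorem exists_level (h : FlowS u M O θ A m τ) {z : ℝ → E} (hzc : Continuous z)
    (hzO : ∀ a, |a| ≤ θ → ∃ y₀ ∈ O, ‖z a - y₀‖ ≤ A * θ) {s : ℝ} (hs : |s| ≤ θ / 2) :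
    ∃ a ∈ Icc (-θ) θ, τ a (z a) = s := by
  have hθ := h.θpos
  have hc : ContinuousOn (fun a => τ a (z a)) (Icc (-θ) θ) :=
    (h.tcont.comp (hzc.prodMk continuous_id)).continuousOn
  have e1 := h.mono (z θ) (hzO θ (by rw [abs_of_pos hθ])) θ 0 (by rw [abs_of_pos hθ])
    (by rw [abs_zero]; exact hθ.le) hθ.le
  have e2 := h.mono (z (-θ)) (hzO (-θ) (by rw [abs_neg, abs_of_pos hθ])) 0 (-θ)
    (by rw [abs_zero]; exact hθ.le) (by rw [abs_neg, abs_of_pos hθ]) (by linarith)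
  rw [h.t0] at e1 e2
  have hs' := abs_le.1 hs
  have h1 := intermediate_value_Icc (by linarith : -θ ≤ θ) hc
  obtain ⟨a, ha, has⟩ := h1 (show s ∈ Icc (τ (-θ) (z (-θ))) (τ θ (z θ)) from
    ⟨by linarith [hs'.1], by linarith [hs'.2]⟩)
  exact ⟨a, ha, has⟩

end FlowS

end P073.H936
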