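import Vale.Agent.P073.H936.ProdL
import Vale.Agent.P073.SCH.LocConeImage

/-!
# P073, H936: [INS1] insertion of bands into a conical homeomorphism

`h : Z ≅ Y ⊆ ℝ³` is a conical homeomorphism, `X` a coordinate, and the bands of `h_X` around finitely
many levels are products (thin or thick).  On the line, `ψ` collapses an inner band of every level,
`lam` inserts an interval for it and `kap ∘ lam = ψ`.  Then `x ↦ (lam (h_X x), h_Y (c x))` is a
conical homeomorphism onto the inserted set, where `c` is the collapse along the fibres.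
-/

open Set Metric Topology Filter

namespace P073.H936

open P073 P073.TR

variable {E : Type*} [NormedAddCommGroup E] [NormedSpace ℝ E]

/-- the model on the line: levels `b k` with inner bands `w k` and outer bands `w' k` -/
structure LineIns (β : Type*) where
  b : β → ℝ
  w : β → ℝ
  w' : β → ℝ
  pos : ∀ k, 0 < w k
  lt : ∀ k, w k < w' k
  sep : ∀ j k, j ≠ k → Disjoint (Icc (b j - w' j) (b j + w' j)) (Icc (b k - w' k) (b k + w' k))
  ψ : ℝ → ℝ
  lam : ℝ → ℝ
  kap : ℝ → ℝ
  ψ_cont : Continuous ψ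
  ψ_con : ConicalOn ψ univ
  lam_cont : Continuous lam
  lam_con : ConicalOn lam univ
  lam_mono : StrictMono lam
  lam_surj : Function.Surjective lam
  ψ_off : ∀ t, (∀ k, t ∉ Ioo (b k - w' k) (b k + w' k)) → ψ t = t
  ψ_maps : ∀ k, ∀ t ∈ Icc (b k - w' k) (b k + w' k), ψ t ∈ Icc (b k - w' k) (b k + w' k)
  kap_lam : ∀ t, kap (lam t) = ψ t

/-- replacing one coordinate is linear -/
def updL (X : Fin 3) : ((Fin 3 → ℝ) × ℝ) →ₗ[ℝ] (Fin 3 → ℝ) where
  toFun := fun p => Function.update p.1 X p.2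
  map_add' := by
    intro p q
    funext j
    by_cases h : j = X
    · subst h; simp
    · simp [Function.update_of_ne h]
  map_smul' := by
    intro r p
    funext j
    by_cases h : j = X
    · subst h; simp
    · simp [Function.update_of_ne h]

theorem updL_apply (X : Fin 3) (p : (Fin 3 → ℝ) × ℝ) : updL X p = Function.update p.1 X p.2 := rfl

/-- the collapse of one coordinate -/
def colX (X : Fin 3) (kap : ℝ → ℝ) (y : Fin 3 → ℝ) : Fin 3 → ℝ := Function.update y X (kap (y X))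

@[simp] theorem colX_self (X : Fin 3) (kap : ℝ → ℝ) (y : Fin 3 → ℝ) :
    colX X kap y X = kap (y X) := Function.update_self _ _ _

theorem colX_of_ne {X j : Fin 3} (hj : j ≠ X) (kap : ℝ → ℝ) (y : Fin 3 → ℝ) :
    colX X kap y j = y j := Function.update_of_ne hj _ _

/-- the collapse along the fibres -/
structure FibCol {ι β : Type*} (L : LineIns β) (Z : Set E) (u : E → ℝ) (M : ι → Set E)
    (P : ∀ k, ProdOn Z u M (L.b k) (L.b k - L.w' k) (L.b k + L.w' k)) (c : E → E) : Prop where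
  maps : MapsTo c Z Z
  cont : ContinuousOn c Z
  con : ConicalOn c Z
  mem : ∀ i, ∀ x ∈ Z, (c x ∈ M i ↔ x ∈ M i)
  level : ∀ x ∈ Z, u (c x) = L.ψ (u x)
  off : ∀ x ∈ Z, (∀ k, u x ∉ Ioo (L.b k - L.w' k) (L.b k + L.w' k)) → c x = x
  fib : ∀ k, ∀ x ∈ bnd Z u (L.b k - L.w' k) (L.b k + L.w' k),
    c x = (P k).G.toFun ((P k).foot x, L.ψ (u x))

theorem exists_fibCol {ι β : Type*} [Finite β] (L : LineIns β) {Z : Set E} (hZ : IsCompact Z)
    {u : E → ℝ} (hu : ContinuousOn u Z) (huc : ConicalOn u Z) {M : ι → Set E}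
    (P : ∀ k, ProdOn Z u M (L.b k) (L.b k - L.w' k) (L.b k + L.w' k)) :
    ∃ c : E → E, FibCol L Z u M P c := by
  classical
  have hsub : ∀ k, bnd Z u (L.b k - L.w' k) (L.b k + L.w' k) ⊆ Z := fun k x hx => hx.1
  set c : E → E := fun x => if hx : ∃ k, x ∈ bnd Z u (L.b k - L.w' k) (L.b k + L.w' k) then
    (P hx.choose).G.toFun ((P hx.choose).foot x, L.ψ (u x)) else x with hc
  have hcb : ∀ k, ∀ x ∈ bnd Z u (L.b k - L.w' k) (L.b k + L.w' k),
      c x = (P k).G.toFun ((P k).foot x, L.ψ (u x)) := by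
    intro k x hx
    have hex : ∃ k, x ∈ bnd Z u (L.b k - L.w' k) (L.b k + L.w' k) := ⟨k, hx⟩
    have h1 : c x = (P hex.choose).G.toFun ((P hex.choose).foot x, L.ψ (u x)) := by
      simp only [hc]; rw [dif_pos hex]
    have h2 : hex.choose = k := by
      by_contra hne
      exact disjoint_left.1 (L.sep _ _ hne) hex.choose_spec.2 hx.2
    rw [h1, h2]
  have hcoff : ∀ x ∈ Z, (∀ k, u x ∉ Ioo (L.b k - L.w' k) (L.b k + L.w' k)) → c x = x := by
    intro x hxZ hx
    by_cases hex : ∃ k, x ∈ bnd Z u (L.b k - L.w' k) (L.b k + L.w' k)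
    · obtain ⟨k, hk⟩ := hex
      rw [hcb k x hk, L.ψ_off _ hx, (P k).foot_eq hk]
    · simp only [hc]; rw [dif_neg hex]
  have hmapsb : ∀ k, ∀ x ∈ bnd Z u (L.b k - L.w' k) (L.b k + L.w' k),
      ((P k).foot x, L.ψ (u x)) ∈ lev Z u (L.b k) ×ˢ Icc (L.b k - L.w' k) (L.b k + L.w' k) :=
    fun k x hx => ⟨(P k).foot_mem hx, L.ψ_maps k _ hx.2⟩
  -- the pieces
  set W : Option β → Set E := fun o => match o with
    | none => {x | x ∈ Z ∧ u x ∈ ⋂ k, (Ioo (L.b k - L.w' k) (L.b k + L.w' k))ᶜ}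
    | some k => bnd Z u (L.b k - L.w' k) (L.b k + L.w' k) with hW
  have hWcl : ∀ o, IsClosed (W o) := by
    rintro (_ | k)
    · exact hu.preimage_isClosed_of_isClosed hZ.isClosed
        (isClosed_iInter fun k => isOpen_Ioo.isClosed_compl)
    · exact hu.preimage_isClosed_of_isClosed hZ.isClosed isClosed_Icc
  have hWu : ⋃ o, W o = Z := by
    ext x
    constructor
    · intro hx
      obtain ⟨o, ho⟩ := mem_iUnion.1 hx
      rcases o with _ | k
      · exact ho.1
      · exact ho.1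
    · intro hx
      by_cases hex : ∃ k, x ∈ bnd Z u (L.b k - L.w' k) (L.b k + L.w' k)
      · obtain ⟨k, hk⟩ := hex
        exact mem_iUnion.2 ⟨some k, hk⟩
      · refine mem_iUnion.2 ⟨none, hx, mem_iInter.2 fun k hk => hex ⟨k, hx, Ioo_subset_Icc_self hk⟩⟩
  have hcW0 : EqOn c (fun x => x) (W none) := fun x hx =>
    hcoff x hx.1 fun k hk => mem_iInter.1 hx.2 k hk
  have hucb : ∀ k, ContinuousOn (fun x => L.ψ (u x)) (bnd Z u (L.b k - L.w' k) (L.b k + L.w' k)) :=
    fun k => L.ψ_cont.comp_continuousOn (hu.mono (hsub k))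
  have hcontb : ∀ k, ContinuousOn (fun x => (((P k).foot x, L.ψ (u x)) : E × ℝ))
      (bnd Z u (L.b k - L.w' k) (L.b k + L.w' k)) := fun k =>
    (P k).continuousOn_foot.prodMk (hucb k)
  have hLF : RelLF W := RelLF.of_finite hWcl
  have hcc : ContinuousOn c Z := by
    rw [← hWu]
    refine hLF.continuousOn ?_
    rintro (_ | k)
    · exact continuousOn_id.congr hcW0
    · exact ((P k).G.cont.comp (hcontb k) (hmapsb k)).congr (hcb k)
  have hZc : ConicalSet Z := huc.conicalSet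
  have hW0c : ConicalSet (W none) := by
    have h1 : ConicalSet (⋂ k, (Ioo (L.b k - L.w' k) (L.b k + L.w' k))ᶜ) := by
      refine LocCone.conicalSet (LocCone.iInter_finite fun k x => LocConeAt.compl ?_)
      have h := (locCone_Icc (L.b k - L.w' k) (L.b k + L.w' k)).interior x
      rwa [interior_Icc] at h
    intro x hx
    obtain ⟨r, hr, H⟩ := huc x hx.1
    obtain ⟨r', hr', H'⟩ := h1 (u x) hx.2
    have hcu : ContinuousWithinAt u Z x := hu x hx.1
    obtain ⟨δ, hδ, hδ'⟩ := Metric.continuousWithinAt_iff.1 hcu r' hr'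
    refine ⟨min r (δ / 2), lt_min hr (by positivity), fun v hv hxv s hs => ?_⟩
    obtain ⟨h2, h3⟩ := H v (hv.trans (min_le_left _ _)) hxv.1 s hs
    refine ⟨h2, ?_⟩
    rw [h3]
    have h4 : dist (x + v) x < δ := by
      rw [dist_eq_norm, add_sub_cancel_left]
      exact (hv.trans (min_le_right _ _)).trans_lt (by linarith)
    have h5 := hδ' hxv.1 h4
    rw [Real.dist_eq] at h5
    have h6 := H' (u (x + v) - u x) (by rw [Real.norm_eq_abs]; exact h5.le)
      (by rw [add_sub_cancel]; exact hxv.2) s hs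
    simpa using h6
  have hcon : ConicalOn c Z := by
    rw [← hWu]
    refine hLF.conicalOn ?_
    rintro (_ | k)
    · exact (conicalOn_id hW0c).congr hcW0
    · have hb : ConicalSet (bnd Z u (L.b k - L.w' k) (L.b k + L.w' k)) :=
        (P k).G.conicalSet_right
      have h1 : ConicalOn (fun x => L.ψ (u x)) (bnd Z u (L.b k - L.w' k) (L.b k + L.w' k)) :=
        ConicalOn.comp (g := L.ψ) L.ψ_con (huc.mono hb (hsub k)) (mapsTo_univ _ _)
          (hu.mono (hsub k))
      have h2 : ConicalOn (fun x => (((P k).foot x, L.ψ (u x)) : E × ℝ))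
          (bnd Z u (L.b k - L.w' k) (L.b k + L.w' k)) := (P k).conicalOn_foot.prodMk h1
      exact (ConicalOn.comp (g := (P k).G.toFun) (P k).G.conical h2 (hmapsb k)
        (hcontb k)).congr (hcb k)
  have hcase : ∀ x ∈ Z, (∃ k, x ∈ bnd Z u (L.b k - L.w' k) (L.b k + L.w' k)) ∨
      (∀ k, u x ∉ Ioo (L.b k - L.w' k) (L.b k + L.w' k)) := by
    intro x hx
    by_cases hex : ∃ k, x ∈ bnd Z u (L.b k - L.w' k) (L.b k + L.w' k)
    · exact Or.inl hex
    · exact Or.inr fun k hk => hex ⟨k, hx, Ioo_subset_Icc_self hk⟩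
  refine ⟨c, ⟨?_, hcc, hcon, ?_, ?_, hcoff, hcb⟩⟩
  · intro x hx
    rcases hcase x hx with ⟨k, hk⟩ | h
    · rw [hcb k x hk]
      exact ((P k).mem_bnd (hmapsb k x hk).1 (hmapsb k x hk).2).1
    · rw [hcoff x hx h]; exact hx
  · intro i x hx
    rcases hcase x hx with ⟨k, hk⟩ | h
    · rw [hcb k x hk]
      exact ((P k).vert i _ (hmapsb k x hk).1 _ (hmapsb k x hk).2).trans ((P k).foot_iff hk i)
    · rw [hcoff x hx h]
  · intro x hx
    rcases hcase x hx with ⟨k, hk⟩ | h
    · rw [hcb k x hk]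
      exact (P k).level _ (hmapsb k x hk).1 _ (hmapsb k x hk).2
    · rw [hcoff x hx h, L.ψ_off _ h]

end P073.H936
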