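import Vale.Agent.P073.H936.Tree

/-!
# P073, block H936: the main theorem on reassembling thick discs
-/

open Set Metric Topology Filter Relation

namespace P073.H936

open P073

variable {E : Type*} [NormedAddCommGroup E] [NormedSpace ℝ E]

namespace Doors

variable {k : ℕ} {ν δ : Type*} {S : Doors k ν δ E}

open Classical in
/-- **Reassembly.**  The union `D n` of the pieces below an accessible node `n` is level-homeomorphic
to the thick disc `Ef n`, by a homeomorphism which is the identity on the region `P n`; the new level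
function is, up to sign, the old one on every piece. -/
theorem exists_homeo (hk : 0 < k) [Finite δ] {n : ν} (hn : Acc (Par S.out S.inn) n) :
    ∃ (b : E → ℝ) (σ : ν → ℝ), Signed S n b σ ∧ ∃ Φ : ConHomeo (S.D n) (S.Ef n),
      EqOn Φ.toFun id (S.P n) ∧ ∀ x ∈ S.D n, S.lev n (Φ.toFun x) = b x := by
  induction hn with
  | intro n hacc ih =>
  have hn : Acc (Par S.out S.inn) n := ⟨n, hacc⟩
  have ih' : ∀ d : {d // S.out d = n}, ∃ (b : E → ℝ) (σ : ν → ℝ), Signed S (S.inn d.1) b σ ∧
      ∃ Φ : ConHomeo (S.D (S.inn d.1)) (S.Ef (S.inn d.1)),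
      EqOn Φ.toFun id (S.P (S.inn d.1)) ∧
      ∀ x ∈ S.D (S.inn d.1), S.lev (S.inn d.1) (Φ.toFun x) = b x := fun d =>
    ih _ ⟨d.1, rfl, d.2⟩
  choose c τ hc φ hφ1 hφ2 using ih'
  -- the level function
  let b : E → ℝ := fun x => if x ∈ S.P n then S.lev n x else
    if h : ∃ d : {d // S.out d = n}, x ∈ S.J d.1 then S.β h.choose.1 x else
    if h : ∃ d : {d // S.out d = n}, x ∈ S.D (S.inn d.1) then S.sg h.choose.1 * c h.choose x else 0
  have hbP : EqOn b (S.lev n) (S.P n) := fun x hx => by simp only [b]; rw [if_pos hx]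
  have hbJ : ∀ d : {d // S.out d = n}, EqOn b (S.β d.1) (S.J d.1) := by
    intro d x hx
    by_cases hxP : x ∈ S.P n
    · rw [hbP hxP]
      have hxo : x ∈ S.Lo d.1 := by rw [← S.J_out d.1, d.2]; exact ⟨hx, hxP⟩
      rw [S.β_out d.1 hxo, d.2]
    · simp only [b]
      have h : ∃ d : {d // S.out d = n}, x ∈ S.J d.1 := ⟨d, hx⟩
      rw [if_neg hxP, dif_pos h]
      have h1 : h.choose = d := by
        by_contra hne
        exact Set.disjoint_left.1 (S.J_disj _ _ (fun h2 => hne (Subtype.ext h2))) h.choose_spec hx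
      rw [h1]
  have hcP : ∀ d : {d // S.out d = n}, EqOn (c d) (S.lev (S.inn d.1)) (S.P (S.inn d.1)) := by
    intro d x hx
    rw [(hc d).onP _ ReflTransGen.refl hx, (hc d).self]
    show 1 * S.lev (S.inn d.1) x = _
    rw [one_mul]
  have hbD : ∀ d : {d // S.out d = n}, EqOn b (fun x => S.sg d.1 * c d x) (S.D (S.inn d.1)) := by
    intro d x hx
    have hpar : Par S.out S.inn (S.inn d.1) n := ⟨d.1, rfl, d.2⟩
    by_cases hxJ : x ∈ S.J d.1
    · have hxL : x ∈ S.Lam (S.inn d.1) := J_inter_D hn d.2 ▸ ⟨hxJ, hx⟩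
      rw [hbJ d hxJ, S.β_inn d.1 hxL]
      show _ = S.sg d.1 * c d x
      rw [hcP d (Lam_sub _ hxL)]
    · have hxP : x ∉ S.P n := by
        intro hxP
        have h1 : x ∈ S.Lo d.1 := P_inter hn d.2 ▸ ⟨Or.inr hx, hxP⟩
        rw [← S.J_out d.1] at h1
        exact hxJ h1.1
      have hnJ : ¬ ∃ d : {d // S.out d = n}, x ∈ S.J d.1 := by
        rintro ⟨d', hd'⟩
        by_cases h1 : d' = d
        · exact hxJ (h1 ▸ hd')
        · exact Set.disjoint_left.1 (G_disj hn d'.2 d.2 (fun h2 => h1 (Subtype.ext h2)))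
            (Or.inl hd') (Or.inr hx)
      have h : ∃ d : {d // S.out d = n}, x ∈ S.D (S.inn d.1) := ⟨d, hx⟩
      simp only [b]
      rw [if_neg hxP, dif_neg hnJ, dif_pos h]
      have h1 : h.choose = d := by
        by_contra hne
        exact Set.disjoint_left.1 (G_disj hn h.choose.2 d.2 (fun h2 => hne (Subtype.ext h2)))
          (Or.inr h.choose_spec) (Or.inr hx)
      rw [h1]
  -- the thick discs below the children
  have hthick : ∀ d : {d // S.out d = n}, Thick k (S.D (S.inn d.1)) b (S.Lam (S.inn d.1)) := by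
    intro d
    have h1 : Thick k (S.D (S.inn d.1)) (c d) (S.Lam (S.inn d.1)) := by
      refine (S.Ef_thick d.1).of_homeo (φ d) (hφ2 d) ((Lam_sub d.1).trans (P_sub_D _)) ?_
      rw [((hφ1 d).mono (Lam_sub d.1)).image_eq, image_id]
    exact (h1.sign (S.hsg d.1)).congr (hbD d)
  have hcol : ∀ d : {d // S.out d = n}, Thick k (S.J d.1 ∪ S.D (S.inn d.1)) b (S.Lo d.1) := by
    intro d
    obtain ⟨ψ, h1, h2, h3⟩ := S.J_collar d.1
    rw [← h3]
    exact (hthick d).add_collar hk ⟨ConHomeo.refl (conicalSet_sphere_pi k)⟩ ψ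
      (fun q hq => by rw [hbJ d (ψ.mapsTo hq), h1 q hq]) (J_inter_D hn d.2) h2
  obtain ⟨Φ, hΦ1, hΦ2, hΦ3⟩ := exists_replace (J := {d // S.out d = n}) (S.P_closed n)
    (S.P_conical n) (T := fun d => S.Fd d.1) (T' := fun d => S.J d.1 ∪ S.D (S.inn d.1))
    (Λ := fun d => S.Lo d.1) (b := S.lev n) (b' := b) (fun d => by
      have := S.Fd_thick d.1
      rwa [d.2] at this) hcol hbP (fun d => by
      have := S.Fd_P d.1
      rwa [d.2] at this) (fun d => P_inter hn d.2)
    (fun d d' hne => S.Fd_disj d.1 d'.1 (fun h => hne (Subtype.ext h)) (d.2.trans d'.2.symm))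
    (fun d d' hne => G_disj hn d.2 d'.2 (fun h => hne (Subtype.ext h)))
  -- the signs
  let σ : ν → ℝ := fun m => if m = n then 1 else
    if h : ∃ d : {d // S.out d = n}, S.Below m (S.inn d.1) then S.sg h.choose.1 * τ h.choose m
    else 1
  have hσn : σ n = 1 := if_pos rfl
  have hσd : ∀ (d : {d // S.out d = n}) (m : ν), S.Below m (S.inn d.1) →
      σ m = S.sg d.1 * τ d m := by
    intro d m hm
    have hpar : ∀ d : {d // S.out d = n}, Par S.out S.inn (S.inn d.1) n := fun d => ⟨d.1, rfl, d.2⟩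
    have hmn : m ≠ n := by rintro rfl; exact not_below hn (hpar d) hm
    have h : ∃ d : {d // S.out d = n}, S.Below m (S.inn d.1) := ⟨d, hm⟩
    simp only [σ]
    rw [if_neg hmn, dif_pos h]
    have h1 : h.choose = d := by
      by_contra hne
      exact below_disjoint S.inj hn (hpar _) (hpar d)
        (fun h2 => hne (Subtype.ext (S.inj h2))) h.choose_spec hm
    rw [h1]
  have hsplit : ∀ m, S.Below m n → m = n ∨ ∃ d : {d // S.out d = n}, S.Below m (S.inn d.1) := by
    intro m hm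
    rcases hm.cases_tail with h1 | ⟨e, h1, d, h2, h3⟩
    · exact Or.inl h1.symm
    · exact Or.inr ⟨⟨d, h3⟩, h2 ▸ h1⟩
  have hmul : ∀ {x y : ℝ}, (x = 1 ∨ x = -1) → (y = 1 ∨ y = -1) → (x * y = 1 ∨ x * y = -1) := by
    rintro x y (rfl | rfl) (rfl | rfl) <;> norm_num
  refine ⟨b, σ, ⟨?_, hσn, ?_, ?_⟩, (Φ.cast (D_eq n).symm (S.Ef_eq n).symm), hΦ1, ?_⟩
  · intro m
    by_cases hmn : m = n
    · rw [hmn]; exact Or.inl hσn
    · by_cases h : ∃ d : {d // S.out d = n}, S.Below m (S.inn d.1)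
      · obtain ⟨d, hd⟩ := h
        rw [hσd d m hd]
        exact hmul (S.hsg d.1) ((hc d).sign m)
      · simp only [σ]
        rw [if_neg hmn, dif_neg h]
        exact Or.inl rfl
  · intro m hm x hx
    rcases hsplit m hm with h | ⟨d, hd⟩
    · subst h
      show b x = σ m * S.lev m x
      rw [hσn, one_mul, hbP hx]
    · show b x = σ m * S.lev m x
      rw [hbD d (mem_D.2 ⟨m, hd, Or.inl hx⟩), hσd d m hd]
      show S.sg d.1 * c d x = _
      rw [(hc d).onP m hd hx, mul_assoc]
  · intro d' hd' x hx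
    rcases hsplit _ hd' with h | ⟨d, hd⟩
    · show b x = σ (S.out d') * S.β d' x
      rw [h, hσn, one_mul, hbJ ⟨d', h⟩ hx]
    · show b x = σ (S.out d') * S.β d' x
      rw [hbD d (mem_D.2 ⟨_, hd, Or.inr ⟨d', rfl, hx⟩⟩), hσd d _ hd]
      show S.sg d.1 * c d x = _
      rw [(hc d).onJ d' hd hx, mul_assoc]
  · intro x hx
    rw [D_eq] at hx
    exact hΦ3 x hx

end Doors

end P073.H936
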