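import Vale.Agent.P073.H936.Lift
import Vale.Agent.P073.H936.TreeMain

/-!
# P073, block H936: **the full switch**

At every circle block the outer part of each sheet is joined to the inner part of the other sheet.
`fullSwitch`: the result is again two families of thick discs, with the same lateral boundaries, and
the new discs of different sides meet in the arc blocks only.
-/

set_option linter.unusedSectionVars false

open Set Metric Topology Filter Relation

namespace P073.H936

variable {E : Type*} [NormedAddCommGroup E] [NormedSpace ℝ E] {ι κ : Type*}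

namespace LamData

variable {D : SwData ι κ E} {L : LamData D} [Finite κ] {r : ℝ}

theorem ins_self (c : κ) (X : Bool) : ¬ L.Ins c X (Sum.inr (c, X)) := fun h => h.2.2.1 rfl

theorem out_ne (c : κ) (X : Bool) : L.out (c, X) ≠ Sum.inr (c, X) := fun h =>
  ins_self (L := L) c X (h ▸ out_ins c X)

/-- the region of a node, in space -/
def PP (L : LamData D) (r : ℝ) (n : ι ⊕ (κ × Bool)) : Set E := lift D r (sheet D n) (L.pp n)

theorem N_eq {i j : ι} {x : E} (hi : x ∈ D.N i) (hj : x ∈ D.N j) (h : D.side i = D.side j) :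
    i = j := by
  by_contra hne
  exact Set.disjoint_left.1 (D.N_disj i j hne h) hi hj

/-- a point of a circle block in a region -/
theorem K_inter_PP {c : κ} {n : ι ⊕ (κ × Bool)} {x : E} (hK : x ∈ D.K c) (hx : x ∈ L.PP r n) :
    ∃ X : Bool, D.side (sheet D n) = X ∧ sheet D n = D.sh c X ∧
      ((n = Sum.inr (c, X) ∧ x ∈ lift D r (D.sh c X) (L.rin c X)) ∨
        (L.out (c, X) = n ∧ x ∈ lift D r (D.sh c X) (L.rout c X))) := by
  refine ⟨D.side (sheet D n), rfl, ?_, ?_⟩
  · exact N_eq hx.1 (SwData.K_sub c _ hK) (D.sh_side c _).symm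
  · have h1 : sheet D n = D.sh c (D.side (sheet D n)) :=
      N_eq hx.1 (SwData.K_sub c _ hK) (D.sh_side c _).symm
    have hx' := hx
    unfold PP at hx'
    generalize D.side (sheet D n) = X at h1 ⊢
    rw [h1] at hx'
    have hA := (SwData.mem_K_iff hx'.1).1 hK
    rcases A_inter_pp h1 hA hx'.2.1 with ⟨h2, h3⟩ | ⟨h2, h3⟩
    · exact Or.inl ⟨h2, hx'.1, h3, hx'.2.2⟩
    · exact Or.inr ⟨h2, hx'.1, h3, hx'.2.2⟩

/-- a region is at levels `≤ r` -/
theorem PP_level {n : ι ⊕ (κ × Bool)} {x : E} (hx : x ∈ L.PP r n) :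
    |D.s (sheet D n) x| ≤ r := hx.2.2

/-- on a side face of a block the other level is `± 1` -/
theorem abs_face {c : κ} {X : Bool} {x : E} (h : x ∈ lift D r (D.sh c X) (L.rin c X) ∨
    x ∈ lift D r (D.sh c X) (L.rout c X)) : |D.s (D.sh c (!X)) x| = 1 := by
  rcases h with h | h
  · rw [mem_lift_rin] at h
    rw [h.2.1, abs_neg]
    rcases eps_cases (L := L) c X with h | h <;> rw [h] <;> norm_num
  · rw [mem_lift_rout] at h
    rw [h.2.1]
    rcases eps_cases (L := L) c X with h | h <;> rw [h] <;> norm_num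

/-- the regions of the inner nodes are disjoint from all others -/
theorem PP_disj (h1 : r < 1) {c : κ} {X : Bool} {n : ι ⊕ (κ × Bool)} (hne : n ≠ Sum.inr (c, X)) :
    Disjoint (L.PP r (Sum.inr (c, X))) (L.PP r n) := by
  rw [Set.disjoint_left]
  intro x hx hx'
  by_cases hs : D.side (D.sh c X) = D.side (sheet D n)
  · have h2 : D.sh c X = sheet D n := N_eq hx.1 hx'.1 hs
    have h3 := hx'.2.1
    rw [← h2] at h3
    exact Set.disjoint_left.1 (pp_disj h2.symm hne) hx.2.1 h3
  · rcases D.cross _ _ hs ⟨hx.1, hx'.1⟩ with hR | hK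
    · exact R_out hR hx.1 (I_sub_O c X (pp_sub _ hx.2.1))
    · obtain ⟨c', hK⟩ := mem_iUnion.1 hK
      obtain ⟨Y, hY1, hY2, hY3⟩ := K_inter_PP hK hx
      obtain ⟨Z, hZ1, hZ2, hZ3⟩ := K_inter_PP hK hx'
      have hYX : Y = X := by rw [← hY1]; exact D.sh_side c X
      subst hYX
      have hZ : Z = !Y := by
        have h5 : Z ≠ Y := by
          rintro rfl
          exact hs ((D.sh_side c Z).trans hZ1.symm)
        cases Z <;> cases Y
        · exact absurd rfl h5
        · rfl
        · rfl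
        · exact absurd rfl h5
      subst hZ
      have h6 : |D.s (D.sh c' (!Y)) x| = 1 := by
        apply abs_face (L := L) (r := r)
        rcases hY3 with h | h
        · exact Or.inl h.2
        · exact Or.inr h.2
      have h7 := PP_level hx'
      rw [hZ2, h6] at h7
      linarith

theorem abs_beta_gt (h1 : r < 1) {c : κ} {X : Bool} {x : E}
    (h : (D.s (D.sh c (!X)) x = -L.eps c X ∧ |D.s (D.sh c X) x| ≤ r) ∨
      (D.s (D.sh c X) x = L.eps c (!X) ∧ |D.s (D.sh c (!X)) x| ≤ r)) : r < |L.beta c X x| := by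
  unfold beta
  rcases eps_cases (L := L) c X with e1 | e1 <;> rcases eps_cases (L := L) c (!X) with e2 | e2 <;>
    rw [e1, e2] at h ⊢ <;> rcases h with ⟨h2, h3⟩ | ⟨h2, h3⟩ <;> rw [h2] <;>
    obtain ⟨h4, h5⟩ := abs_le.1 h3 <;> rw [lt_abs] <;>
    first
      | (left; linarith)
      | (right; linarith)

/-- a half block meets a region in its two side faces only -/
theorem J_inter {c : κ} {X : Bool} {n : ι ⊕ (κ × Bool)} (h1 : r < 1) {x : E}
    (hJ : x ∈ L.Jc r c X) (hx : x ∈ L.PP r n) :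
    (L.out (c, X) = n ∧ x ∈ lift D r (D.sh c X) (L.rout c X)) ∨
      (n = Sum.inr (c, !X) ∧ x ∈ lift D r (D.sh c (!X)) (L.rin c (!X))) := by
  obtain ⟨Y, _, hY2, hY3⟩ := K_inter_PP hJ.1 hx
  by_cases hYX : Y = X
  · subst hYX
    rcases hY3 with ⟨h, h2⟩ | h
    · exfalso
      rw [mem_lift_rin] at h2
      have := abs_beta_gt (L := L) h1 (Or.inl h2.2)
      exact absurd hJ.2 (not_le.2 this)
    · exact Or.inl h
  · have hY : Y = !X := by
      cases Y <;> cases X
      · exact absurd rfl hYX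
      · rfl
      · rfl
      · exact absurd rfl hYX
    subst hY
    rcases hY3 with h | ⟨h, h2⟩
    · exact Or.inr h
    · exfalso
      rw [mem_lift_rout, Bool.not_not] at h2
      have := abs_beta_gt (L := L) h1 (Or.inr h2.2)
      exact absurd hJ.2 (not_le.2 this)

theorem mem_J_of_rout {c : κ} {X : Bool} {x : E} (h : x ∈ lift D r (D.sh c X) (L.rout c X)) :
    x ∈ L.Jc r c X ∧ L.beta c X x = D.s (D.sh c X) x := by
  rw [mem_lift_rout] at h
  have e1 : L.beta c X x = D.s (D.sh c X) x := by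
    unfold beta
    rw [h.2.1]
    rcases eps_cases (L := L) c X with e1 | e1 <;> rw [e1] <;> ring
  exact ⟨⟨h.1, by rw [e1]; exact h.2.2⟩, e1⟩

theorem mem_J_of_rin {c : κ} {X : Bool} {x : E} (h : x ∈ lift D r (D.sh c (!X)) (L.rin c (!X))) :
    x ∈ L.Jc r c X ∧ L.beta c X x = -(L.eps c X * L.eps c (!X)) * D.s (D.sh c (!X)) x := by
  rw [mem_lift_rin, Bool.not_not] at h
  have e1 : L.beta c X x = -(L.eps c X * L.eps c (!X)) * D.s (D.sh c (!X)) x := by
    unfold beta
    rw [h.2.1]
    ring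
  refine ⟨⟨h.1, ?_⟩, e1⟩
  rw [e1, abs_mul, abs_neg, abs_mul]
  have a1 : |L.eps c X| = 1 := by
    rcases eps_cases (L := L) c X with h | h <;> rw [h] <;> norm_num
  have a2 : |L.eps c (!X)| = 1 := by
    rcases eps_cases (L := L) c (!X) with h | h <;> rw [h] <;> norm_num
  rw [a1, a2, one_mul, one_mul]
  exact h.2.2

theorem rout_sub_PP {c : κ} {X : Bool} {x : E} (h : x ∈ lift D r (D.sh c X) (L.rout c X)) :
    x ∈ L.PP r (L.out (c, X)) := by
  unfold PP
  rw [sheet_out]
  refine lift_mono ?_ h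
  rw [← O_inter_pp]
  exact inter_subset_right

theorem rin_sub_PP {c : κ} {X : Bool} {x : E} (h : x ∈ lift D r (D.sh c X) (L.rin c X)) :
    x ∈ L.PP r (Sum.inr (c, X)) := lift_mono (rin_sub_pp c X) h

theorem J_disj' (h1 : r < 1) {c c' : κ} {X X' : Bool} (hne : ((c, X) : κ × Bool) ≠ (c', X')) :
    Disjoint (L.Jc r c X) (L.Jc r c' X') := by
  rw [Set.disjoint_left]
  rintro x ⟨hx, hx2⟩ ⟨hy, hy2⟩
  by_cases hcc : c = c'
  · subst hcc
    have hX : X' = !X := by
      cases X <;> cases X'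
      · exact absurd rfl hne
      · rfl
      · rfl
      · exact absurd rfl hne
    subst hX
    unfold beta at hx2 hy2
    rw [Bool.not_not] at hy2
    obtain ⟨a1, a2⟩ := abs_le.1 hx2
    obtain ⟨b1, b2⟩ := abs_le.1 hy2
    rcases eps_cases (L := L) c X with e1 | e1 <;> rcases eps_cases (L := L) c (!X) with e2 | e2 <;>
      rw [e1, e2] at a1 a2 b1 b2 <;> linarith
  · exact Set.disjoint_left.1 (D.K_disj c c' hcc) hx hy

/-- **the doors of the full switch** -/
noncomputable def doors (L : LamData D) (h0 : 0 < r) (h1 : r < 1) :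
    Doors 2 (ι ⊕ (κ × Bool)) (κ × Bool) E where
  out := fun d => L.out d
  inn := fun d => Sum.inr (d.1, !d.2)
  P := fun n => L.PP r n
  Lam := fun n => match n with
    | Sum.inl i => lift D r i (sphere 0 1)
    | Sum.inr (c, X) => lift D r (D.sh c X) (L.rin c X)
  lev := fun n x => D.s (sheet D n) x / r
  Ef := fun n => lift D r (sheet D n) (L.pd n)
  J := fun d => L.Jc r d.1 d.2
  β := fun d x => L.beta d.1 d.2 x / r
  Lo := fun d => lift D r (D.sh d.1 d.2) (L.rout d.1 d.2)
  Fd := fun d => lift D r (D.sh d.1 d.2) (L.O d.1 d.2)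
  sg := fun d => -(L.eps d.1 d.2 * L.eps d.1 (!d.2))
  inj := by
    rintro ⟨c, X⟩ ⟨c', X'⟩ h
    simp only [Sum.inr.injEq, Prod.mk.injEq] at h
    rw [Prod.mk.injEq]
    exact ⟨h.1, by have := congrArg not h.2; simpa using this⟩
  hsg := by
    rintro ⟨c, X⟩
    rcases eps_cases (L := L) c X with e1 | e1 <;>
      rcases eps_cases (L := L) c (!X) with e2 | e2 <;> simp only [e1, e2] <;> norm_num
  P_closed := fun n => isClosed_lift h0 h1 ((pp_sub n).trans (pd_sub n)) (isClosed_pp n)
  P_conical := fun n => conicalSet_lift h0 h1 ((pp_sub n).trans (pd_sub n)) (conicalSet_pp n)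
  Ef_eq := by
    intro n
    ext x
    constructor
    · rintro ⟨h2, h3, h4⟩
      rw [pd_eq] at h3
      rcases h3 with h3 | h3
      · exact Or.inl ⟨h2, h3, h4⟩
      · obtain ⟨⟨⟨c, X⟩, hd⟩, h5⟩ := mem_iUnion.1 h3
        refine Or.inr (mem_iUnion.2 ⟨⟨(c, X), hd⟩, ?_⟩)
        have hs : sheet D n = D.sh c X := by rw [← sheet_out (L := L) c X, hd]
        rw [hs] at h2 h4 h5
        exact ⟨h2, h5, h4⟩
    · rintro (h | h)
      · exact lift_mono (pp_sub n) h
      · obtain ⟨⟨⟨c, X⟩, hd⟩, h5⟩ := mem_iUnion.1 h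
        have hs : sheet D n = D.sh c X := by rw [← sheet_out (L := L) c X, hd]
        have h6 : L.O c X ⊆ L.pd n := by
          have h7 := ins_sub (out_ins (L := L) c X)
          rwa [hd] at h7
        rw [hs]
        exact lift_mono h6 h5
  Ef_thick := by
    rintro ⟨c, X⟩
    exact thick_lift h0 h1 (pd_sub (Sum.inr (c, !X))) (L.ballI c (!X))
  Fd_thick := by
    rintro ⟨c, X⟩
    have h2 : Thick 2 (lift D r (D.sh c X) (L.O c X)) (fun x => D.s (D.sh c X) x / r)
        (lift D r (D.sh c X) (L.rout c X)) :=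
      thick_lift h0 h1 ((L.O_sub c X).trans ball_subset_closedBall) (L.ballO c X)
    simp only [sheet_out]
    exact h2
  Fd_P := by
    rintro ⟨c, X⟩
    simp only [PP, sheet_out]
    ext x
    constructor
    · rintro ⟨h2, h3⟩
      refine ⟨h2.1, ?_, h2.2.2⟩
      rw [← O_inter_pp]
      exact ⟨h2.2.1, h3.2.1⟩
    · intro h2
      have h3 := h2.2.1
      rw [← O_inter_pp] at h3
      exact ⟨⟨h2.1, h3.1, h2.2.2⟩, ⟨h2.1, h3.2, h2.2.2⟩⟩
  Fd_disj := by
    rintro ⟨c, X⟩ ⟨c', X'⟩ hne h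
    rw [Set.disjoint_left]
    intro x hx hx'
    have hs : D.sh c X = D.sh c' X' := by
      rw [← sheet_out (L := L) c X, ← sheet_out (L := L) c' X', h]
    have h5 := hx'.2.1
    simp only at h5
    rw [← hs] at h5
    exact Set.disjoint_left.1 (O_disj hne h) hx.2.1 h5
  J_collar := fun d => J_collar h0 h1 L d.1 d.2
  β_out := by
    rintro ⟨c, X⟩ x hx
    simp only [sheet_out]
    rw [(mem_J_of_rout hx).2]
  β_inn := by
    rintro ⟨c, X⟩ x hx
    have h2 := (mem_J_of_rin (X := X) hx).2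
    simp only [sheet]
    rw [h2, mul_div_assoc]
  J_disj := fun d d' hne => J_disj' h1 hne
  J_out := by
    rintro ⟨c, X⟩
    apply Subset.antisymm
    · rintro x ⟨hJ, hx⟩
      rcases J_inter h1 hJ hx with h | ⟨h, h2⟩
      · exact h.2
      · exfalso
        have h3 := sheet_out (L := L) c X
        rw [h] at h3
        have h4 : D.sh c (!X) = D.sh c X := h3
        have h5 := congrArg D.side h4
        rw [D.sh_side, D.sh_side] at h5
        cases X <;> simp at h5
    · intro x hx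
      exact ⟨(mem_J_of_rout hx).1, rout_sub_PP hx⟩
  J_inn := by
    rintro ⟨c, X⟩
    apply Subset.antisymm
    · rintro x ⟨hJ, hx⟩
      rcases J_inter h1 hJ hx with ⟨h, _⟩ | h
      · exfalso
        have h3 := sheet_out (L := L) c X
        rw [h] at h3
        have h4 : D.sh c (!X) = D.sh c X := h3
        have h5 := congrArg D.side h4
        rw [D.sh_side, D.sh_side] at h5
        cases X <;> simp at h5
      · exact h.2
    · intro x hx
      exact ⟨(mem_J_of_rin hx).1, rin_sub_PP hx⟩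
  J_P := by
    rintro ⟨c, X⟩ n hn hn'
    rw [Set.disjoint_left]
    intro x hJ hx
    rcases J_inter h1 hJ hx with h | h
    · exact hn h.1.symm
    · exact hn' h.1
  P_disj := fun d n hn => PP_disj h1 hn

end LamData

/-- **Output of the full switch.** -/
structure SwOut (D : SwData ι κ E) (L : LamData D) (r : ℝ) [Finite κ] where
  /-- the new thick discs -/
  B : ι → Set E
  /-- their level functions -/
  b : ι → E → ℝ
  /-- the regions which form the new discs -/
  V : ι → Set (ι ⊕ (κ × Bool))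
  σ : ι → ι ⊕ (κ × Bool) → ℝ
  root : ∀ i, Sum.inl i ∈ V i
  V_disj : ∀ i j, i ≠ j → Disjoint (V i) (V j)
  B_eq : ∀ i x, x ∈ B i ↔ ∃ m ∈ V i, x ∈ L.PP r m ∨ ∃ d, L.out d = m ∧ x ∈ L.Jc r d.1 d.2
  sign : ∀ i m, σ i m = 1 ∨ σ i m = -1
  sign_root : ∀ i, σ i (Sum.inl i) = 1
  level_P : ∀ i, ∀ m ∈ V i, ∀ x ∈ L.PP r m, b i x = σ i m * D.s (LamData.sheet D m) x
  level_J : ∀ i, ∀ d, L.out d ∈ V i → ∀ x ∈ L.Jc r d.1 d.2,
    b i x = σ i (L.out d) * L.beta d.1 d.2 x
  Φ : ∀ i, ConHomeo (B i) {x ∈ D.N i | |D.s i x| ≤ r}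
  Φ_id : ∀ i, EqOn (Φ i).toFun id (L.PP r (Sum.inl i))
  Φ_level : ∀ i, ∀ x ∈ B i, D.s i ((Φ i).toFun x) = b i x
  /-- same side: disjoint -/
  disj : ∀ i j, i ≠ j → D.side i = D.side j → Disjoint (B i) (B j)
  /-- different sides: only the arc blocks -/
  inter : ∀ i j, D.side i ≠ D.side j →
    B i ∩ B j = {x ∈ D.R | x ∈ D.N i ∧ x ∈ D.N j ∧ |D.s i x| ≤ r ∧ |D.s j x| ≤ r}

/-- the root region contains the arc blocks and a neighbourhood of the lateral boundary -/
theorem LamData.mem_PP_root {D : SwData ι κ E} {L : LamData D} [Finite κ] {r : ℝ} {i : ι} {x : E}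
    (hx : x ∈ D.N i) (hr : |D.s i x| ≤ r)
    (h : x ∈ D.R ∨ ‖((D.φ i).toFun x).1‖ = 1) : x ∈ L.PP r (Sum.inl i) := by
  refine ⟨hx, ⟨((D.φ i).mapsTo hx).1, ?_⟩, hr⟩
  rintro ⟨c, X⟩ hd hO
  have hs : i = D.sh c X := by
    have := LamData.sheet_out (L := L) c X
    rw [hd] at this
    exact this
  subst hs
  rcases h with h | h
  · exact LamData.R_out h hx hO.1
  · have h1 := L.O_sub c X hO.1
    rw [mem_ball_zero_iff] at h1
    exact absurd h h1.ne

/-- **The full switch.** -/
theorem fullSwitch [Finite ι] [Finite κ] (D : SwData ι κ E) (L : LamData D) {r : ℝ} (h0 : 0 < r)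
    (h1 : r < 1) : Nonempty (SwOut D L r) := by
  set S := L.doors h0 h1 with hS
  have hroot : ∀ (i : ι) d, S.inn d ≠ Sum.inl i := by
    rintro i ⟨c, X⟩ h
    exact absurd h (by simp [hS, LamData.doors])
  have hacc : ∀ i : ι, Acc (Par S.out S.inn) (Sum.inl i) := fun i => acc_root S.inj (hroot i)
  have hex : ∀ i : ι, ∃ (b : E → ℝ) (σ : ι ⊕ (κ × Bool) → ℝ), Doors.Signed S (Sum.inl i) b σ ∧
      ∃ Φ : ConHomeo (S.D (Sum.inl i)) (S.Ef (Sum.inl i)), EqOn Φ.toFun id (S.P (Sum.inl i)) ∧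
      ∀ x ∈ S.D (Sum.inl i), S.lev (Sum.inl i) (Φ.toFun x) = b x := fun i =>
    Doors.exists_homeo two_pos (hacc i)
  choose b σ hb Φ hΦ1 hΦ2 using hex
  have hEf : ∀ i : ι, S.Ef (Sum.inl i) = {x ∈ D.N i | |D.s i x| ≤ r} := by
    intro i
    show lift D r i (closedBall 0 1) = _
    ext x
    constructor
    · rintro ⟨h2, _, h3⟩; exact ⟨h2, h3⟩
    · rintro ⟨h2, h3⟩; exact ⟨h2, ((D.φ i).mapsTo h2).1, h3⟩
  refine ⟨{
    B := fun i => S.D (Sum.inl i)
    b := fun i x => r * b i x
    V := fun i => {m | S.Below m (Sum.inl i)}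
    σ := σ
    root := fun i => ReflTransGen.refl
    V_disj := ?_
    B_eq := fun i x => Doors.mem_D
    sign := fun i m => (hb i).sign m
    sign_root := fun i => (hb i).self
    level_P := ?_
    level_J := ?_
    Φ := fun i => (Φ i).cast rfl (hEf i)
    Φ_id := fun i => hΦ1 i
    Φ_level := ?_
    disj := ?_
    inter := ?_ }⟩
  · intro i j hij
    rw [Set.disjoint_left]
    intro m hm hm'
    exact below_root_disjoint S.inj (hroot i) (hroot j) (fun h => hij (Sum.inl.inj h)) hm hm'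
  · intro i m hm x hx
    have h2 : b i x = σ i m * (D.s (LamData.sheet D m) x / r) := (hb i).onP m hm hx
    rw [h2]
    field_simp
  · intro i d hd x hx
    have h2 : b i x = σ i (L.out d) * (L.beta d.1 d.2 x / r) := (hb i).onJ d hd hx
    rw [h2]
    field_simp
  · intro i x hx
    have h2 : D.s i ((Φ i).toFun x) / r = b i x := hΦ2 i x hx
    show D.s i ((Φ i).toFun x) = r * b i x
    rw [← h2]
    field_simp
  · intro i j hij hs
    rw [Set.disjoint_iff_inter_eq_empty,
      Doors.D_inter (hroot i) (hroot j) (fun h => hij (Sum.inl.inj h)), ← disjoint_iff_inter_eq_empty]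
    exact (D.N_disj i j hij hs).mono (fun x hx => hx.1) (fun x hx => hx.1)
  · intro i j hs
    have hij : i ≠ j := fun h => hs (by rw [h])
    rw [Doors.D_inter (hroot i) (hroot j) (fun h => hij (Sum.inl.inj h))]
    ext x
    constructor
    · rintro ⟨hx, hx'⟩
      have h2 : x ∈ L.PP r (Sum.inl i) := hx
      have h3 : x ∈ L.PP r (Sum.inl j) := hx'
      rcases D.cross i j hs ⟨h2.1, h3.1⟩ with hR | hK
      · exact ⟨hR, h2.1, h3.1, h2.2.2, h3.2.2⟩
      · exfalso
        obtain ⟨c, hK⟩ := mem_iUnion.1 hK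
        obtain ⟨Y, hY1, hY2, hY3⟩ := LamData.K_inter_PP hK h2
        obtain ⟨Z, hZ1, hZ2, hZ3⟩ := LamData.K_inter_PP hK h3
        have hZ : Z = !Y := by
          have h5 : Z ≠ Y := by
            rintro rfl
            exact hs (hY1.trans hZ1.symm)
          cases Z <;> cases Y
          · exact absurd rfl h5
          · rfl
          · rfl
          · exact absurd rfl h5
        subst hZ
        have h6 : |D.s (D.sh c (!Y)) x| = 1 := by
          apply LamData.abs_face (L := L) (r := r)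
          rcases hY3 with h | h
          · exact Or.inl h.2
          · exact Or.inr h.2
        have h7 := LamData.PP_level h3
        rw [hZ2, h6] at h7
        linarith
    · rintro ⟨hR, h2, h3, h4, h5⟩
      exact ⟨LamData.mem_PP_root h2 h4 (Or.inl hR), LamData.mem_PP_root h3 h5 (Or.inl hR)⟩

end P073.H936
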