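import Vale.Agent.P073.H936.K3In
import Vale.Agent.P073.H936.Switch
import Vale.Agent.P073.H142.NestCirc

/-!
# P073, block H936: [K3BOX], the box theorem with cells to be redrawn
-/

open Set Metric Topology Filter

namespace P073.H936.K3

open P073 P073.H936 P073.H880 P073.H669 P073.H579

variable {ι : Type*} {E : Type} [NormedAddCommGroup E] [NormedSpace ℝ E]
  {side : ι → Bool} {ax : Bool → Fin 3} {lo hi : Fin 3 → ℝ} {c w : ι → ℝ} {U : Set E} {Q : Type}

/-- The data of one box: a homeomorphism onto a box, disjoint coordinate bands of one or two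
families in the target, and cells in the interior of the domain with vertical boundaries. -/
structure BoxK (side : ι → Bool) (ax : Bool → Fin 3) (lo hi : Fin 3 → ℝ) (c w : ι → ℝ)
    (U : Set E) (Q : Type) where
  H : Bands side ax lo hi c w
  h : ConHomeo U (Icc lo hi)
  hU : ∀ x ∈ U, h.toFun x ∉ frontier (Icc lo hi) → U ∈ 𝓝 x
  K : Cells Q U (h.symm.toFun '' frontier (Icc lo hi))
  hK : ∀ q, BandInv side ax c w U h.toFun (frontier (K.C q))

namespace BoxK

variable (D : BoxK side ax lo hi c w U Q)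

/-- the boundary of the domain -/
def Bd : Set E := D.h.symm.toFun '' frontier (Icc lo hi)

theorem mem_Bd {x : E} (hx : x ∈ U) : x ∈ D.Bd ↔ D.h.toFun x ∈ frontier (Icc lo hi) :=
  mem_dfr D.h hx

theorem Bd_sub : D.Bd ⊆ U := by
  rintro _ ⟨y, hy, rfl⟩
  exact D.h.mapsTo_inv (isClosed_Icc.frontier_subset hy)

/-- the homeomorphism of the boundaries -/
noncomputable def hB : ConHomeo D.Bd (frontier (Icc lo hi)) :=
  (D.h.symm.restr (D.H.sys.hC.conicalSet_bdry) isClosed_Icc.frontier_subset).symm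

theorem hB_toFun (x : E) : D.hB.toFun x = D.h.toFun x := rfl

/-- the front end -/
noncomputable def bi : H142.BoxIn ι Q E := boxIn D.H D.h D.hU D.K D.hK

variable [Finite ι]

/-- the sheets with the drawn caps -/
noncomputable def pre : H142.Pre ι Q E := (D.bi.capsIn D.bi.nestCirc D.K.chart).pre

/-- the family of the new sheets -/
noncomputable def vf : VFam ι E := D.pre.vfam

theorem vf_side : D.vf.side = side := rfl

theorem vf_Bd : D.vf.Bd = D.Bd := rfl

theorem vf_N (i : ι) : D.vf.N i = D.pre.N' i := rfl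

theorem vf_s (i : ι) : D.vf.s i = D.pre.s' i := rfl

theorem pre_N (i : ι) {x : E} (hx : x ∈ U) :
    x ∈ D.pre.N i ↔ |D.h.toFun x (ax (side i)) - c i| ≤ w i := mem_dband D.h hx

theorem pre_N_sub (i : ι) : D.pre.N i ⊆ U := (dsys D.H D.h).sub i

theorem pre_s (i : ι) (x : E) : D.pre.s i x = (D.h.toFun x (ax (side i)) - c i) / w i := rfl

theorem cell_sub (q : Q) : D.pre.V q ∪ D.pre.B q ⊆ U := by
  have h1 : D.pre.V q ∪ D.pre.B q = D.K.C q := D.bi.VB_eq q
  rw [h1]; exact D.K.sub q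

theorem N_sub (i : ι) : D.vf.N i ⊆ U := by
  rintro x (hx | hx)
  · exact D.pre_N_sub i (D.pre.PP_N i hx)
  · obtain ⟨k, hk⟩ := mem_iUnion.1 hx
    rcases D.pre.cap_sub i k hk with h1 | ⟨⟨z, t⟩, ⟨hz, ht⟩, rfl⟩
    · exact D.cell_sub _ (Or.inl h1)
    · exact D.pre_N_sub i ((D.pre.Γ i).mapsTo ⟨D.pre.γD i k hz, ht⟩)

/-- on the boundary the new thick sheets are the old ones -/
theorem mem_N_bd (i : ι) {x : E} (hx : x ∈ D.Bd) : x ∈ D.vf.N i ↔ x ∈ D.pre.N i := by
  constructor
  · rintro (h1 | h1)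
    · exact D.pre.PP_N i h1
    · obtain ⟨k, hk⟩ := mem_iUnion.1 h1
      exact absurd hx (disjoint_left.1 (D.pre.cap_not_bd i k) hk)
  · intro h1
    left
    have h2 := (D.pre.Γ i).mapsTo_inv h1
    have h3 := (D.pre.Γ i).right_inv h1
    have h4 : ((D.pre.Γ i).invFun x).1 ∈ D.Bd :=
      (D.pre.bd i _ h2.1 _ h2.2).1 (by rw [Prod.mk.eta, h3]; exact hx)
    exact ⟨_, ⟨D.pre.bd_co i h2.1 h4, h2.2⟩, h3⟩

theorem s_bd (i : ι) {x : E} (hx : x ∈ D.Bd) (hN : x ∈ D.vf.N i) :
    D.vf.s i x = (D.h.toFun x (ax (side i)) - c i) / w i := by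
  rcases hN with h1 | h1
  · exact D.pre.s'_PP i h1
  · obtain ⟨k, hk⟩ := mem_iUnion.1 h1
    exact absurd hx (disjoint_left.1 (D.pre.cap_not_bd i k) hk)

theorem one : One D.vf U where
  hC := (dsys D.H D.h).hC
  sub := D.N_sub
  arc := by
    intro i j hi hj
    have hs : D.bi.side i ≠ D.bi.side j := by
      rw [show D.bi.side i = false from hi, show D.bi.side j = true from hj]; simp
    obtain ⟨a, ha, hb⟩ := D.pre.vfam_arc (i := i) (j := j) hi hj (D.bi.arc_ncard hs)
    refine ⟨a, ha, fun b hne => ?_⟩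
    by_contra hba
    obtain ⟨x, hx, hx'⟩ := hne
    exact disjoint_left.1 (hb b hba).2 hx hx'

/-- The output for two families: `g = h` on the boundary, and the clipped levels of `g` are the
levels of the switched sheets. -/
structure Switched [Fintype ι] (r : ℝ) (g : ConHomeo U (Icc lo hi)) : Prop where
  bd : EqOn g.toFun D.h.toFun D.Bd
  out : ∃ (L : LamData D.vf.swData) (O : SwOut D.vf.swData L r),
    (∀ i, g.toFun '' O.B i = {y | y ∈ Icc lo hi ∧ |y (ax (side i)) - c i| ≤ r * w i}) ∧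
    (∀ i, ∀ x ∈ O.B i, (g.toFun x (ax (side i)) - c i) / w i = O.b i x) ∧
    Lev O U (wlev side ax r c w g.toFun)

/-- **[K3BOX]** for two families -/
theorem exists_switched [Fintype ι] {r : ℝ} (h0 : 0 < r) (h1 : r < 1) :
    ∃ g : ConHomeo U (Icc lo hi), D.Switched r g := by
  obtain ⟨L⟩ := exists_lamData D.vf.swData
  obtain ⟨O⟩ := fullSwitch D.vf.swData L h0 h1
  have hmem : ∀ i, ∀ x ∈ D.vf.Bd,
      (|D.hB.toFun x (ax (D.vf.side i)) - c i| ≤ w i ↔ x ∈ D.vf.N i) := by
    intro i x hx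
    rw [D.mem_N_bd i hx, D.pre_N i (D.Bd_sub hx)]
    rfl
  obtain ⟨g, hg1, hg2, hg3, hg4⟩ := exists_box O h0 h1 D.one D.H (h := D.hB) hmem
    fun i x hx hN => (D.s_bd i hx hN).symm
  exact ⟨g, hg1, L, O, hg2, hg3, hg4⟩

variable {D}

/-- **[MET]** the local inequality, two families -/
theorem Switched.eventually_dsum_le [Fintype ι] {r : ℝ} {g : ConHomeo U (Icc lo hi)}
    (T : D.Switched r g) (h0 : 0 < r) (h1 : r < 1) {x : E} (hx : x ∈ U) :
    ∀ᶠ y in 𝓝[U] x, dsum (wlev side ax r c w g.toFun) x y ≤ tot D.vf.N D.vf.s x y := by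
  obtain ⟨L, O, -, -, hL⟩ := T.out
  exact hL.eventually_dsum_le h0 h1 hx

end BoxK

end P073.H936.K3
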