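import Vale.Agent.P073.H936.SwData

/-!
# P073, block H936: the laminar family of the circle blocks on the sheets

Nodes are the sheets (`Sum.inl i`, roots) and the inner discs of the circle blocks
(`Sum.inr (c, X)`); `out c X` is the node whose region is outside of the circle block `c` on the
sheet of side `X`.
-/

set_option linter.unusedSectionVars false

open Set Metric Topology Filter

namespace P073.H936

variable {E : Type*} [NormedAddCommGroup E] [NormedSpace ℝ E] {ι κ : Type*}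

/-- the inner discs of the circle blocks -/
structure LamData (D : SwData ι κ E) where
  e : κ → Bool → Bool
  I : κ → Bool → Set P2
  ballI : ∀ c X, ConBall 2 (I c X) (ring (D.a c X) (!e c X))
  ballO : ∀ c X, ConBall 2 (I c X ∪ D.A c X) (ring (D.a c X) (e c X))
  IA : ∀ c X, I c X ∩ D.A c X = ring (D.a c X) (!e c X)
  O_sub : ∀ c X, I c X ∪ D.A c X ⊆ ball 0 1
  lam : ∀ c c' X, c ≠ c' → D.sh c X = D.sh c' X →
    I c X ∪ D.A c X ⊆ I c' X \ ring (D.a c' X) (!e c' X) ∨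
    I c' X ∪ D.A c' X ⊆ I c X \ ring (D.a c X) (!e c X) ∨
    Disjoint (I c X ∪ D.A c X) (I c' X ∪ D.A c' X)

theorem exists_lamData [Finite κ] (D : SwData ι κ E) : Nonempty (LamData D) := by
  obtain ⟨e, I, h1, h2, h3, h4, h5⟩ := D.exists_laminar
  exact ⟨⟨e, I, h1, h2, h3, h4, h5⟩⟩

namespace LamData

variable {D : SwData ι κ E} (L : LamData D)

/-- outer disc -/
def O (c : κ) (X : Bool) : Set P2 := L.I c X ∪ D.A c X

/-- inner circle -/
def rin (c : κ) (X : Bool) : Set P2 := ring (D.a c X) (!L.e c X)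

/-- outer circle -/
def rout (c : κ) (X : Bool) : Set P2 := ring (D.a c X) (L.e c X)

variable {L}

theorem rin_sub_I (c : κ) (X : Bool) : L.rin c X ⊆ L.I c X := (L.ballI c X).1

theorem rin_sub_A (c : κ) (X : Bool) : L.rin c X ⊆ D.A c X := ring_sub _ _

theorem rout_sub_A (c : κ) (X : Bool) : L.rout c X ⊆ D.A c X := ring_sub _ _

theorem I_sub_O (c : κ) (X : Bool) : L.I c X ⊆ L.O c X := subset_union_left

theorem A_sub_O (c : κ) (X : Bool) : D.A c X ⊆ L.O c X := subset_union_right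

theorem rin_rout (c : κ) (X : Bool) : Disjoint (L.rin c X) (L.rout c X) := by
  unfold rin rout
  cases L.e c X
  · exact ring_disj _
  · exact (ring_disj _).symm

theorem I_rout (c : κ) (X : Bool) : Disjoint (L.I c X) (L.rout c X) := by
  rw [Set.disjoint_left]
  intro x hx hx'
  have : x ∈ L.rin c X := (L.IA c X).subset ⟨hx, rout_sub_A c X hx'⟩
  exact Set.disjoint_left.1 (rin_rout c X) this hx'

theorem I_sub (c : κ) (X : Bool) : L.I c X ⊆ L.O c X \ L.rout c X := fun _ hx =>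
  ⟨I_sub_O c X hx, fun h => Set.disjoint_left.1 (I_rout c X) hx h⟩

theorem not_O_sub_I (c : κ) (X : Bool) : ¬ L.O c X ⊆ L.I c X := by
  intro h
  obtain ⟨x, hx⟩ := ring_nonempty (D.a c X) (L.e c X)
  exact Set.disjoint_left.1 (I_rout c X) (h (A_sub_O c X (rout_sub_A c X hx))) hx

theorem O_nonempty (c : κ) (X : Bool) : (L.O c X).Nonempty := by
  obtain ⟨x, hx⟩ := ring_nonempty (D.a c X) (L.e c X)
  exact ⟨x, A_sub_O c X (rout_sub_A c X hx)⟩

/-- the sheet of a node -/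
def sheet (D : SwData ι κ E) : ι ⊕ (κ × Bool) → ι
  | Sum.inl i => i
  | Sum.inr (c, X) => D.sh c X

/-- `c` is (strictly) inside the node `n` on the sheet of side `X` -/
def Ins (L : LamData D) (c : κ) (X : Bool) : ι ⊕ (κ × Bool) → Prop
  | Sum.inl i => D.sh c X = i
  | Sum.inr (c', X') => X' = X ∧ D.sh c' X = D.sh c X ∧ c ≠ c' ∧ L.O c X ⊆ L.I c' X

/-- existence of the outer node -/
theorem exists_out [Finite κ] (L : LamData D) (c : κ) (X : Bool) :
    ∃ n, L.Ins c X n ∧ ∀ c', L.Ins c X (Sum.inr (c', X)) → n = Sum.inr (c', X) ∨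
      ∃ c'', n = Sum.inr (c'', X) ∧ L.Ins c'' X (Sum.inr (c', X)) := by
  by_cases hne : {c' | L.Ins c X (Sum.inr (c', X))}.Nonempty
  · obtain ⟨c₀, hc₀⟩ := Set.Finite.exists_minimalFor (fun c => L.I c X)
      {c' | L.Ins c X (Sum.inr (c', X))} (toFinite _) hne
    refine ⟨Sum.inr (c₀, X), hc₀.prop, fun c' hc' => ?_⟩
    by_cases hcc : c₀ = c'
    · left; rw [hcc]
    · right
      refine ⟨c₀, rfl, rfl, ?_, hcc, ?_⟩
      · exact hc'.2.1.trans hc₀.prop.2.1.symm
      · have h0 : L.O c X ⊆ L.I c₀ X := hc₀.prop.2.2.2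
        have h1 : L.O c X ⊆ L.I c' X := hc'.2.2.2
        rcases L.lam c₀ c' X hcc (hc₀.prop.2.1.trans hc'.2.1.symm) with h | h | h
        · exact h.trans sdiff_subset
        · exfalso
          have h2 : L.I c' X ⊆ L.I c₀ X := (I_sub_O c' X).trans (h.trans sdiff_subset)
          have h3 := hc₀.2 hc' h2
          exact not_O_sub_I c' X ((h.trans sdiff_subset).trans h3)
        · exfalso
          obtain ⟨x, hx⟩ := O_nonempty (L := L) c X
          exact Set.disjoint_left.1 h (I_sub_O _ _ (h0 hx)) (I_sub_O _ _ (h1 hx))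
  · refine ⟨Sum.inl (D.sh c X), rfl, fun c' hc' => ?_⟩
    exact absurd ⟨c', hc'⟩ hne

/-- the outer node -/
noncomputable def out [Finite κ] (L : LamData D) (d : κ × Bool) : ι ⊕ (κ × Bool) :=
  (L.exists_out d.1 d.2).choose

variable [Finite κ]

theorem out_ins (c : κ) (X : Bool) : L.Ins c X (L.out (c, X)) :=
  (L.exists_out c X).choose_spec.1

theorem out_min {c c' : κ} {X : Bool} (h : L.Ins c X (Sum.inr (c', X))) :
    L.out (c, X) = Sum.inr (c', X) ∨
      ∃ c'', L.out (c, X) = Sum.inr (c'', X) ∧ L.Ins c'' X (Sum.inr (c', X)) :=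
  (L.exists_out c X).choose_spec.2 c' h

theorem ins_sheet {c : κ} {X : Bool} {n : ι ⊕ (κ × Bool)} (h : L.Ins c X n) :
    sheet D n = D.sh c X := by
  rcases n with i | ⟨c', X'⟩
  · exact h.symm
  · obtain ⟨rfl, h1, _⟩ := h
    exact h1

theorem sheet_out (c : κ) (X : Bool) : sheet D (L.out (c, X)) = D.sh c X := ins_sheet (out_ins c X)

/-- transitivity -/
theorem Ins.trans {c c₂ : κ} {X : Bool} {n : ι ⊕ (κ × Bool)} (h : L.Ins c X (Sum.inr (c₂, X)))
    (h2 : L.Ins c₂ X n) : L.Ins c X n := by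
  rcases n with i | ⟨c', X'⟩
  · exact h.2.1.symm.trans h2
  · obtain ⟨rfl, h3, h4, h5⟩ := h2
    obtain ⟨_, h6, h7, h8⟩ := h
    refine ⟨rfl, h3.trans h6, ?_, h8.trans ((I_sub_O _ _).trans h5)⟩
    rintro rfl
    exact not_O_sub_I c X' (h8.trans ((I_sub_O _ _).trans h5))

/-- everything inside `n` is inside a maximal circle of `n` -/
theorem exists_door {c : κ} {X : Bool} {n : ι ⊕ (κ × Bool)} (h : L.Ins c X n) :
    ∃ c₂, L.out (c₂, X) = n ∧ L.Ins c₂ X n ∧ (c = c₂ ∨ L.Ins c X (Sum.inr (c₂, X))) := by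
  let T : Set κ := {c₂ | L.Ins c₂ X n ∧ (c = c₂ ∨ L.Ins c X (Sum.inr (c₂, X)))}
  have hT : T.Nonempty := ⟨c, h, Or.inl rfl⟩
  obtain ⟨c₂, hc₂⟩ := Set.Finite.exists_maximalFor (fun c => L.O c X) T (toFinite _) hT
  refine ⟨c₂, ?_, hc₂.prop.1, hc₂.prop.2⟩
  by_contra hne
  -- the outer node of `c₂` is a circle `c₃` inside `n`
  have key : ∃ c₃, L.Ins c₂ X (Sum.inr (c₃, X)) ∧ L.Ins c₃ X n := by
    rcases n with i | ⟨c', X'⟩
    · have h1 := out_ins (L := L) c₂ X
      rcases ho : L.out (c₂, X) with j | ⟨c₃, X₃⟩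
      · rw [ho] at h1 hne
        have h2 : D.sh c₂ X = i := hc₂.prop.1
        have h3 : D.sh c₂ X = j := h1
        exact absurd (by rw [← h3, h2]) hne
      · rw [ho] at h1
        obtain ⟨rfl, h3, h4⟩ := h1
        refine ⟨c₃, ⟨rfl, h3, h4⟩, ?_⟩
        exact h3.trans hc₂.prop.1
    · obtain ⟨rfl, h3⟩ := hc₂.prop.1
      rcases out_min (L := L) ⟨rfl, h3⟩ with h4 | ⟨c₃, h4, h5⟩
      · exact absurd h4 hne
      · refine ⟨c₃, ?_, h5⟩
        rw [← h4]
        exact out_ins c₂ X'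
  obtain ⟨c₃, h3, h4⟩ := key
  have h5 : c₃ ∈ T := by
    refine ⟨h4, Or.inr ?_⟩
    rcases hc₂.prop.2 with h6 | h6
    · rw [h6]; exact h3
    · exact h6.trans h3
  have h6 : L.O c₂ X ⊆ L.O c₃ X := h3.2.2.2.trans (I_sub_O _ _)
  have h7 := hc₂.2 h5 h6
  exact not_O_sub_I c₃ X (h7.trans h3.2.2.2)

/-- the planar disc of a node -/
def pd (L : LamData D) : ι ⊕ (κ × Bool) → Set P2
  | Sum.inl _ => closedBall 0 1
  | Sum.inr (c, X) => L.I c X

/-- the region of a node -/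
def pp (L : LamData D) (n : ι ⊕ (κ × Bool)) : Set P2 :=
  {p ∈ L.pd n | ∀ d, L.out d = n → p ∉ L.O d.1 d.2 \ L.rout d.1 d.2}

theorem ins_sub {c : κ} {X : Bool} {n : ι ⊕ (κ × Bool)} (h : L.Ins c X n) : L.O c X ⊆ L.pd n := by
  rcases n with i | ⟨c', X'⟩
  · exact (L.O_sub c X).trans ball_subset_closedBall
  · obtain ⟨rfl, _, _, h5⟩ := h
    exact h5

theorem pd_sub (n : ι ⊕ (κ × Bool)) : L.pd n ⊆ closedBall 0 1 := by
  rcases n with i | ⟨c', X'⟩
  · exact Subset.refl _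
  · exact (I_sub_O c' X').trans ((L.O_sub c' X').trans ball_subset_closedBall)

theorem pp_sub (n : ι ⊕ (κ × Bool)) : L.pp n ⊆ L.pd n := sep_subset _ _

/-- no point of the region of `n` is in the open outer disc of a circle inside `n` -/
theorem pp_notMem {c : κ} {X : Bool} {n : ι ⊕ (κ × Bool)} (h : L.Ins c X n) {p : P2}
    (hp : p ∈ L.pp n) : p ∉ L.O c X \ L.rout c X := by
  obtain ⟨c₂, h1, h2, h3 | h3⟩ := exists_door h
  · rw [h3]; exact hp.2 (c₂, X) h1
  · intro h4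
    exact hp.2 (c₂, X) h1 (I_sub c₂ X (h3.2.2.2 h4.1))

/-- the laminar alternative for a circle and a node on the same sheet -/
theorem cases_node (c : κ) (X : Bool) {n : ι ⊕ (κ × Bool)} (hn : sheet D n = D.sh c X) :
    n = Sum.inr (c, X) ∨ L.Ins c X n ∨
      (∃ c', n = Sum.inr (c', X) ∧ L.O c' X ⊆ L.I c X \ L.rin c X ∧ c ≠ c') ∨
      (∃ c', n = Sum.inr (c', X) ∧ Disjoint (L.O c X) (L.O c' X) ∧ c ≠ c') := by
  rcases n with i | ⟨c', X'⟩
  · exact Or.inr (Or.inl hn.symm)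
  · have hn : D.sh c' X' = D.sh c X := hn
    have hX : X' = X := by rw [← D.sh_side c' X', hn, D.sh_side]
    subst hX
    by_cases hcc : c = c'
    · left; rw [hcc]
    · right
      rcases L.lam c c' X' hcc hn.symm with h | h | h
      · exact Or.inl ⟨rfl, hn, hcc, h.trans sdiff_subset⟩
      · exact Or.inr (Or.inl ⟨c', rfl, h, hcc⟩)
      · exact Or.inr (Or.inr ⟨c', rfl, h, hcc⟩)

/-- a point of an annulus in a region is on one of the two boundary circles -/
theorem A_inter_pp {c : κ} {X : Bool} {n : ι ⊕ (κ × Bool)} (hn : sheet D n = D.sh c X) {p : P2}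
    (hA : p ∈ D.A c X) (hp : p ∈ L.pp n) :
    (n = Sum.inr (c, X) ∧ p ∈ L.rin c X) ∨ (L.out (c, X) = n ∧ p ∈ L.rout c X) := by
  rcases cases_node (L := L) c X hn with h | h | ⟨c', h1, h2, _⟩ | ⟨c', h1, h2, _⟩
  · left
    subst h
    exact ⟨rfl, (L.IA c X).subset ⟨pp_sub _ hp, hA⟩⟩
  · right
    have h3 : p ∈ L.rout c X := by
      by_contra h4
      exact pp_notMem h hp ⟨A_sub_O c X hA, h4⟩
    refine ⟨?_, h3⟩
    obtain ⟨c₂, k1, k2, k3 | k3⟩ := exists_door h
    · rw [k3]; exact k1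
    · exfalso
      exact hp.2 (c₂, X) k1 (I_sub c₂ X (k3.2.2.2 (A_sub_O c X hA)))
  · exfalso
    subst h1
    have h3 := h2 (I_sub_O c' X (pp_sub _ hp))
    exact h3.2 ((L.IA c X).subset ⟨h3.1, hA⟩)
  · exfalso
    subst h1
    exact Set.disjoint_left.1 h2 (A_sub_O c X hA) (I_sub_O c' X (pp_sub _ hp))

/-- the regions of different nodes on the same sheet are disjoint -/
theorem pp_disj {c : κ} {X : Bool} {n : ι ⊕ (κ × Bool)} (hn : sheet D n = D.sh c X)
    (hne : n ≠ Sum.inr (c, X)) : Disjoint (L.pp (Sum.inr (c, X))) (L.pp n) := by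
  rw [Set.disjoint_left]
  intro p hp hp'
  rcases cases_node (L := L) c X hn with h | h | ⟨c', h1, h2, h3⟩ | ⟨c', h1, h2, _⟩
  · exact hne h
  · exact pp_notMem h hp' (I_sub c X (pp_sub _ hp))
  · subst h1
    have hins : L.Ins c' X (Sum.inr (c, X)) := ⟨rfl, hn.symm, h3.symm, h2.trans sdiff_subset⟩
    exact pp_notMem hins hp (I_sub c' X (pp_sub _ hp'))
  · subst h1
    exact Set.disjoint_left.1 h2 (I_sub_O c X (pp_sub _ hp)) (I_sub_O c' X (pp_sub _ hp'))

/-- two doors of the same node have disjoint outer discs -/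
theorem O_disj {c c' : κ} {X X' : Bool} (hne : ((c, X) : κ × Bool) ≠ (c', X'))
    (h : L.out (c, X) = L.out (c', X')) : Disjoint (L.O c X) (L.O c' X') := by
  have hs : D.sh c X = D.sh c' X' := by
    rw [← sheet_out (L := L) c X, ← sheet_out (L := L) c' X', h]
  have hX : X = X' := by rw [← D.sh_side c X, hs, D.sh_side]
  subst hX
  have hcc : c ≠ c' := fun h1 => hne (by rw [h1])
  have key : ∀ c c' : κ, D.sh c X = D.sh c' X → c ≠ c' → L.out (c, X) = L.out (c', X) →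
      L.O c X ⊆ L.I c' X \ L.rin c' X → False := by
    intro c c' hs hcc h hsub
    have hins : L.Ins c X (Sum.inr (c', X)) := ⟨rfl, hs.symm, hcc, hsub.trans sdiff_subset⟩
    rcases out_min hins with h1 | ⟨c'', h1, h2⟩
    · have h3 := out_ins (L := L) c' X
      rw [← h, h1] at h3
      exact h3.2.2.1 rfl
    · have h3 := out_ins (L := L) c' X
      rw [← h, h1] at h3
      exact not_O_sub_I c' X (h3.2.2.2.trans ((I_sub_O _ _).trans h2.2.2.2))
  rcases L.lam c c' X hcc hs with h1 | h1 | h1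
  · exact (key c c' hs hcc h h1).elim
  · exact (key c' c hs.symm hcc.symm h.symm h1).elim
  · exact h1

/-- the outer disc meets the outer region in the outer circle -/
theorem O_inter_pp (c : κ) (X : Bool) : L.O c X ∩ L.pp (L.out (c, X)) = L.rout c X := by
  apply Subset.antisymm
  · rintro p ⟨h1, h2⟩
    by_contra h3
    exact pp_notMem (out_ins c X) h2 ⟨h1, h3⟩
  · intro p hp
    have h1 : p ∈ L.O c X := A_sub_O c X (rout_sub_A c X hp)
    refine ⟨h1, ins_sub (out_ins c X) h1, ?_⟩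
    rintro ⟨c', X'⟩ h2 ⟨h3, h4⟩
    by_cases hcc : ((c, X) : κ × Bool) = (c', X')
    · rw [Prod.mk.injEq] at hcc
      obtain ⟨rfl, rfl⟩ := hcc
      exact h4 hp
    · exact Set.disjoint_left.1 (O_disj hcc h2.symm) h1 h3

/-- the inner circle is in the inner region -/
theorem rin_sub_pp (c : κ) (X : Bool) : L.rin c X ⊆ L.pp (Sum.inr (c, X)) := by
  intro p hp
  refine ⟨rin_sub_I c X hp, ?_⟩
  rintro ⟨c', X'⟩ h2 ⟨h3, h4⟩
  have h5 := out_ins (L := L) c' X'
  rw [h2] at h5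
  obtain ⟨rfl, h6, h7, h8⟩ := h5
  rcases L.lam c' c X h7 h6.symm with h | h | h
  · exact (h h3).2 hp
  · exact not_O_sub_I c X ((h.trans sdiff_subset).trans ((I_sub_O _ _).trans h8))
  · exact Set.disjoint_left.1 h h3 (I_sub_O _ _ (h8 h3))

theorem pd_eq (n : ι ⊕ (κ × Bool)) :
    L.pd n = L.pp n ∪ ⋃ d : {d // L.out d = n}, L.O d.1.1 d.1.2 := by
  apply Subset.antisymm
  · intro p hp
    by_cases h : ∃ d, L.out d = n ∧ p ∈ L.O d.1 d.2 \ L.rout d.1 d.2
    · obtain ⟨d, h1, h2⟩ := h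
      exact Or.inr (mem_iUnion.2 ⟨⟨d, h1⟩, h2.1⟩)
    · push Not at h
      exact Or.inl ⟨hp, h⟩
  · rintro p (hp | hp)
    · exact pp_sub n hp
    · obtain ⟨⟨⟨c, X⟩, h1⟩, h2⟩ := mem_iUnion.1 hp
      rw [← h1]
      exact ins_sub (out_ins c X) h2

end LamData

end P073.H936
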