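import Vale.Agent.P073.H936.Thick

/-!
# P073, block H936: the half block

The band `|s - t - 1| ≤ r` of the square `[-1,1]²` is level-homeomorphic to a rectangle, by an
explicit piecewise linear map.
-/

open Set Metric Topology Filter

namespace P073.H936

/-- increasing piecewise linear bijections of the line with parameter `b` -/
noncomputable def fz (r b x : ℝ) : ℝ := max (x / (1 + r)) (min (x / (1 - r)) (x + b))

/-- their inverses -/
noncomputable def gz (r b y : ℝ) : ℝ := min ((1 + r) * y) (max ((1 - r) * y) (y - b))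

variable {r b : ℝ}

theorem fz_le (h0 : 0 < r) (h1 : r < 1) {x y : ℝ} : fz r b x ≤ y ↔ x ≤ gz r b y := by
  have hp : 0 < 1 + r := by linarith
  have hq : 0 < 1 - r := by linarith
  unfold fz gz
  rw [max_le_iff, min_le_iff, le_min_iff, le_max_iff, div_le_iff₀ hp, div_le_iff₀ hq,
    mul_comm y (1 + r), mul_comm y (1 - r), le_sub_iff_add_le]

theorem le_fz (h0 : 0 < r) (h1 : r < 1) {x y : ℝ} : y ≤ fz r b x ↔ gz r b y ≤ x := by
  have hp : 0 < 1 + r := by linarith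
  have hq : 0 < 1 - r := by linarith
  unfold fz gz
  rw [le_max_iff, le_min_iff, min_le_iff, max_le_iff, le_div_iff₀ hp, le_div_iff₀ hq,
    mul_comm y (1 + r), mul_comm y (1 - r), sub_le_iff_le_add]

theorem gz_fz (h0 : 0 < r) (h1 : r < 1) (x : ℝ) : gz r b (fz r b x) = x :=
  le_antisymm ((le_fz h0 h1).1 le_rfl) ((fz_le h0 h1).1 le_rfl)

theorem fz_gz (h0 : 0 < r) (h1 : r < 1) (y : ℝ) : fz r b (gz r b y) = y :=
  le_antisymm ((fz_le h0 h1).2 le_rfl) ((le_fz h0 h1).2 le_rfl)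

theorem fz_zero : fz r b 0 = 0 := by
  unfold fz
  rw [zero_div, zero_div, zero_add, max_eq_left (min_le_left _ _)]

theorem gz_zero : gz r b 0 = 0 := by
  unfold gz
  rw [mul_zero, mul_zero, min_eq_left (le_max_left _ _)]

theorem fz_nonneg (h0 : 0 < r) (h1 : r < 1) {x : ℝ} (hx : 0 ≤ x) : 0 ≤ fz r b x := by
  rw [le_fz h0 h1, gz_zero]; exact hx

theorem gz_nonneg (h0 : 0 < r) (h1 : r < 1) {y : ℝ} (hy : 0 ≤ y) : 0 ≤ gz r b y := by
  rw [← fz_le h0 h1, fz_zero]; exact hy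

theorem gz_one (hb : |b| ≤ r) : gz r b 1 = 1 - b := by
  obtain ⟨h1, h2⟩ := abs_le.1 hb
  unfold gz
  rw [mul_one, mul_one, max_eq_right (by linarith), min_eq_right (by linarith)]

theorem fz_one (h0 : 0 < r) (h1 : r < 1) (hb : |b| ≤ r) : fz r b (1 - b) = 1 := by
  rw [← gz_one hb, fz_gz h0 h1]

/-- odd extensions -/
noncomputable def Fz (r b x : ℝ) : ℝ := fz r b (max x 0) - fz r b (max (-x) 0)

/-- odd extensions -/
noncomputable def Gz (r b x : ℝ) : ℝ := gz r b (max x 0) - gz r b (max (-x) 0)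

theorem Fz_of_nonneg {x : ℝ} (hx : 0 ≤ x) : Fz r b x = fz r b x := by
  unfold Fz
  rw [max_eq_left hx, max_eq_right (by linarith), fz_zero, sub_zero]

theorem Fz_of_nonpos {x : ℝ} (hx : x ≤ 0) : Fz r b x = -fz r b (-x) := by
  unfold Fz
  rw [max_eq_right hx, max_eq_left (by linarith), fz_zero, zero_sub]

theorem Gz_of_nonneg {x : ℝ} (hx : 0 ≤ x) : Gz r b x = gz r b x := by
  unfold Gz
  rw [max_eq_left hx, max_eq_right (by linarith), gz_zero, sub_zero]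

theorem Gz_of_nonpos {x : ℝ} (hx : x ≤ 0) : Gz r b x = -gz r b (-x) := by
  unfold Gz
  rw [max_eq_right hx, max_eq_left (by linarith), gz_zero, zero_sub]

theorem Gz_Fz (h0 : 0 < r) (h1 : r < 1) (x : ℝ) : Gz r b (Fz r b x) = x := by
  rcases le_total 0 x with hx | hx
  · rw [Fz_of_nonneg hx, Gz_of_nonneg (fz_nonneg h0 h1 hx), gz_fz h0 h1]
  · have := fz_nonneg (b := b) h0 h1 (show 0 ≤ -x by linarith)
    rw [Fz_of_nonpos hx, Gz_of_nonpos (by linarith), neg_neg, gz_fz h0 h1, neg_neg]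

theorem Fz_Gz (h0 : 0 < r) (h1 : r < 1) (x : ℝ) : Fz r b (Gz r b x) = x := by
  rcases le_total 0 x with hx | hx
  · rw [Gz_of_nonneg hx, Fz_of_nonneg (gz_nonneg h0 h1 hx), fz_gz h0 h1]
  · have := gz_nonneg (b := b) h0 h1 (show 0 ≤ -x by linarith)
    rw [Gz_of_nonpos hx, Fz_of_nonpos (by linarith), neg_neg, fz_gz h0 h1, neg_neg]

theorem abs_Gz_le (h0 : 0 < r) (h1 : r < 1) (hb : |b| ≤ r) {x : ℝ} (hx : |x| ≤ 1) :
    |Gz r b x| ≤ 1 - b := by
  obtain ⟨h2, h3⟩ := abs_le.1 hx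
  have key : ∀ y : ℝ, y ≤ 1 → gz r b y ≤ 1 - b := fun y hy => by
    rw [← le_fz h0 h1, fz_one h0 h1 hb]; exact hy
  rcases le_total 0 x with h | h
  · rw [Gz_of_nonneg h, abs_of_nonneg (gz_nonneg h0 h1 h)]
    exact key x h3
  · rw [Gz_of_nonpos h, abs_neg, abs_of_nonneg (gz_nonneg h0 h1 (by linarith))]
    exact key (-x) (by linarith)

theorem abs_Fz_le (h0 : 0 < r) (h1 : r < 1) (hb : |b| ≤ r) {x : ℝ} (hx : |x| ≤ 1 - b) :
    |Fz r b x| ≤ 1 := by
  obtain ⟨h2, h3⟩ := abs_le.1 hx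
  have key : ∀ y : ℝ, y ≤ 1 - b → fz r b y ≤ 1 := fun y hy => by
    rw [fz_le h0 h1, gz_one hb]; exact hy
  rcases le_total 0 x with h | h
  · rw [Fz_of_nonneg h, abs_of_nonneg (fz_nonneg h0 h1 h)]
    exact key x h3
  · rw [Fz_of_nonpos h, abs_neg, abs_of_nonneg (fz_nonneg h0 h1 (by linarith))]
    exact key (-x) (by linarith)

theorem Gz_one (hb : |b| ≤ r) : Gz r b 1 = 1 - b := by
  rw [Gz_of_nonneg zero_le_one, gz_one hb]

theorem Gz_neg_one (hb : |b| ≤ r) : Gz r b (-1) = -(1 - b) := by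
  rw [Gz_of_nonpos (by norm_num), neg_neg, gz_one hb]

section conical

variable {E : Type*} [NormedAddCommGroup E] [NormedSpace ℝ E] {X : Set E} {β ξ : E → ℝ}

theorem continuous_fz : Continuous fun p : ℝ × ℝ => fz r p.1 p.2 := by
  unfold fz
  fun_prop

theorem continuous_gz : Continuous fun p : ℝ × ℝ => gz r p.1 p.2 := by
  unfold gz
  fun_prop

theorem conicalOn_fz (hβ : ConicalOn β X) (hβc : ContinuousOn β X) (hξ : ConicalOn ξ X)
    (hξc : ContinuousOn ξ X) : ConicalOn (fun x => fz r (β x) (ξ x)) X ∧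
      ContinuousOn (fun x => fz r (β x) (ξ x)) X := by
  have a1 : ConicalOn (fun x => ξ x / (1 + r)) X :=
    (hξ.const_smul (1 / (1 + r))).congr fun x _ => by simp only [smul_eq_mul]; ring
  have a2 : ConicalOn (fun x => ξ x / (1 - r)) X :=
    (hξ.const_smul (1 / (1 - r))).congr fun x _ => by simp only [smul_eq_mul]; ring
  have c1 : ContinuousOn (fun x => ξ x / (1 + r)) X := hξc.div_const _
  have c2 : ContinuousOn (fun x => ξ x / (1 - r)) X := hξc.div_const _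
  have c3 : ContinuousOn (fun x => ξ x + β x) X := hξc.add hβc
  exact ⟨a1.rmax (a2.rmin (hξ.add hβ) c2 c3) c1 (c2.inf c3), c1.sup (c2.inf c3)⟩

theorem conicalOn_gz (hβ : ConicalOn β X) (hβc : ContinuousOn β X) (hξ : ConicalOn ξ X)
    (hξc : ContinuousOn ξ X) : ConicalOn (fun x => gz r (β x) (ξ x)) X ∧
      ContinuousOn (fun x => gz r (β x) (ξ x)) X := by
  have a1 : ConicalOn (fun x => (1 + r) * ξ x) X := hξ.const_smul (1 + r)
  have a2 : ConicalOn (fun x => (1 - r) * ξ x) X := hξ.const_smul (1 - r)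
  have c1 : ContinuousOn (fun x => (1 + r) * ξ x) X := hξc.const_smul (1 + r)
  have c2 : ContinuousOn (fun x => (1 - r) * ξ x) X := hξc.const_smul (1 - r)
  have c3 : ContinuousOn (fun x => ξ x - β x) X := hξc.sub hβc
  exact ⟨a1.rmin (a2.rmax (hξ.sub hβ) c2 c3) c1 (c2.sup c3), c1.inf (c2.sup c3)⟩

theorem conicalOn_Gz (hβ : ConicalOn β X) (hβc : ContinuousOn β X) (hξ : ConicalOn ξ X)
    (hξc : ContinuousOn ξ X) : ConicalOn (fun x => Gz r (β x) (ξ x)) X ∧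
      ContinuousOn (fun x => Gz r (β x) (ξ x)) X := by
  have h0 : ConicalOn (fun _ : E => (0:ℝ)) X := conicalOn_const 0 hξ.conicalSet
  have p1 : ConicalOn (fun x => max (ξ x) 0) X := hξ.rmax h0 hξc continuousOn_const
  have p2 : ConicalOn (fun x => max (-ξ x) 0) X := hξ.neg.rmax h0 hξc.neg continuousOn_const
  have q1 : ContinuousOn (fun x => max (ξ x) 0) X := hξc.sup continuousOn_const
  have q2 : ContinuousOn (fun x => max (-ξ x) 0) X := hξc.neg.sup continuousOn_const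
  obtain ⟨s1, s2⟩ := conicalOn_gz (r := r) hβ hβc p1 q1
  obtain ⟨t1, t2⟩ := conicalOn_gz (r := r) hβ hβc p2 q2
  exact ⟨s1.sub t1, s2.sub t2⟩

theorem conicalOn_Fz (hβ : ConicalOn β X) (hβc : ContinuousOn β X) (hξ : ConicalOn ξ X)
    (hξc : ContinuousOn ξ X) : ConicalOn (fun x => Fz r (β x) (ξ x)) X ∧
      ContinuousOn (fun x => Fz r (β x) (ξ x)) X := by
  have h0 : ConicalOn (fun _ : E => (0:ℝ)) X := conicalOn_const 0 hξ.conicalSet
  have p1 : ConicalOn (fun x => max (ξ x) 0) X := hξ.rmax h0 hξc continuousOn_const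
  have p2 : ConicalOn (fun x => max (-ξ x) 0) X := hξ.neg.rmax h0 hξc.neg continuousOn_const
  have q1 : ContinuousOn (fun x => max (ξ x) 0) X := hξc.sup continuousOn_const
  have q2 : ContinuousOn (fun x => max (-ξ x) 0) X := hξc.neg.sup continuousOn_const
  obtain ⟨s1, s2⟩ := conicalOn_fz (r := r) hβ hβc p1 q1
  obtain ⟨t1, t2⟩ := conicalOn_fz (r := r) hβ hβc p2 q2
  exact ⟨s1.sub t1, s2.sub t2⟩

end conical

/-- the half block -/
def trap (r : ℝ) : Set (ℝ × ℝ) := {p | p.1 ≤ 1 ∧ -1 ≤ p.2 ∧ |p.1 - p.2 - 1| ≤ r}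

/-- parametrisation of the half block -/
noncomputable def zig (h0 : 0 < r) (h1 : r < 1) (τ : ℝ) (hτ : τ = 1 ∨ τ = -1) :
    ConHomeo (Icc (0:ℝ) 1 ×ˢ Icc (-1:ℝ) 1) (trap r) where
  toFun := fun q => ((Gz r (τ * r * q.2) (1 - 2 * q.1) + (τ * r * q.2) + 1) / 2,
    (Gz r (τ * r * q.2) (1 - 2 * q.1) - (τ * r * q.2) - 1) / 2)
  invFun := fun p => ((1 - Fz r (p.1 - p.2 - 1) (p.1 + p.2)) / 2, τ * (p.1 - p.2 - 1) / r)
  mapsTo := fun q hq => by
    have hb : |τ * r * q.2| ≤ r := by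
      rw [abs_mul, abs_mul, abs_of_pos h0]
      have h2 : |τ| = 1 := by rcases hτ with rfl | rfl <;> norm_num
      have h3 : |q.2| ≤ 1 := abs_le.2 hq.2
      rw [h2, one_mul]
      nlinarith [abs_nonneg q.2]
    have h4 : |1 - 2 * q.1| ≤ 1 := abs_le.2 ⟨by linarith [hq.1.2], by linarith [hq.1.1]⟩
    obtain ⟨h5, h6⟩ := abs_le.1 (abs_Gz_le h0 h1 hb h4)
    refine ⟨by simp only; linarith, by simp only; linarith, ?_⟩
    simp only
    rw [show (Gz r (τ * r * q.2) (1 - 2 * q.1) + τ * r * q.2 + 1) / 2 -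
      (Gz r (τ * r * q.2) (1 - 2 * q.1) - τ * r * q.2 - 1) / 2 - 1 = τ * r * q.2 by ring]
    exact hb
  mapsTo_inv := fun p hp => by
    obtain ⟨h2, h3, h4⟩ := hp
    have h5 : |p.1 + p.2| ≤ 1 - (p.1 - p.2 - 1) := abs_le.2 ⟨by linarith, by linarith⟩
    obtain ⟨h6, h7⟩ := abs_le.1 (abs_Fz_le h0 h1 h4 h5)
    obtain ⟨h8, h9⟩ := abs_le.1 h4
    refine ⟨⟨by simp only; linarith, by simp only; linarith⟩, ?_⟩
    simp only
    rcases hτ with rfl | rfl
    · rw [one_mul]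
      exact ⟨(le_div_iff₀ h0).2 (by linarith), (div_le_iff₀ h0).2 (by linarith)⟩
    · exact ⟨(le_div_iff₀ h0).2 (by linarith), (div_le_iff₀ h0).2 (by linarith)⟩
  left_inv := fun q _ => by
    have h2 : τ * τ = 1 := by rcases hτ with rfl | rfl <;> norm_num
    refine Prod.ext ?_ ?_
    · simp only
      rw [show (Gz r (τ * r * q.2) (1 - 2 * q.1) + τ * r * q.2 + 1) / 2 -
        (Gz r (τ * r * q.2) (1 - 2 * q.1) - τ * r * q.2 - 1) / 2 - 1 = τ * r * q.2 by ring,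
        show (Gz r (τ * r * q.2) (1 - 2 * q.1) + τ * r * q.2 + 1) / 2 +
        (Gz r (τ * r * q.2) (1 - 2 * q.1) - τ * r * q.2 - 1) / 2 =
        Gz r (τ * r * q.2) (1 - 2 * q.1) by ring, Fz_Gz h0 h1]
      ring
    · simp only
      rw [show (Gz r (τ * r * q.2) (1 - 2 * q.1) + τ * r * q.2 + 1) / 2 -
        (Gz r (τ * r * q.2) (1 - 2 * q.1) - τ * r * q.2 - 1) / 2 - 1 = τ * r * q.2 by ring]
      rw [show τ * (τ * r * q.2) = (τ * τ) * q.2 * r by ring, h2, one_mul,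
        mul_div_assoc, div_self h0.ne', mul_one]
  right_inv := fun p hp => by
    have h2 : τ * τ = 1 := by rcases hτ with rfl | rfl <;> norm_num
    have h3 : τ * r * (τ * (p.1 - p.2 - 1) / r) = p.1 - p.2 - 1 := by
      field_simp
      rw [show τ ^ 2 = τ * τ by ring, h2, one_mul]
    have h4 : 1 - 2 * ((1 - Fz r (p.1 - p.2 - 1) (p.1 + p.2)) / 2) =
        Fz r (p.1 - p.2 - 1) (p.1 + p.2) := by ring
    refine Prod.ext ?_ ?_
    · simp only
      rw [h3, h4, Gz_Fz h0 h1]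
      ring
    · simp only
      rw [h3, h4, Gz_Fz h0 h1]
      ring
  cont := by
    unfold Gz gz
    fun_prop
  cont_inv := by
    unfold Fz fz
    fun_prop
  conical := by
    set X : Set (ℝ × ℝ) := Icc (0:ℝ) 1 ×ˢ Icc (-1:ℝ) 1 with hX
    have hc : ConicalSet X := Convex.conicalSet ((convex_Icc _ _).prod (convex_Icc _ _))
    have hb : ConicalOn (fun q : ℝ × ℝ => τ * r * q.2) X :=
      conicalOn_linear ((τ * r) • LinearMap.snd ℝ ℝ ℝ) hc
    have h1c : ConicalOn (fun _ : ℝ × ℝ => (1:ℝ)) X := conicalOn_const 1 hc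
    have hx : ConicalOn (fun q : ℝ × ℝ => 1 - 2 * q.1) X :=
      h1c.sub (conicalOn_linear ((2:ℝ) • LinearMap.fst ℝ ℝ ℝ) hc)
    obtain ⟨s1, _⟩ := conicalOn_Gz (r := r) hb (by fun_prop) hx (by fun_prop)
    have t1 : ConicalOn (fun q : ℝ × ℝ => (Gz r (τ * r * q.2) (1 - 2 * q.1) + (τ * r * q.2) + 1) / 2)
        X := (((s1.add hb).add h1c).const_smul (1 / 2)).congr fun x _ => by
      simp only [smul_eq_mul]; ring
    have t2 : ConicalOn (fun q : ℝ × ℝ => (Gz r (τ * r * q.2) (1 - 2 * q.1) - (τ * r * q.2) - 1) / 2)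
        X := (((s1.sub hb).sub h1c).const_smul (1 / 2)).congr fun x _ => by
      simp only [smul_eq_mul]; ring
    exact t1.prodMk t2

theorem zig_level (h0 : 0 < r) (h1 : r < 1) (τ : ℝ) (hτ : τ = 1 ∨ τ = -1) (q : ℝ × ℝ) :
    ((zig h0 h1 τ hτ).toFun q).1 - ((zig h0 h1 τ hτ).toFun q).2 - 1 = τ * r * q.2 := by
  show (Gz r (τ * r * q.2) (1 - 2 * q.1) + τ * r * q.2 + 1) / 2 -
      (Gz r (τ * r * q.2) (1 - 2 * q.1) - τ * r * q.2 - 1) / 2 - 1 = τ * r * q.2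
  ring

/-- the side `a = 0` is the side `s = 1` -/
theorem zig_zero (h0 : 0 < r) (h1 : r < 1) (τ : ℝ) (hτ : τ = 1 ∨ τ = -1) {q : ℝ × ℝ}
    (hq : q ∈ Icc (0:ℝ) 1 ×ˢ Icc (-1:ℝ) 1) : ((zig h0 h1 τ hτ).toFun q).1 = 1 ↔ q.1 = 0 := by
  have hb : |τ * r * q.2| ≤ r := by
    rw [abs_mul, abs_mul, abs_of_pos h0]
    have h2 : |τ| = 1 := by rcases hτ with rfl | rfl <;> norm_num
    have h3 : |q.2| ≤ 1 := abs_le.2 hq.2
    rw [h2, one_mul]
    nlinarith [abs_nonneg q.2]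
  have key : ((zig h0 h1 τ hτ).toFun q).1 = 1 ↔ Gz r (τ * r * q.2) (1 - 2 * q.1) =
      Gz r (τ * r * q.2) 1 := by
    rw [Gz_one hb]
    show (Gz r (τ * r * q.2) (1 - 2 * q.1) + τ * r * q.2 + 1) / 2 = 1 ↔ _
    constructor <;> intro h <;> linarith
  rw [key]
  constructor
  · intro h
    have := congrArg (Fz r (τ * r * q.2)) h
    rw [Fz_Gz h0 h1, Fz_Gz h0 h1] at this
    linarith
  · intro h; rw [h]; norm_num

/-- the side `a = 1` is the side `t = -1` -/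
theorem zig_one (h0 : 0 < r) (h1 : r < 1) (τ : ℝ) (hτ : τ = 1 ∨ τ = -1) {q : ℝ × ℝ}
    (hq : q ∈ Icc (0:ℝ) 1 ×ˢ Icc (-1:ℝ) 1) : ((zig h0 h1 τ hτ).toFun q).2 = -1 ↔ q.1 = 1 := by
  have hb : |τ * r * q.2| ≤ r := by
    rw [abs_mul, abs_mul, abs_of_pos h0]
    have h2 : |τ| = 1 := by rcases hτ with rfl | rfl <;> norm_num
    have h3 : |q.2| ≤ 1 := abs_le.2 hq.2
    rw [h2, one_mul]
    nlinarith [abs_nonneg q.2]
  have key : ((zig h0 h1 τ hτ).toFun q).2 = -1 ↔ Gz r (τ * r * q.2) (1 - 2 * q.1) =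
      Gz r (τ * r * q.2) (-1) := by
    rw [Gz_neg_one hb]
    show (Gz r (τ * r * q.2) (1 - 2 * q.1) - τ * r * q.2 - 1) / 2 = -1 ↔ _
    constructor <;> intro h <;> linarith
  rw [key]
  constructor
  · intro h
    have := congrArg (Fz r (τ * r * q.2)) h
    rw [Fz_Gz h0 h1, Fz_Gz h0 h1] at this
    linarith
  · intro h; rw [h]; norm_num

end P073.H936
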