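import Vale.Agent.P073.H936.Lam
import Vale.Agent.P073.H936.Replace
import Vale.Agent.P073.H936.Zig

/-!
# P073, block H936: the pieces of the full switch in space
-/

set_option linter.unusedSectionVars false

open Set Metric Topology Filter

namespace P073.H936

variable {E : Type*} [NormedAddCommGroup E] [NormedSpace ℝ E] {ι κ : Type*}

/-- the part of the sheet `i` over the planar set `Z`, at the levels `≤ r` -/
def lift (D : SwData ι κ E) (r : ℝ) (i : ι) (Z : Set P2) : Set E :=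
  {x ∈ D.N i | ((D.φ i).toFun x).1 ∈ Z ∧ |D.s i x| ≤ r}

section lift

variable {D : SwData ι κ E} {r : ℝ} {i : ι} {Z : Set P2}

theorem lift_mono {Z' : Set P2} (h : Z ⊆ Z') : lift D r i Z ⊆ lift D r i Z' := fun _ hx =>
  ⟨hx.1, h hx.2.1, hx.2.2⟩

theorem prod_sub (_ : 0 < r) (h1 : r < 1) (hZ : Z ⊆ closedBall 0 1) :
    (Z ×ˢ Icc (-r) r : Set (P2 × ℝ)) ⊆ TD 2 :=
  prod_mono hZ (Icc_subset_Icc (by linarith) h1.le)

theorem lift_eq (h0 : 0 < r) (h1 : r < 1) (hZ : Z ⊆ closedBall 0 1) :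
    lift D r i Z = (D.φ i).symm.toFun '' (Z ×ˢ Icc (-r) r) := by
  ext x
  constructor
  · rintro ⟨hx, hZx, hr⟩
    refine ⟨(D.φ i).toFun x, ⟨hZx, ?_⟩, (D.φ i).left_inv hx⟩
    rw [D.hφ i x hx]
    exact abs_le.1 hr
  · rintro ⟨p, hp, rfl⟩
    have hp' := prod_sub h0 h1 hZ hp
    have h2 := (D.φ i).mapsTo_inv hp'
    have h3 : (D.φ i).toFun ((D.φ i).invFun p) = p := (D.φ i).right_inv hp'
    refine ⟨h2, ?_, ?_⟩
    · show ((D.φ i).toFun ((D.φ i).invFun p)).1 ∈ Z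
      rw [h3]; exact hp.1
    · show |D.s i ((D.φ i).invFun p)| ≤ r
      rw [← D.hφ i _ h2, h3]
      exact abs_le.2 hp.2

theorem isClosed_lift (h0 : 0 < r) (h1 : r < 1) (hZ : Z ⊆ closedBall 0 1) (hc : IsClosed Z) :
    IsClosed (lift D r i Z) := by
  rw [lift_eq h0 h1 hZ]
  have hZc : IsCompact Z := (isCompact_closedBall (0 : P2) 1).of_isClosed_subset hc hZ
  exact ((hZc.prod isCompact_Icc).image_of_continuousOn
    ((D.φ i).symm.cont.mono (prod_sub h0 h1 hZ))).isClosed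

theorem conicalSet_lift (h0 : 0 < r) (h1 : r < 1) (hZ : Z ⊆ closedBall 0 1) (hc : ConicalSet Z) :
    ConicalSet (lift D r i Z) := by
  rw [lift_eq h0 h1 hZ]
  exact (D.φ i).symm.conicalSet_image (hc.prod (conicalSet_Icc _ _)) (prod_sub h0 h1 hZ)

theorem thick_lift (h0 : 0 < r) (h1 : r < 1) {B : Set P2} (hZ : Z ⊆ closedBall 0 1)
    (hb : ConBall 2 Z B) : Thick 2 (lift D r i Z) (fun x => D.s i x / r) (lift D r i B) := by
  have hrr : -r < r := by linarith
  have hsub := prod_sub h0 h1 hZ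
  let α : ConHomeo (lift D r i Z) (Z ×ˢ Icc (-r) r) :=
    (((D.φ i).symm.restr (hb.conicalSet.prod (conicalSet_Icc (-r) r)) hsub).cast rfl
      (lift_eq h0 h1 hZ).symm).symm
  let Φ : ConHomeo (lift D r i Z) (Z ×ˢ Icc (-1:ℝ) 1) :=
    α.trans ((ConHomeo.refl hb.conicalSet).prod
      (ConHomeo.affIcc hrr (by norm_num : (-1:ℝ) < 1)))
  have hΦ : ∀ x, Φ.toFun x = (((D.φ i).toFun x).1, D.s i x / r) ∨ x ∉ D.N i := by
    intro x
    by_cases hx : x ∈ D.N i
    · left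
      show (((D.φ i).toFun x).1, -1 + (((D.φ i).toFun x).2 - -r) / (r - -r) * (1 - -1)) = _
      rw [D.hφ i x hx]
      congr 1
      field_simp
      ring
    · exact Or.inr hx
  have hΦ' : ∀ x ∈ D.N i, Φ.toFun x = (((D.φ i).toFun x).1, D.s i x / r) := fun x hx =>
    (hΦ x).resolve_right (fun h => h hx)
  refine (thick_prod hb).of_homeo Φ (fun x hx => ?_) (lift_mono hb.1) ?_
  · rw [hΦ' x hx.1]
  · ext ⟨z, t⟩
    constructor
    · rintro ⟨x, hx, h⟩
      rw [hΦ' x hx.1, Prod.mk.injEq] at h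
      refine ⟨h.1 ▸ hx.2.1, ?_⟩
      rw [← h.2, mem_Icc, ← abs_le, abs_div, abs_of_pos h0, div_le_one h0]
      exact hx.2.2
    · rintro ⟨hz, ht⟩
      have hm : ((z, r * t) : P2 × ℝ) ∈ TD 2 := by
        refine ⟨hZ (hb.1 hz), ?_⟩
        have := ht
        simp only [mem_Icc] at this ⊢
        constructor <;> nlinarith [this.1, this.2]
      have h2 := (D.φ i).mapsTo_inv hm
      have h3 : (D.φ i).toFun ((D.φ i).invFun (z, r * t)) = (z, r * t) := (D.φ i).right_inv hm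
      have h4 : D.s i ((D.φ i).invFun (z, r * t)) = r * t := by rw [← D.hφ i _ h2, h3]
      refine ⟨(D.φ i).invFun (z, r * t), ⟨h2, ?_, ?_⟩, ?_⟩
      · rw [h3]; exact hz
      · rw [h4, abs_mul, abs_of_pos h0]
        have := abs_le.2 ht
        nlinarith [abs_nonneg t]
      · rw [hΦ' _ h2, h3, h4]
        congr 1
        field_simp

end lift

namespace LamData

variable {D : SwData ι κ E} {L : LamData D}

theorem isOpen_O (c : κ) (X : Bool) : IsOpen (L.O c X \ L.rout c X) := by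
  have h := PA644.interior_conBall (L.ballO c X)
  have h2 : interior (L.O c X) = L.O c X \ L.rout c X := h
  rw [← h2]; exact isOpen_interior

theorem frontier_O (c : κ) (X : Bool) : frontier (L.O c X) = L.rout c X :=
  PA644.frontier_conBall (L.ballO c X)

theorem isClosed_O (c : κ) (X : Bool) : IsClosed (L.O c X) := (L.ballO c X).isClosed

theorem isClosed_pd (n : ι ⊕ (κ × Bool)) : IsClosed (L.pd n) := by
  rcases n with i | ⟨c, X⟩
  · exact isClosed_closedBall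
  · exact (L.ballI c X).isClosed

theorem locCone_pd (n : ι ⊕ (κ × Bool)) : LocCone (L.pd n) := by
  rcases n with i | ⟨c, X⟩
  · exact locCone_closedBall_pi 2 1
  · exact (L.ballI c X).locCone

variable [Finite κ]

theorem pp_eq (n : ι ⊕ (κ × Bool)) : L.pp n = L.pd n ∩
    ⋂ d : {d // L.out d = n}, (L.O d.1.1 d.1.2 \ L.rout d.1.1 d.1.2)ᶜ := by
  ext p
  simp only [pp, mem_ofPred_eq, mem_inter_iff, mem_iInter, Subtype.forall, mem_compl_iff]

theorem isClosed_pp (n : ι ⊕ (κ × Bool)) : IsClosed (L.pp n) := by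
  rw [pp_eq]
  exact (isClosed_pd n).inter (isClosed_iInter fun d => (isOpen_O _ _).isClosed_compl)

theorem conicalSet_pp (n : ι ⊕ (κ × Bool)) : ConicalSet (L.pp n) := by
  rw [pp_eq]
  refine ((locCone_pd n).inter (LocCone.iInter_finite fun d => LocCone.compl ?_)).conicalSet
  have h1 : LocCone (L.O d.1.1 d.1.2) := (L.ballO d.1.1 d.1.2).locCone
  have h2 : LocCone (L.rout d.1.1 d.1.2) := (L.ballO d.1.1 d.1.2).locCone_bdry
  exact h1.inter h2.compl

/-- the arc blocks are outside of the circles -/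
theorem R_out {c : κ} {X : Bool} {x : E} (hR : x ∈ D.R) (hx : x ∈ D.N (D.sh c X)) :
    ((D.φ (D.sh c X)).toFun x).1 ∉ L.O c X := by
  obtain ⟨C, hC, hxC, hCN, hCK, y, hy, hy1⟩ := D.R_arc _ x ⟨hR, hx⟩
  have hcont : ContinuousOn (fun x => ((D.φ (D.sh c X)).toFun x).1) C :=
    continuous_fst.comp_continuousOn ((D.φ (D.sh c X)).cont.mono hCN)
  have hpre := hC.image _ hcont
  have hdis : Disjoint ((fun x => ((D.φ (D.sh c X)).toFun x).1) '' C) (frontier (L.O c X)) := by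
    rw [frontier_O, Set.disjoint_left]
    rintro _ ⟨z, hz, rfl⟩ hz'
    have h1 : z ∈ D.K c := (SwData.mem_K_iff (hCN hz)).2 (rout_sub_A c X hz')
    exact Set.disjoint_left.1 (hCK c) hz h1
  rcases subset_interior_or_compl hpre hdis with h | h
  · exfalso
    have h1 := L.O_sub c X (interior_subset (h (mem_image_of_mem _ hy)))
    rw [mem_ball_zero_iff] at h1
    exact absurd hy1 h1.ne
  · rw [(isClosed_O c X).closure_eq] at h
    exact h (mem_image_of_mem _ hxC)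

/-- signs -/
def eps (L : LamData D) (c : κ) (X : Bool) : ℝ := lv (L.e c X)

theorem eps_cases (c : κ) (X : Bool) : L.eps c X = 1 ∨ L.eps c X = -1 := by
  unfold eps lv
  cases L.e c X <;> simp

theorem lv_not (σ : Bool) : lv (!σ) = -lv σ := by cases σ <;> simp [lv]

/-- the level function of a half block -/
def beta (L : LamData D) (c : κ) (X : Bool) (x : E) : ℝ :=
  D.s (D.sh c X) x - L.eps c X * L.eps c (!X) * D.s (D.sh c (!X)) x + L.eps c (!X)

/-- the half block -/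
def Jc (L : LamData D) (r : ℝ) (c : κ) (X : Bool) : Set E := {x ∈ D.K c | |L.beta c X x| ≤ r}

theorem abs_s_le {c : κ} {x : E} (X : Bool) (hx : x ∈ D.K c) : |D.s (D.sh c X) x| ≤ 1 := by
  obtain ⟨q, hq, rfl⟩ : x ∈ (D.ψ c).toFun '' Blk := by rw [(D.ψ c).image_eq]; exact hx
  rw [D.hψ c X q hq]
  exact abs_le.2 (co_mem hq.2)

theorem mem_lift_rin {r : ℝ} {c : κ} {X : Bool} {x : E} :
    x ∈ lift D r (D.sh c X) (L.rin c X) ↔
      x ∈ D.K c ∧ D.s (D.sh c (!X)) x = -L.eps c X ∧ |D.s (D.sh c X) x| ≤ r := by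
  unfold rin eps
  rw [← lv_not]
  constructor
  · rintro ⟨h1, h2, h3⟩
    rw [SwData.mem_ring_iff h1] at h2
    exact ⟨h2.1, h2.2, h3⟩
  · rintro ⟨h1, h2, h3⟩
    have h4 := SwData.K_sub c X h1
    exact ⟨h4, (SwData.mem_ring_iff h4).2 ⟨h1, h2⟩, h3⟩

theorem mem_lift_rout {r : ℝ} {c : κ} {X : Bool} {x : E} :
    x ∈ lift D r (D.sh c X) (L.rout c X) ↔
      x ∈ D.K c ∧ D.s (D.sh c (!X)) x = L.eps c X ∧ |D.s (D.sh c X) x| ≤ r := by
  unfold rout eps
  constructor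
  · rintro ⟨h1, h2, h3⟩
    rw [SwData.mem_ring_iff h1] at h2
    exact ⟨h2.1, h2.2, h3⟩
  · rintro ⟨h1, h2, h3⟩
    have h4 := SwData.K_sub c X h1
    exact ⟨h4, (SwData.mem_ring_iff h4).2 ⟨h1, h2⟩, h3⟩

/-- the half block in the square -/
def tq (X : Bool) (ε ε' r : ℝ) : Set (ℝ × ℝ) :=
  {q ∈ Sq | |co X q - ε * ε' * co (!X) q + ε'| ≤ r}

/-- signs and order of the coordinates -/
def sgn (X : Bool) {ε ε' r : ℝ} (hε : ε = 1 ∨ ε = -1) (hε' : ε' = 1 ∨ ε' = -1) (_ : 0 < r)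
    (h1 : r < 1) : ConHomeo (trap r) (tq X ε ε' r) where
  toFun := fun p => pr X (-ε' * p.1) (-ε * p.2)
  invFun := fun q => (-ε' * co X q, -ε * co (!X) q)
  mapsTo := fun p hp => by
    obtain ⟨h2, h3, h4⟩ := hp
    obtain ⟨h5, h6⟩ := abs_le.1 h4
    refine ⟨pr_mem ?_ ?_, ?_⟩
    · rcases hε' with rfl | rfl <;> constructor <;> linarith
    · rcases hε with rfl | rfl <;> constructor <;> linarith
    · rw [co_pr, co_not_pr]
      have e1 : -ε' * p.1 - ε * ε' * (-ε * p.2) + ε' = -ε' * (p.1 - p.2 - 1) := by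
        have h7 : ε * ε = 1 := by rcases hε with rfl | rfl <;> norm_num
        linear_combination (ε' * p.2) * h7
      rw [e1, abs_mul]
      have h8 : |-ε'| = 1 := by rcases hε' with rfl | rfl <;> norm_num
      rw [h8, one_mul]; exact h4
  mapsTo_inv := fun q hq => by
    obtain ⟨h2, h3⟩ := hq
    have h4 := co_mem (X := X) h2
    have h5 := co_mem (X := !X) h2
    refine ⟨?_, ?_, ?_⟩
    · simp only
      rcases hε' with rfl | rfl <;> linarith [h4.1, h4.2]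
    · simp only
      rcases hε with rfl | rfl <;> linarith [h5.1, h5.2]
    · simp only
      have e1 : co X q - ε * ε' * co (!X) q + ε' = -ε' * (-ε' * co X q - -ε * co (!X) q - 1) := by
        have h7 : ε' * ε' = 1 := by rcases hε' with rfl | rfl <;> norm_num
        linear_combination (-co X q) * h7
      rw [e1, abs_mul] at h3
      have h8 : |-ε'| = 1 := by rcases hε' with rfl | rfl <;> norm_num
      rwa [h8, one_mul] at h3
  left_inv := fun p _ => by
    have h7 : ε * ε = 1 := by rcases hε with rfl | rfl <;> norm_num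
    have h7' : ε' * ε' = 1 := by rcases hε' with rfl | rfl <;> norm_num
    refine Prod.ext ?_ ?_
    · simp only [co_pr]; linear_combination p.1 * h7'
    · simp only [co_not_pr]; linear_combination p.2 * h7
  right_inv := fun q _ => by
    have h7 : ε * ε = 1 := by rcases hε with rfl | rfl <;> norm_num
    have h7' : ε' * ε' = 1 := by rcases hε' with rfl | rfl <;> norm_num
    simp only
    rw [show -ε' * (-ε' * co X q) = co X q by linear_combination co X q * h7',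
      show -ε * (-ε * co (!X) q) = co (!X) q by linear_combination co (!X) q * h7, pr_co]
  cont := by
    refine Continuous.continuousOn ?_
    cases X <;> simp only [pr, if_true, Bool.false_eq_true, if_false] <;> fun_prop
  cont_inv := by
    refine Continuous.continuousOn ?_
    cases X <;> simp only [co, Bool.not_true, Bool.not_false, if_true, Bool.false_eq_true,
      if_false] <;> fun_prop
  conical := by
    have hc : ConicalSet (trap r) := by
      refine Convex.conicalSet ?_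
      have e : trap r = {p : ℝ × ℝ | p.1 ≤ 1} ∩ ({p | -p.2 ≤ 1} ∩ ({p | p.1 - p.2 ≤ 1 + r} ∩
          {p | -(p.1 - p.2) ≤ r - 1})) := by
        ext p
        simp only [trap, mem_ofPred_eq, mem_inter_iff, abs_le]
        constructor
        · rintro ⟨a, b, c, d⟩; refine ⟨a, ?_, ?_, ?_⟩ <;> linarith
        · rintro ⟨a, b, c, d⟩; refine ⟨a, ?_, ?_, ?_⟩ <;> linarith
      rw [e]
      have l1 := (LinearMap.fst ℝ ℝ ℝ).isLinear
      have l2 := (-(LinearMap.snd ℝ ℝ ℝ)).isLinear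
      have l3 := (LinearMap.fst ℝ ℝ ℝ - LinearMap.snd ℝ ℝ ℝ).isLinear
      have l4 := (-(LinearMap.fst ℝ ℝ ℝ - LinearMap.snd ℝ ℝ ℝ)).isLinear
      exact (convex_halfSpace_le l1 1).inter ((convex_halfSpace_le l2 1).inter
        ((convex_halfSpace_le l3 _).inter (convex_halfSpace_le l4 _)))
    have k1 : ConicalOn (fun p : ℝ × ℝ => -ε' * p.1) (trap r) :=
      (conicalOn_fst hc).const_smul (-ε')
    have k2 : ConicalOn (fun p : ℝ × ℝ => -ε * p.2) (trap r) :=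
      (conicalOn_snd hc).const_smul (-ε)
    cases X
    · exact k1.prodMk k2
    · exact k2.prodMk k1

/-- **the half block is a thick collar** -/
theorem J_collar {r : ℝ} (h0 : 0 < r) (h1 : r < 1) (L : LamData D) (c : κ) (X : Bool) :
    ∃ ψ : ConHomeo (sphere (0 : Fin 2 → ℝ) 1 ×ˢ (Icc (0:ℝ) 1 ×ˢ Icc (-1:ℝ) 1)) (L.Jc r c X),
      (∀ q ∈ sphere (0 : Fin 2 → ℝ) 1 ×ˢ (Icc (0:ℝ) 1 ×ˢ Icc (-1:ℝ) 1),
        L.beta c X (ψ.toFun q) / r = q.2.2) ∧
      ψ.toFun '' (sphere (0 : Fin 2 → ℝ) 1 ×ˢ ({0} ×ˢ Icc (-1:ℝ) 1)) =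
        lift D r (D.sh c (!X)) (L.rin c (!X)) ∧
      ψ.toFun '' (sphere (0 : Fin 2 → ℝ) 1 ×ˢ ({1} ×ˢ Icc (-1:ℝ) 1)) =
        lift D r (D.sh c X) (L.rout c X) := by
  set ε := L.eps c X with hεd
  set ε' := L.eps c (!X) with hεd'
  have hε : ε = 1 ∨ ε = -1 := eps_cases c X
  have hε' : ε' = 1 ∨ ε' = -1 := eps_cases c (!X)
  have hτ : -ε' = 1 ∨ -ε' = -1 := by rcases hε' with h | h <;> rw [h] <;> norm_num
  have hεε : ε * ε = 1 := by rcases hε with h | h <;> rw [h] <;> norm_num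
  have hεε' : ε' * ε' = 1 := by rcases hε' with h | h <;> rw [h] <;> norm_num
  have hsc : ConicalSet (sphere (0 : P2) 1) := conicalSet_sphere_pi 2
  let z := zig h0 h1 (-ε') hτ
  let w : ConHomeo (Icc (0:ℝ) 1 ×ˢ Icc (-1:ℝ) 1) (tq X ε ε' r) := z.trans (sgn X hε hε' h0 h1)
  have hsub : (sphere (0 : P2) 1 ×ˢ tq X ε ε' r : Set (P2 × ℝ × ℝ)) ⊆ Blk :=
    prod_mono (Subset.refl _) (sep_subset _ _)
  have hbeta : ∀ q ∈ Blk, L.beta c X ((D.ψ c).toFun q) =
      co X q.2 - ε * ε' * co (!X) q.2 + ε' := by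
    intro q hq
    unfold beta
    rw [D.hψ c X q hq, D.hψ c (!X) q hq]
  have himg : (D.ψ c).toFun '' (sphere (0 : P2) 1 ×ˢ tq X ε ε' r) = L.Jc r c X := by
    ext x
    constructor
    · rintro ⟨q, hq, rfl⟩
      refine ⟨(D.ψ c).mapsTo (hsub hq), ?_⟩
      rw [hbeta q (hsub hq)]
      exact hq.2.2
    · rintro ⟨hx, hx2⟩
      obtain ⟨q, hq, rfl⟩ : x ∈ (D.ψ c).toFun '' Blk := by rw [(D.ψ c).image_eq]; exact hx
      rw [hbeta q hq] at hx2
      exact ⟨q, ⟨hq.1, hq.2, hx2⟩, rfl⟩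
  let ψ' : ConHomeo (sphere (0 : P2) 1 ×ˢ (Icc (0:ℝ) 1 ×ˢ Icc (-1:ℝ) 1)) (L.Jc r c X) :=
    ((ConHomeo.refl hsc).prod w).trans
      (((D.ψ c).restr (hsc.prod w.conicalSet_right) hsub).cast rfl himg)
  have hψ' : ∀ q, ψ'.toFun q = (D.ψ c).toFun (q.1, w.toFun q.2) := fun q => rfl
  have hwX : ∀ q, co X (w.toFun q) = -ε' * (z.toFun q).1 := fun q => co_pr X _ _
  have hwY : ∀ q, co (!X) (w.toFun q) = -ε * (z.toFun q).2 := fun q => co_not_pr X _ _
  have hmem : ∀ q ∈ sphere (0 : P2) 1 ×ˢ (Icc (0:ℝ) 1 ×ˢ Icc (-1:ℝ) 1),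
      ((q.1, w.toFun q.2) : P2 × ℝ × ℝ) ∈ Blk := fun q hq => hsub ⟨hq.1, w.mapsTo hq.2⟩
  have hlevel : ∀ q ∈ sphere (0 : P2) 1 ×ˢ (Icc (0:ℝ) 1 ×ˢ Icc (-1:ℝ) 1),
      L.beta c X (ψ'.toFun q) = r * q.2.2 := by
    intro q hq
    rw [hψ', hbeta _ (hmem q hq), hwX, hwY]
    have h2 := zig_level h0 h1 (-ε') hτ q.2
    have h3 : (z.toFun q.2).1 - (z.toFun q.2).2 - 1 = -ε' * r * q.2.2 := h2
    linear_combination (-ε') * h3 + ((z.toFun q.2).2 * ε') * hεε + (r * q.2.2) * hεε'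
  have hsX : ∀ q ∈ sphere (0 : P2) 1 ×ˢ (Icc (0:ℝ) 1 ×ˢ Icc (-1:ℝ) 1),
      D.s (D.sh c X) (ψ'.toFun q) = -ε' * (z.toFun q.2).1 := by
    intro q hq
    rw [hψ', D.hψ c X _ (hmem q hq), hwX]
  have hsY : ∀ q ∈ sphere (0 : P2) 1 ×ˢ (Icc (0:ℝ) 1 ×ˢ Icc (-1:ℝ) 1),
      D.s (D.sh c (!X)) (ψ'.toFun q) = -ε * (z.toFun q.2).2 := by
    intro q hq
    rw [hψ', D.hψ c (!X) _ (hmem q hq), hwY]
  refine ⟨ψ', fun q hq => ?_, ?_, ?_⟩
  · rw [hlevel q hq, mul_comm, mul_div_assoc, div_self h0.ne', mul_one]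
  · -- the side `a = 0`
    ext x
    rw [mem_lift_rin, Bool.not_not, ← hεd']
    constructor
    · rintro ⟨q, hq, rfl⟩
      have hq' : q ∈ sphere (0 : P2) 1 ×ˢ (Icc (0:ℝ) 1 ×ˢ Icc (-1:ℝ) 1) :=
        ⟨hq.1, by rw [show q.2.1 = 0 from hq.2.1]; exact ⟨le_rfl, zero_le_one⟩, hq.2.2⟩
      have hz1 : (z.toFun q.2).1 = 1 := (zig_zero h0 h1 _ hτ hq'.2).2 hq.2.1
      have h5 := ψ'.mapsTo hq'
      refine ⟨h5.1, ?_, ?_⟩
      · rw [hsX q hq', hz1]; ring
      · have h6 := h5.2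
        unfold beta at h6
        rw [hsX q hq', hz1, ← hεd, ← hεd'] at h6
        have e1 : -ε' * 1 - ε * ε' * D.s (D.sh c (!X)) (ψ'.toFun q) + ε' =
          -(ε * ε') * D.s (D.sh c (!X)) (ψ'.toFun q) := by ring
        rw [e1, abs_mul, abs_neg, abs_mul] at h6
        have a1 : |ε| = 1 := by rcases hε with h | h <;> rw [h] <;> norm_num
        have a2 : |ε'| = 1 := by rcases hε' with h | h <;> rw [h] <;> norm_num
        rwa [a1, a2, one_mul, one_mul] at h6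
    · rintro ⟨hK, h3, h4⟩
      have hJ : x ∈ L.Jc r c X := by
        refine ⟨hK, ?_⟩
        unfold beta
        rw [h3, ← hεd, ← hεd']
        have e1 : -ε' - ε * ε' * D.s (D.sh c (!X)) x + ε' = -(ε * ε') * D.s (D.sh c (!X)) x := by
          ring
        rw [e1, abs_mul, abs_neg, abs_mul]
        have a1 : |ε| = 1 := by rcases hε with h | h <;> rw [h] <;> norm_num
        have a2 : |ε'| = 1 := by rcases hε' with h | h <;> rw [h] <;> norm_num
        rwa [a1, a2, one_mul, one_mul]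
      rw [← ψ'.image_eq] at hJ
      obtain ⟨q, hq, rfl⟩ := hJ
      rw [hsX q hq] at h3
      have hz1 : (z.toFun q.2).1 = 1 := by
        linear_combination (-ε') * h3 - ((z.toFun q.2).1 - 1) * hεε'
      exact ⟨q, ⟨hq.1, (zig_zero h0 h1 _ hτ hq.2).1 hz1, hq.2.2⟩, rfl⟩
  · -- the side `a = 1`
    ext x
    rw [mem_lift_rout, ← hεd]
    constructor
    · rintro ⟨q, hq, rfl⟩
      have hq' : q ∈ sphere (0 : P2) 1 ×ˢ (Icc (0:ℝ) 1 ×ˢ Icc (-1:ℝ) 1) :=
        ⟨hq.1, by rw [show q.2.1 = 1 from hq.2.1]; exact ⟨zero_le_one, le_rfl⟩, hq.2.2⟩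
      have hz1 : (z.toFun q.2).2 = -1 := (zig_one h0 h1 _ hτ hq'.2).2 hq.2.1
      have h5 := ψ'.mapsTo hq'
      refine ⟨h5.1, ?_, ?_⟩
      · rw [hsY q hq', hz1]; ring
      · have h6 := h5.2
        unfold beta at h6
        rw [hsY q hq', hz1, ← hεd, ← hεd'] at h6
        have e1 : D.s (D.sh c X) (ψ'.toFun q) - ε * ε' * (-ε * -1) + ε' =
          D.s (D.sh c X) (ψ'.toFun q) := by linear_combination (-ε') * hεε
        rwa [e1] at h6
    · rintro ⟨hK, h3, h4⟩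
      have hJ : x ∈ L.Jc r c X := by
        refine ⟨hK, ?_⟩
        unfold beta
        rw [h3, ← hεd, ← hεd']
        have e1 : D.s (D.sh c X) x - ε * ε' * ε + ε' = D.s (D.sh c X) x := by
          linear_combination (-ε') * hεε
        rwa [e1]
      rw [← ψ'.image_eq] at hJ
      obtain ⟨q, hq, rfl⟩ := hJ
      rw [hsY q hq] at h3
      have hz1 : (z.toFun q.2).2 = -1 := by
        linear_combination (-ε) * h3 - ((z.toFun q.2).2 + 1) * hεε
      exact ⟨q, ⟨hq.1, (zig_one h0 h1 _ hτ hq.2).1 hz1, hq.2.2⟩, rfl⟩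

end LamData

end P073.H936
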