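import Vale.Agent.P073.TR.FlowBox
import Vale.Agent.P073.PA260.Collar
import Vale.Agent.P073.H936.Thick

/-!
# P073, H936: small moves in flow boxes
-/

open Set Metric Topology Filter

namespace P073.H936

open P073 P073.TR

variable {E : Type*} [NormedAddCommGroup E] [NormedSpace ℝ E]

/-! ### clamping -/

/-- `a` clamped to `[-m, m]` -/
noncomputable def cp (m a : ℝ) : ℝ := max (-m) (min a m)

theorem cp_zero {m : ℝ} (hm : 0 ≤ m) : cp m 0 = 0 := by
  unfold cp
  rw [min_eq_left hm, max_eq_right (by linarith)]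

theorem cp_of_abs_le {m a : ℝ} (h : |a| ≤ m) : cp m a = a := by
  unfold cp
  have := abs_le.1 h
  rw [min_eq_left this.2, max_eq_right this.1]

theorem abs_cp_le {m : ℝ} (hm : 0 ≤ m) (a : ℝ) : |cp m a| ≤ m := by
  unfold cp
  rw [abs_le]
  constructor
  · exact le_max_left _ _
  · exact max_le (by linarith) (min_le_right _ _)

theorem abs_cp_le' {m : ℝ} (hm : 0 ≤ m) (a : ℝ) : |cp m a| ≤ |a| := by
  unfold cp
  rcases le_total 0 a with h | h
  · rw [abs_of_nonneg h, max_eq_right (le_trans (by linarith) (le_min h hm)),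
      abs_of_nonneg (le_min h hm)]
    exact min_le_left _ _
  · rw [abs_of_nonpos h, min_eq_left (h.trans hm), abs_of_nonpos (max_le (by linarith) h)]
    rw [neg_le_neg_iff]
    exact le_max_right _ _

theorem cp_mono (m : ℝ) {a b : ℝ} (h : a ≤ b) : cp m a ≤ cp m b := by
  unfold cp
  exact max_le_max le_rfl (min_le_min h le_rfl)

theorem abs_cp_sub_le (m m' a a' : ℝ) : |cp m a - cp m' a'| ≤ |m - m'| + |a - a'| := by
  unfold cp
  have h1 : |max (-m) (min a m) - max (-m') (min a' m')| ≤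
      max |(-m) - (-m')| |min a m - min a' m'| := abs_max_sub_max_le_max _ _ _ _
  have h2 : |min a m - min a' m'| ≤ max |a - a'| |m - m'| := abs_min_sub_min_le_max _ _ _ _
  have h3 : |(-m) - (-m')| = |m - m'| := by rw [← abs_neg]; congr 1; ring
  rw [h3] at h1
  refine h1.trans (max_le ?_ (h2.trans (max_le ?_ ?_)))
  · linarith [abs_nonneg (a - a')]
  · linarith [abs_nonneg (m - m')]
  · linarith [abs_nonneg (a - a')]

theorem abs_cp_sub_le_right (m a a' : ℝ) : |cp m a - cp m a'| ≤ |a - a'| := by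
  have := abs_cp_sub_le m m a a'
  simpa using this

/-! ### movers -/

/-- A mover: a vector `q.1` and a cut-off function `q.2`. -/
structure Mover {ι : Type*} (u : E → ℝ) (M : ι → Set E) (ρ K L : ℝ) (q : E × (E → ℝ)) : Prop where
  cont : Continuous q.2
  con : ConicalOn q.2 univ
  lip : ∀ y y', |q.2 y - q.2 y'| ≤ L * ‖y - y'‖
  nonneg : ∀ y, 0 ≤ q.2 y
  le_one : ∀ y, q.2 y ≤ 1
  vec : ‖q.1‖ ≤ K
  box : ∀ y, q.2 y ≠ 0 → ∀ s : ℝ, |s| ≤ ρ → u (y + s • q.1) = u y + s
  inv : ∀ i y, q.2 y ≠ 0 → ∀ s : ℝ, |s| ≤ ρ → (y + s • q.1 ∈ M i ↔ y ∈ M i)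

/-- one move -/
noncomputable def mv (η : ℝ) (q : E × (E → ℝ)) (a : ℝ) (y : E) : E := y + cp (η * q.2 y) a • q.1

/-- the moves of a list -/
noncomputable def mvs (η : ℝ) : List (E × (E → ℝ)) → ℝ → E → E
  | [], _, y => y
  | q :: l, a, y => mvs η l a (mv η q a y)

/-- the total change of the level -/
noncomputable def tot (η : ℝ) : List (E × (E → ℝ)) → ℝ → E → ℝ
  | [], _, _ => 0
  | q :: l, a, y => cp (η * q.2 y) a + tot η l a (mv η q a y)

section
variable {ι : Type*} {u : E → ℝ} {M : ι → Set E} {ρ K L : ℝ}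

theorem mv_zero {q : E × (E → ℝ)} (hq : Mover u M ρ K L q) {η : ℝ} (hη : 0 ≤ η) (y : E) :
    mv η q 0 y = y := by
  unfold mv
  rw [cp_zero (mul_nonneg hη (hq.nonneg y)), zero_smul, add_zero]

theorem mvs_zero {l : List (E × (E → ℝ))} (hl : ∀ q ∈ l, Mover u M ρ K L q) {η : ℝ} (hη : 0 ≤ η)
    (y : E) : mvs η l 0 y = y := by
  induction l with
  | nil => rfl
  | cons q l ih =>
    show mvs η l 0 (mv η q 0 y) = y
    rw [mv_zero (hl q (List.mem_cons_self)) hη]
    exact ih fun q' hq' => hl q' (List.mem_cons_of_mem _ hq')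

theorem tot_zero {l : List (E × (E → ℝ))} (hl : ∀ q ∈ l, Mover u M ρ K L q) {η : ℝ} (hη : 0 ≤ η)
    (y : E) : tot η l 0 y = 0 := by
  induction l with
  | nil => rfl
  | cons q l ih =>
    show cp (η * q.2 y) 0 + tot η l 0 (mv η q 0 y) = 0
    rw [mv_zero (hl q (List.mem_cons_self)) hη,
      cp_zero (mul_nonneg hη ((hl q (List.mem_cons_self)).nonneg y)), zero_add]
    exact ih fun q' hq' => hl q' (List.mem_cons_of_mem _ hq')

theorem mv_eq_self {q : E × (E → ℝ)} {η a : ℝ} {y : E} (h : q.2 y = 0) : mv η q a y = y := by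
  unfold mv
  have : cp (η * q.2 y) a = 0 := by
    have := abs_cp_le (m := η * q.2 y) (by rw [h, mul_zero]) a
    rw [h, mul_zero] at this
    rw [h, mul_zero]
    exact abs_eq_zero.1 (le_antisymm this (abs_nonneg _))
  rw [this, zero_smul, add_zero]

theorem cp_eq_zero {q : E × (E → ℝ)} {η a : ℝ} {y : E} (h : q.2 y = 0) : cp (η * q.2 y) a = 0 := by
  have := abs_cp_le (m := η * q.2 y) (by rw [h, mul_zero]) a
  rw [h, mul_zero] at this
  rw [h, mul_zero]
  exact abs_eq_zero.1 (le_antisymm this (abs_nonneg _))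

theorem abs_cp_mover {q : E × (E → ℝ)} (hq : Mover u M ρ K L q) {η : ℝ} (hη : 0 ≤ η) (a : ℝ)
    (y : E) : |cp (η * q.2 y) a| ≤ η := by
  refine (abs_cp_le (mul_nonneg hη (hq.nonneg y)) a).trans ?_
  calc η * q.2 y ≤ η * 1 := mul_le_mul_of_nonneg_left (hq.le_one y) hη
    _ = η := mul_one _

theorem u_mv {q : E × (E → ℝ)} (hq : Mover u M ρ K L q) {η : ℝ} (hη : 0 ≤ η) (hηρ : η ≤ ρ) (a : ℝ)
    (y : E) : u (mv η q a y) = u y + cp (η * q.2 y) a := by
  by_cases h : q.2 y = 0
  · rw [mv_eq_self h, cp_eq_zero h, add_zero]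
  · exact hq.box y h _ ((abs_cp_mover hq hη a y).trans hηρ)

theorem mem_mv {q : E × (E → ℝ)} (hq : Mover u M ρ K L q) {η : ℝ} (hη : 0 ≤ η) (hηρ : η ≤ ρ)
    (a : ℝ) (y : E) (i : ι) : mv η q a y ∈ M i ↔ y ∈ M i := by
  by_cases h : q.2 y = 0
  · rw [mv_eq_self h]
  · exact hq.inv i y h _ ((abs_cp_mover hq hη a y).trans hηρ)

theorem u_mvs {l : List (E × (E → ℝ))} (hl : ∀ q ∈ l, Mover u M ρ K L q) {η : ℝ} (hη : 0 ≤ η)
    (hηρ : η ≤ ρ) (a : ℝ) (y : E) : u (mvs η l a y) = u y + tot η l a y := by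
  induction l generalizing y with
  | nil => simp [mvs, tot]
  | cons q l ih =>
    show u (mvs η l a (mv η q a y)) = u y + (cp (η * q.2 y) a + tot η l a (mv η q a y))
    rw [ih (fun q' hq' => hl q' (List.mem_cons_of_mem _ hq')),
      u_mv (hl q (List.mem_cons_self)) hη hηρ]
    ring

theorem mem_mvs {l : List (E × (E → ℝ))} (hl : ∀ q ∈ l, Mover u M ρ K L q) {η : ℝ} (hη : 0 ≤ η)
    (hηρ : η ≤ ρ) (a : ℝ) (y : E) (i : ι) : mvs η l a y ∈ M i ↔ y ∈ M i := by
  induction l generalizing y with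
  | nil => rfl
  | cons q l ih =>
    show mvs η l a (mv η q a y) ∈ M i ↔ y ∈ M i
    rw [ih (fun q' hq' => hl q' (List.mem_cons_of_mem _ hq')),
      mem_mv (hl q (List.mem_cons_self)) hη hηρ]

/-! ### Lipschitz estimates -/

theorem norm_mv_sub_le {q : E × (E → ℝ)} (hq : Mover u M ρ K L q) (hK : 0 ≤ K) {η : ℝ} (hη : 0 ≤ η)
    (a a' : ℝ) (y y' : E) :
    ‖mv η q a y - mv η q a' y' - (y - y')‖ ≤ K * (η * L * ‖y - y'‖ + |a - a'|) := by
  have h1 : mv η q a y - mv η q a' y' - (y - y') =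
      (cp (η * q.2 y) a - cp (η * q.2 y') a') • q.1 := by
    unfold mv
    rw [sub_smul]; abel
  rw [h1, norm_smul, Real.norm_eq_abs, mul_comm]
  have h2 : |cp (η * q.2 y) a - cp (η * q.2 y') a'| ≤ η * L * ‖y - y'‖ + |a - a'| := by
    refine (abs_cp_sub_le _ _ _ _).trans ?_
    have h3 : |η * q.2 y - η * q.2 y'| ≤ η * L * ‖y - y'‖ := by
      rw [← mul_sub, abs_mul, abs_of_nonneg hη, mul_assoc]
      exact mul_le_mul_of_nonneg_left (hq.lip y y') hη
    linarith
  exact mul_le_mul hq.vec h2 (abs_nonneg _) hK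

theorem exists_lip {l : List (E × (E → ℝ))} (hl : ∀ q ∈ l, Mover u M ρ K L q) (hK : 0 ≤ K)
    (hL : 0 ≤ L) : ∃ C, 0 ≤ C ∧ ∀ η, 0 ≤ η → η ≤ 1 → ∀ a a' y y',
      ‖mvs η l a y - mvs η l a' y' - (y - y')‖ ≤ C * (η * ‖y - y'‖ + |a - a'|) := by
  induction l with
  | nil =>
    refine ⟨0, le_rfl, fun η _ _ a a' y y' => ?_⟩
    simp [mvs]
  | cons q l ih =>
    obtain ⟨C, hC, h⟩ := ih fun q' hq' => hl q' (List.mem_cons_of_mem _ hq')
    refine ⟨C * (1 + L * K) + K * L + (C * K + C + K), by positivity, ?_⟩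
    intro η hη hη1 a a' y y'
    set z := mv η q a y with hz
    set z' := mv η q a' y' with hz'
    have h1 : ‖z - z' - (y - y')‖ ≤ K * (η * L * ‖y - y'‖ + |a - a'|) :=
      norm_mv_sub_le (hl q (List.mem_cons_self)) hK hη a a' y y'
    have h2 : ‖z - z'‖ ≤ (1 + L * K) * ‖y - y'‖ + K * |a - a'| := by
      have h3 : ‖z - z'‖ ≤ ‖z - z' - (y - y')‖ + ‖y - y'‖ := by
        have := norm_add_le (z - z' - (y - y')) (y - y')
        simpa using this
      have h4 : K * (η * L * ‖y - y'‖) ≤ K * (1 * L * ‖y - y'‖) := by gcongr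
      nlinarith
    have h5 := h η hη hη1 a a' z z'
    have h6 : mvs η (q :: l) a y - mvs η (q :: l) a' y' - (y - y') =
        (mvs η l a z - mvs η l a' z' - (z - z')) + (z - z' - (y - y')) := by
      show mvs η l a z - mvs η l a' z' - (y - y') = _
      abel
    rw [h6]
    refine (norm_add_le _ _).trans ?_
    have hn := norm_nonneg (y - y')
    have ha := abs_nonneg (a - a')
    have h7 : η * ‖z - z'‖ ≤ η * ((1 + L * K) * ‖y - y'‖) + K * |a - a'| := by
      have h8 : η * (K * |a - a'|) ≤ 1 * (K * |a - a'|) :=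
        mul_le_mul_of_nonneg_right hη1 (by positivity)
      nlinarith
    have h9 : C * (η * ‖z - z'‖ + |a - a'|) ≤
        C * (η * ((1 + L * K) * ‖y - y'‖) + K * |a - a'| + |a - a'|) := by gcongr
    have e1 : 0 ≤ C * K * |a - a'| := by positivity
    have e2 : 0 ≤ (C * K + C + K) * (η * ‖y - y'‖) := by positivity
    have e3 : 0 ≤ (C * (1 + L * K) + K * L) * |a - a'| := by positivity
    nlinarith

theorem exists_lip_tot {l : List (E × (E → ℝ))} (hl : ∀ q ∈ l, Mover u M ρ K L q) (hK : 0 ≤ K)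
    (hL : 0 ≤ L) : ∃ C, 0 ≤ C ∧ ∀ η, 0 ≤ η → η ≤ 1 →
      (∀ a y y', |tot η l a y - tot η l a y'| ≤ C * (η * ‖y - y'‖)) ∧
      (∀ a a' y, |tot η l a y - tot η l a' y| ≤ C * |a - a'|) := by
  induction l with
  | nil =>
    refine ⟨0, le_rfl, fun η _ _ => ⟨fun a y y' => ?_, fun a a' y => ?_⟩⟩ <;> simp [tot]
  | cons q l ih =>
    obtain ⟨C, hC, h⟩ := ih fun q' hq' => hl q' (List.mem_cons_of_mem _ hq')
    have hq := hl q (List.mem_cons_self)
    refine ⟨L + C * (1 + L * K) + (1 + C * K + C), by positivity, fun η hη hη1 => ⟨?_, ?_⟩⟩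
    · intro a y y'
      set z := mv η q a y with hz
      set z' := mv η q a y' with hz'
      have h1 : ‖z - z' - (y - y')‖ ≤ K * (η * L * ‖y - y'‖ + |a - a|) :=
        norm_mv_sub_le hq hK hη a a y y'
      rw [sub_self, abs_zero, add_zero] at h1
      have hn := norm_nonneg (y - y')
      have h2 : ‖z - z'‖ ≤ (1 + L * K) * ‖y - y'‖ := by
        have h3 : ‖z - z'‖ ≤ ‖z - z' - (y - y')‖ + ‖y - y'‖ := by
          have := norm_add_le (z - z' - (y - y')) (y - y')
          simpa using this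
        have h4 : K * (η * L * ‖y - y'‖) ≤ K * (1 * L * ‖y - y'‖) := by gcongr
        nlinarith
      have h5 := (h η hη hη1).1 a z z'
      have h6 : tot η (q :: l) a y - tot η (q :: l) a y' =
          (cp (η * q.2 y) a - cp (η * q.2 y') a) + (tot η l a z - tot η l a z') := by
        show cp (η * q.2 y) a + tot η l a z - (cp (η * q.2 y') a + tot η l a z') = _
        ring
      rw [h6]
      refine (abs_add_le _ _).trans ?_
      have h7 : |cp (η * q.2 y) a - cp (η * q.2 y') a| ≤ η * L * ‖y - y'‖ := by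
        refine (abs_cp_sub_le _ _ _ _).trans ?_
        rw [sub_self, abs_zero, add_zero, ← mul_sub, abs_mul, abs_of_nonneg hη, mul_assoc]
        exact mul_le_mul_of_nonneg_left (hq.lip y y') hη
      have h8 : C * (η * ‖z - z'‖) ≤ C * (η * ((1 + L * K) * ‖y - y'‖)) := by gcongr
      have e1 : 0 ≤ (1 + C * K + C) * (η * ‖y - y'‖) := by positivity
      nlinarith
    · intro a a' y
      set z := mv η q a y with hz
      set z' := mv η q a' y with hz'
      have h1 : ‖z - z' - (y - y)‖ ≤ K * (η * L * ‖y - y‖ + |a - a'|) :=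
        norm_mv_sub_le hq hK hη a a' y y
      simp only [sub_self, norm_zero, mul_zero, zero_add, sub_zero] at h1
      have h5 := (h η hη hη1).1 a z z'
      have h5' := (h η hη hη1).2 a a' z'
      have h6 : tot η (q :: l) a y - tot η (q :: l) a' y =
          (cp (η * q.2 y) a - cp (η * q.2 y) a') + ((tot η l a z - tot η l a z') +
            (tot η l a z' - tot η l a' z')) := by
        show cp (η * q.2 y) a + tot η l a z - (cp (η * q.2 y) a' + tot η l a' z') = _
        ring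
      rw [h6]
      refine (abs_add_le _ _).trans ?_
      have h7 := abs_cp_sub_le_right (η * q.2 y) a a'
      have h9 := abs_add_le (tot η l a z - tot η l a z') (tot η l a' z' - tot η l a' z')
      have h10 : |tot η l a z - tot η l a z' + (tot η l a z' - tot η l a' z')| ≤
          |tot η l a z - tot η l a z'| + |tot η l a z' - tot η l a' z'| := abs_add_le _ _
      have ha := abs_nonneg (a - a')
      have h8 : C * (η * ‖z - z'‖) ≤ C * (1 * (K * |a - a'|)) := by gcongr
      have e1 : 0 ≤ (L + C * (1 + L * K)) * |a - a'| := by positivity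
      nlinarith

/-- lower bounds for the change of the level -/
theorem exists_mono {l : List (E × (E → ℝ))} (hl : ∀ q ∈ l, Mover u M ρ K L q) (hK : 0 ≤ K)
    (hL : 0 ≤ L) : ∃ C, 0 ≤ C ∧ ∀ η, 0 ≤ η → η ≤ 1 → ∀ a a' y, a' ≤ a →
      - (C * η * (a - a')) ≤ tot η l a y - tot η l a' y ∧
      (|a| ≤ η → |a'| ≤ η → (∃ q ∈ l, ∀ y', ‖y' - y‖ ≤ C * η → q.2 y' = 1) →
        (a - a') - C * η * (a - a') ≤ tot η l a y - tot η l a' y) := by
  induction l with
  | nil =>
    refine ⟨0, le_rfl, fun η _ _ a a' y _ => ⟨by simp [tot], ?_⟩⟩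
    rintro - - ⟨q, hq, -⟩
    exact absurd hq (List.not_mem_nil)
  | cons q l ih =>
    obtain ⟨C, hC, h⟩ := ih fun q' hq' => hl q' (List.mem_cons_of_mem _ hq')
    obtain ⟨C', hC', h'⟩ := exists_lip_tot (fun q' hq' => hl q' (List.mem_cons_of_mem _ hq')) hK hL
    have hq := hl q (List.mem_cons_self)
    refine ⟨C + C' * K + K, by positivity, fun η hη hη1 a a' y haa => ?_⟩
    set z := mv η q a y with hz
    set z' := mv η q a' y with hz'
    have h1 : ‖z - z' - (y - y)‖ ≤ K * (η * L * ‖y - y‖ + |a - a'|) :=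
      norm_mv_sub_le hq hK hη a a' y y
    simp only [sub_self, norm_zero, mul_zero, zero_add, sub_zero] at h1
    rw [abs_of_nonneg (sub_nonneg.2 haa)] at h1
    have h5 := (h' η hη hη1).1 a z z'
    have h6 : tot η (q :: l) a y - tot η (q :: l) a' y =
        (cp (η * q.2 y) a - cp (η * q.2 y) a') + ((tot η l a z - tot η l a z') +
          (tot η l a z' - tot η l a' z')) := by
      show cp (η * q.2 y) a + tot η l a z - (cp (η * q.2 y) a' + tot η l a' z') = _
      ring
    have h8 : C' * (η * ‖z - z'‖) ≤ C' * (η * (K * (a - a'))) := by gcongr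
    have h9 := neg_le_of_abs_le h5
    have hd : 0 ≤ a - a' := sub_nonneg.2 haa
    have hm := cp_mono (η * q.2 y) haa
    have e1 : 0 ≤ K * η * (a - a') := by positivity
    have e2 : 0 ≤ C' * K * η * (a - a') := by positivity
    refine ⟨?_, fun ha ha' hfull => ?_⟩
    · have h10 := (h η hη hη1 a a' z' haa).1
      rw [h6]
      nlinarith
    · rw [h6]
      obtain ⟨q', hq', hfull⟩ := hfull
      rcases List.mem_cons.1 hq' with rfl | hq'
      · -- the head is the full mover
        have h11 : q'.2 y = 1 := hfull y (by rw [sub_self, norm_zero]; positivity)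
        have h10 := (h η hη hη1 a a' z' haa).1
        rw [h11, mul_one, cp_of_abs_le ha, cp_of_abs_le ha']
        nlinarith
      · have h12 : ‖z' - y‖ ≤ K * η := by
          have : z' - y = cp (η * q.2 y) a' • q.1 := by rw [hz']; unfold mv; abel
          rw [this, norm_smul, Real.norm_eq_abs, mul_comm]
          exact mul_le_mul hq.vec (abs_cp_mover hq hη a' y) (abs_nonneg _) hK
        have h10 := (h η hη hη1 a a' z' haa).2 ha ha' ⟨q', hq', fun y' hy' => hfull y' ?_⟩
        · nlinarith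
        · have : ‖y' - y‖ ≤ ‖y' - z'‖ + ‖z' - y‖ := by
            have := norm_add_le (y' - z') (z' - y)
            simpa using this
          have e3 : 0 ≤ C' * K * η := by positivity
          nlinarith

end

end P073.H936
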