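import Vale.Agent.P073.H936.Mover

/-!
# P073, H936: small moves in flow boxes, conicality and inverses
-/

open Set Metric Topology Filter

namespace P073.H936

open P073 P073.TR

variable {E : Type*} [NormedAddCommGroup E] [NormedSpace ℝ E]

/-! ### a conical bump function -/

theorem exists_conBump [FiniteDimensional ℝ E] (x : E) {r : ℝ} (hr : 0 < r) :
    ∃ (f : E → ℝ) (L : ℝ), 0 ≤ L ∧ Continuous f ∧ ConicalOn f univ ∧
      (∀ y y', |f y - f y'| ≤ L * ‖y - y'‖) ∧ (∀ y, 0 ≤ f y) ∧ (∀ y, f y ≤ 1) ∧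
      (∀ y, f y ≠ 0 → ‖y - x‖ < r) ∧ ∃ ρ > 0, ∀ y, ‖y - x‖ ≤ ρ → f y = 1 := by
  set n := Module.finrank ℝ E
  let φ : E ≃L[ℝ] (Fin n → ℝ) := (Module.finBasis ℝ E).equivFun.toContinuousLinearEquiv
  obtain ⟨c, hc, hφc⟩ : ∃ c > 0, ∀ w : E, ‖φ w‖ ≤ c * ‖w‖ := by
    refine ⟨‖(φ : E →L[ℝ] (Fin n → ℝ))‖ + 1, by positivity, fun w => ?_⟩
    have := (φ : E →L[ℝ] (Fin n → ℝ)).le_opNorm w
    have h2 : ‖(φ : E →L[ℝ] (Fin n → ℝ)) w‖ = ‖φ w‖ := rfl
    nlinarith [norm_nonneg w]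
  obtain ⟨d, hd, hφd⟩ : ∃ d > 0, ∀ w : E, ‖w‖ ≤ d * ‖φ w‖ := by
    refine ⟨‖(φ.symm : (Fin n → ℝ) →L[ℝ] E)‖ + 1, by positivity, fun w => ?_⟩
    have := (φ.symm : (Fin n → ℝ) →L[ℝ] E).le_opNorm (φ w)
    have h2 : (φ.symm : (Fin n → ℝ) →L[ℝ] E) (φ w) = w := φ.symm_apply_apply w
    rw [h2] at this
    nlinarith [norm_nonneg (φ w)]
  set κ : ℝ := r / (2 * d) with hκ
  have hκ0 : 0 < κ := by positivity
  set N : E → ℝ := fun y => ‖φ (y - x)‖ with hN
  have hNc : Continuous N := by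
    have : Continuous fun y => φ (y - x) := φ.continuous.comp (continuous_id.sub continuous_const)
    exact this.norm
  have hNcon : ConicalOn N univ := by
    have h1 : ConicalOn (fun y : E => φ (y - x)) univ := by
      have h2 : ConicalOn (fun y : E => φ y) univ :=
        conicalOn_linear (φ : E →ₗ[ℝ] (Fin n → ℝ)) isOpen_univ.conicalSet
      have h3 : ConicalOn (fun y : E => y - x) univ :=
        (conicalOn_id isOpen_univ.conicalSet).sub (conicalOn_const x isOpen_univ.conicalSet)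
      exact h2.comp h3 (mapsTo_univ _ _) (by fun_prop)
    have h4 := P073.conicalOn_norm_pi n (X := univ) isOpen_univ.conicalSet
    exact h4.comp h1 (mapsTo_univ _ _) (φ.continuous.comp
      (continuous_id.sub continuous_const)).continuousOn
  set g : E → ℝ := fun y => 2 - κ⁻¹ * N y with hg
  have hgc : Continuous g := continuous_const.sub (continuous_const.mul hNc)
  have hgcon : ConicalOn g univ := by
    have h1 := (conicalOn_const (2:ℝ) (E := E) isOpen_univ.conicalSet).sub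
      (hNcon.const_smul κ⁻¹)
    exact h1
  refine ⟨fun y => max 0 (min 1 (g y)), κ⁻¹ * c, by positivity, ?_, ?_, ?_, ?_, ?_, ?_, ?_⟩
  · exact continuous_const.max (continuous_const.min hgc)
  · have h1 := (conicalOn_const (1:ℝ) (E := E) isOpen_univ.conicalSet).rmin hgcon
      continuousOn_const hgc.continuousOn
    exact (conicalOn_const (0:ℝ) (E := E) isOpen_univ.conicalSet).rmax h1 continuousOn_const
      (continuous_const.min hgc).continuousOn
  · intro y y'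
    have h1 : |max 0 (min 1 (g y)) - max 0 (min 1 (g y'))| ≤ |g y - g y'| := by
      refine (abs_max_sub_max_le_max _ _ _ _).trans ?_
      rw [sub_self, abs_zero]
      refine max_le (abs_nonneg _) ((abs_min_sub_min_le_max _ _ _ _).trans ?_)
      rw [sub_self, abs_zero]
      exact max_le (abs_nonneg _) le_rfl
    refine h1.trans ?_
    have h2 : g y - g y' = κ⁻¹ * (N y' - N y) := by rw [hg]; ring
    rw [h2, abs_mul, abs_of_pos (inv_pos.2 hκ0), mul_assoc]
    refine mul_le_mul_of_nonneg_left ?_ (inv_pos.2 hκ0).le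
    have h3 : |N y' - N y| ≤ ‖φ (y' - x) - φ (y - x)‖ := abs_norm_sub_norm_le _ _
    have h4 : φ (y' - x) - φ (y - x) = φ (y' - y) := by rw [← map_sub]; congr 1; abel
    rw [h4] at h3
    refine h3.trans ((hφc _).trans ?_)
    rw [norm_sub_rev]
  · intro y; exact le_max_left _ _
  · intro y; exact max_le zero_le_one (min_le_left _ _)
  · intro y hy
    have h1 : 0 < g y := by
      by_contra h
      apply hy
      have h2 : min 1 (g y) ≤ 0 := (min_le_right _ _).trans (not_lt.1 h)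
      exact max_eq_left h2
    have h2 : κ⁻¹ * N y < 2 := by rw [hg] at h1; linarith
    have h3 : N y < 2 * κ := by
      rw [inv_mul_lt_iff₀ hκ0] at h2; linarith
    calc ‖y - x‖ ≤ d * ‖φ (y - x)‖ := hφd _
      _ < d * (2 * κ) := mul_lt_mul_of_pos_left h3 hd
      _ = r := by rw [hκ]; field_simp
  · refine ⟨κ / c, by positivity, fun y hy => ?_⟩
    have h1 : N y ≤ κ := by
      refine (hφc _).trans ?_
      calc c * ‖y - x‖ ≤ c * (κ / c) := mul_le_mul_of_nonneg_left hy hc.le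
        _ = κ := by field_simp
    have h2 : κ⁻¹ * N y ≤ 1 := by rw [inv_mul_le_iff₀ hκ0]; linarith
    have h3 : 1 ≤ g y := by rw [hg]; simp only; linarith
    show max 0 (min 1 (g y)) = 1
    rw [min_eq_left h3, max_eq_right zero_le_one]

/-- the mover of a flow box -/
theorem exists_mover [FiniteDimensional ℝ E] {ι : Type*} {u : E → ℝ} {M : ι → Set E} {x : E}
    {σ : ℝ →ₗ[ℝ] E} {r : ℝ} (h : FlowBox u M x σ r) {W : Set E} (hW : W ∈ 𝓝 x) :
    ∃ (f : E → ℝ) (ρ L δ : ℝ), 0 < ρ ∧ 0 ≤ L ∧ 0 < δ ∧ Mover u M ρ ‖σ 1‖ L (σ 1, f) ∧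
      (∀ y, ‖y - x‖ ≤ δ → f y = 1) ∧ ∀ y, f y ≠ 0 → y ∈ W := by
  obtain ⟨r', hr', hW⟩ := Metric.nhds_basis_ball.mem_iff.1 hW
  obtain ⟨f, L, hL, h1, h2, h3, h4, h5, h6, δ, hδ, h7⟩ :=
    exists_conBump x (lt_min h.pos hr')
  have hσ : ∀ s : ℝ, σ s = s • σ 1 := fun s => by rw [← map_smul, smul_eq_mul, mul_one]
  have hb : ∀ y, f y ≠ 0 → ‖y - x‖ < r := fun y hy => (h6 y hy).trans_le (min_le_left _ _)
  refine ⟨f, r / 2, L, δ, half_pos h.pos, hL, hδ,
    ⟨h1, h2, h3, h4, h5, le_rfl, ?_, ?_⟩, h7, ?_⟩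
  · intro y hy s hs
    have := h.add (y - x) s (hb y hy) (by rw [Real.norm_eq_abs]; linarith [h.pos])
    rwa [hσ, add_sub_cancel] at this
  · intro i y hy s hs
    have := h.iff i (y - x) s (hb y hy) (by rw [Real.norm_eq_abs]; linarith [h.pos])
    rwa [hσ, add_sub_cancel] at this
  · intro y hy
    apply hW
    rw [mem_ball, dist_eq_norm]
    exact (h6 y hy).trans_le (min_le_right _ _)

section
variable {ι : Type*} {u : E → ℝ} {M : ι → Set E} {ρ K L : ℝ}

theorem Mover.mono {ρ' K' L' : ℝ} {q : E × (E → ℝ)} (h : Mover u M ρ K L q) (hρ : ρ' ≤ ρ)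
    (hK : K ≤ K') (hL : L ≤ L') : Mover u M ρ' K' L' q where
  cont := h.cont
  con := h.con
  lip y y' := (h.lip y y').trans (mul_le_mul_of_nonneg_right hL (norm_nonneg _))
  nonneg := h.nonneg
  le_one := h.le_one
  vec := h.vec.trans hK
  box y hy s hs := h.box y hy s (hs.trans hρ)
  inv i y hy s hs := h.inv i y hy s (hs.trans hρ)

/-- a finite list of movers, full on a neighbourhood of a compact set -/
theorem exists_movers [FiniteDimensional ℝ E] {N : Set E} (hN : IsCompact N) {W : Set E}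
    (hW : IsOpen W) (hNW : N ⊆ W)
    (hbox : ∀ x ∈ N, ∃ (σ : ℝ →ₗ[ℝ] E) (r : ℝ), FlowBox u M x σ r) :
    ∃ (l : List (E × (E → ℝ))) (ρ K L δ : ℝ) (O : Set E), 0 < ρ ∧ 0 ≤ K ∧ 0 ≤ L ∧ 0 < δ ∧
      (∀ q ∈ l, Mover u M ρ K L q) ∧ IsOpen O ∧ N ⊆ O ∧
      (∀ y ∈ O, ∃ q ∈ l, ∀ y', ‖y' - y‖ ≤ δ → q.2 y' = 1) ∧
      ∀ q ∈ l, ∀ y, q.2 y ≠ 0 → y ∈ W := by
  classical
  have h1 : ∀ x ∈ N, ∃ (q : E × (E → ℝ)) (ρ K L δ : ℝ), 0 < ρ ∧ 0 ≤ K ∧ 0 ≤ L ∧ 0 < δ ∧
      Mover u M ρ K L q ∧ (∀ y, ‖y - x‖ ≤ δ → q.2 y = 1) ∧ ∀ y, q.2 y ≠ 0 → y ∈ W := by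
    intro x hx
    obtain ⟨σ, r, hb⟩ := hbox x hx
    obtain ⟨f, ρ, L, δ, h1, h2, h3, h4, h5, h6⟩ := exists_mover hb (hW.mem_nhds (hNW hx))
    exact ⟨(σ 1, f), ρ, ‖σ 1‖, L, δ, h1, norm_nonneg _, h2, h3, h4, h5, h6⟩
  choose! q ρ K L δ hρ hK hL hδ hm hf hs using h1
  obtain ⟨T, hTN, hT⟩ := hN.elim_nhds_subcover (fun x => ball x (δ x / 2))
    (fun x hx => ball_mem_nhds x (half_pos (hδ x hx)))
  rcases T.eq_empty_or_nonempty with hT0 | hT0
  · refine ⟨[], 1, 0, 0, 1, ∅, one_pos, le_rfl, le_rfl, one_pos, by simp, isOpen_empty, ?_,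
      by simp, by simp⟩
    rw [hT0] at hT
    simpa using hT
  obtain ⟨ρ₀, hρ₀, h1⟩ : ∃ ρ₀ > 0, ∀ x ∈ T, ρ₀ ≤ ρ x :=
    ⟨T.inf' hT0 ρ, (Finset.lt_inf'_iff _).2 fun x hx => hρ x (hTN x hx),
      fun x hx => Finset.inf'_le _ hx⟩
  obtain ⟨δ₀, hδ₀, h2⟩ : ∃ δ₀ > 0, ∀ x ∈ T, δ₀ ≤ δ x :=
    ⟨T.inf' hT0 δ, (Finset.lt_inf'_iff _).2 fun x hx => hδ x (hTN x hx),
      fun x hx => Finset.inf'_le _ hx⟩
  obtain ⟨K₀, hK₀, h3⟩ : ∃ K₀, 0 ≤ K₀ ∧ ∀ x ∈ T, K x ≤ K₀ :=
    ⟨T.sup' hT0 K, by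
      obtain ⟨x, hx⟩ := hT0
      exact (hK x (hTN x hx)).trans (Finset.le_sup' _ hx),
      fun x hx => Finset.le_sup' _ hx⟩
  obtain ⟨L₀, hL₀, h4⟩ : ∃ L₀, 0 ≤ L₀ ∧ ∀ x ∈ T, L x ≤ L₀ :=
    ⟨T.sup' hT0 L, by
      obtain ⟨x, hx⟩ := hT0
      exact (hL x (hTN x hx)).trans (Finset.le_sup' _ hx),
      fun x hx => Finset.le_sup' _ hx⟩
  refine ⟨T.toList.map q, ρ₀, K₀, L₀, δ₀ / 2, ⋃ x ∈ T, ball x (δ x / 2), hρ₀, hK₀, hL₀,
    half_pos hδ₀, ?_, isOpen_biUnion fun _ _ => isOpen_ball, hT, ?_, ?_⟩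
  · intro q' hq'
    obtain ⟨x, hx, rfl⟩ := List.mem_map.1 hq'
    have hx := Finset.mem_toList.1 hx
    exact (hm x (hTN x hx)).mono (h1 x hx) (h3 x hx) (h4 x hx)
  · intro y hy
    obtain ⟨x, hx, hyx⟩ := mem_iUnion₂.1 hy
    refine ⟨q x, List.mem_map.2 ⟨x, Finset.mem_toList.2 hx, rfl⟩, fun y' hy' => ?_⟩
    apply hf x (hTN x hx)
    rw [mem_ball, dist_eq_norm] at hyx
    have h5 : ‖y' - x‖ ≤ ‖y' - y‖ + ‖y - x‖ := by
      have := norm_add_le (y' - y) (y - x)
      simpa using this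
    linarith [h2 x hx]
  · intro q' hq' y hy
    obtain ⟨x, hx, rfl⟩ := List.mem_map.1 hq'
    exact hs x (hTN x (Finset.mem_toList.1 hx)) y hy

/-! ### conicality -/

theorem conicalOn_cp {F : Type*} [NormedAddCommGroup F] [NormedSpace ℝ F] {m a : F → ℝ}
    {X : Set F} (hm : ConicalOn m X) (ha : ConicalOn a X)
    (hmc : ContinuousOn m X) (hac : ContinuousOn a X) : ConicalOn (fun y => cp (m y) (a y)) X :=
  hm.neg.rmax (ha.rmin hm hac hmc) hmc.neg (hac.inf hmc)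

theorem continuous_cp : Continuous fun q : ℝ × ℝ => cp q.1 q.2 := by
  unfold cp
  fun_prop

theorem conicalOn_smul_const {F : Type*} [NormedAddCommGroup F] [NormedSpace ℝ F] {a : F → ℝ}
    {X : Set F} (ha : ConicalOn a X) (e : E) : ConicalOn (fun y => a y • e) X :=
  ha.linear_comp (LinearMap.toSpanSingleton ℝ E e)

theorem continuous_mv {q : E × (E → ℝ)} (hq : Mover u M ρ K L q) (η : ℝ) :
    Continuous fun z : E × ℝ => mv η q z.2 z.1 := by
  unfold mv
  have h1 : Continuous fun z : E × ℝ => (η * q.2 z.1, z.2) := by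
    have := hq.cont
    fun_prop
  have h2 := continuous_cp.comp h1
  exact continuous_fst.add (h2.smul continuous_const)

theorem conicalOn_mv {q : E × (E → ℝ)} (hq : Mover u M ρ K L q) (η : ℝ) :
    ConicalOn (fun z : E × ℝ => mv η q z.2 z.1) univ := by
  have hfst : ConicalOn (fun z : E × ℝ => z.1) univ :=
    conicalOn_linear (LinearMap.fst ℝ E ℝ) isOpen_univ.conicalSet
  have hsnd : ConicalOn (fun z : E × ℝ => z.2) univ :=
    conicalOn_linear (LinearMap.snd ℝ E ℝ) isOpen_univ.conicalSet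
  have h1 : ConicalOn (fun z : E × ℝ => η * q.2 z.1) univ :=
    (hq.con.comp hfst (mapsTo_univ _ _) continuous_fst.continuousOn).const_smul η
  have h2 := conicalOn_cp h1 hsnd
    ((continuous_const.mul (hq.cont.comp continuous_fst)).continuousOn) continuous_snd.continuousOn
  exact hfst.add (conicalOn_smul_const h2 q.1)

theorem conicalOn_step {q : E × (E → ℝ)} (hq : Mover u M ρ K L q) (η : ℝ) :
    ConicalOn (fun z : E × ℝ => (mv η q z.2 z.1, z.2)) univ :=
  (conicalOn_mv hq η).prodMk (conicalOn_linear (LinearMap.snd ℝ E ℝ) isOpen_univ.conicalSet)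

theorem continuous_step {q : E × (E → ℝ)} (hq : Mover u M ρ K L q) (η : ℝ) :
    Continuous (fun z : E × ℝ => (mv η q z.2 z.1, z.2)) :=
  (continuous_mv hq η).prodMk continuous_snd

theorem conicalOn_mvs {l : List (E × (E → ℝ))} (hl : ∀ q ∈ l, Mover u M ρ K L q) (η : ℝ) :
    ConicalOn (fun z : E × ℝ => mvs η l z.2 z.1) univ ∧
      Continuous (fun z : E × ℝ => mvs η l z.2 z.1) ∧
      ConicalOn (fun z : E × ℝ => tot η l z.2 z.1) univ ∧
      Continuous (fun z : E × ℝ => tot η l z.2 z.1) := by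
  induction l with
  | nil =>
    refine ⟨?_, ?_, ?_, ?_⟩
    · exact conicalOn_linear (LinearMap.fst ℝ E ℝ) isOpen_univ.conicalSet
    · exact continuous_fst
    · exact conicalOn_const (0:ℝ) isOpen_univ.conicalSet
    · exact continuous_const
  | cons q l ih =>
    obtain ⟨h1, h2, h3, h4⟩ := ih fun q' hq' => hl q' (List.mem_cons_of_mem _ hq')
    have hq := hl q (List.mem_cons_self)
    have hs := conicalOn_step hq η
    have hsc := continuous_step hq η
    have hfst : ConicalOn (fun z : E × ℝ => z.1) univ :=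
      conicalOn_linear (LinearMap.fst ℝ E ℝ) isOpen_univ.conicalSet
    have hsnd : ConicalOn (fun z : E × ℝ => z.2) univ :=
      conicalOn_linear (LinearMap.snd ℝ E ℝ) isOpen_univ.conicalSet
    have h5 : ConicalOn (fun z : E × ℝ => η * q.2 z.1) univ :=
      (hq.con.comp hfst (mapsTo_univ _ _) continuous_fst.continuousOn).const_smul η
    have h5c : Continuous (fun z : E × ℝ => η * q.2 z.1) :=
      continuous_const.mul (hq.cont.comp continuous_fst)
    have h6 := conicalOn_cp h5 hsnd h5c.continuousOn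
      continuous_snd.continuousOn
    have h6c : Continuous (fun z : E × ℝ => cp (η * q.2 z.1) z.2) :=
      continuous_cp.comp (h5c.prodMk continuous_snd)
    refine ⟨?_, ?_, ?_, ?_⟩
    · exact h1.comp hs (mapsTo_univ _ _) hsc.continuousOn
    · exact h2.comp hsc
    · exact h6.add (h3.comp hs (mapsTo_univ _ _) hsc.continuousOn)
    · exact h6c.add (h4.comp hsc)

/-! ### inverses -/

/-- for small `η` the moves are invertible, with inverse depending continuously on the parameter -/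
theorem exists_inverse [CompleteSpace E] {l : List (E × (E → ℝ))} {C η : ℝ} (hC : 0 ≤ C)
    (hη : 0 ≤ η) (hCη : C * η ≤ 1 / 2)
    (hlip : ∀ a a' y y', ‖mvs η l a y - mvs η l a' y' - (y - y')‖ ≤ C * (η * ‖y - y'‖ + |a - a'|))
    (y : E) : ∃ z : ℝ → E, Continuous z ∧ ∀ a, mvs η l a (z a) = y := by
  set g : ℝ → E → E := fun a z => y - (mvs η l a z - z) with hg
  have hcon : ∀ a, ContractingWith (1 / 2) (g a) := by
    intro a
    refine ⟨by norm_num, LipschitzWith.of_dist_le_mul fun z z' => ?_⟩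
    rw [dist_eq_norm, dist_eq_norm]
    have h1 : g a z - g a z' = - (mvs η l a z - mvs η l a z' - (z - z')) := by
      simp only [hg]; abel
    rw [h1, norm_neg]
    refine (hlip a a z z').trans ?_
    rw [sub_self, abs_zero, add_zero, ← mul_assoc]
    refine mul_le_mul_of_nonneg_right ?_ (norm_nonneg _)
    simpa using hCη
  have hfix : ∀ a, ∃ z, g a z = z := fun a => by
    obtain ⟨z, hz, -⟩ := (hcon a).exists_fixedPoint y (edist_ne_top _ _)
    exact ⟨z, hz⟩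
  choose z hz using hfix
  have hz' : ∀ a, mvs η l a (z a) = y := by
    intro a
    have := hz a
    rw [hg] at this
    simp only at this
    have h2 : y = z a + (mvs η l a (z a) - z a) := by
      rw [← sub_eq_iff_eq_add]; exact this
    rw [h2]; abel
  refine ⟨z, ?_, hz'⟩
  have hL : LipschitzWith (Real.toNNReal (2 * C)) z := by
    refine LipschitzWith.of_dist_le_mul fun a a' => ?_
    rw [Real.coe_toNNReal _ (by positivity), dist_eq_norm, Real.dist_eq]
    have h1 := hlip a a' (z a) (z a')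
    rw [hz' a, hz' a', sub_self, zero_sub, norm_neg] at h1
    have h2 : C * (η * ‖z a - z a'‖) ≤ 1 / 2 * ‖z a - z a'‖ := by
      rw [← mul_assoc]; exact mul_le_mul_of_nonneg_right hCη (norm_nonneg _)
    nlinarith
  exact hL.continuous

end

end P073.H936
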