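import Vale.Agent.P073.H936.Prod

/-!
# P073, H936: [PRODL] the level-preserving product structure of a long band

If a conical function has flow boxes at all points of the closed band `{a ≤ u ≤ b}` of a compact
set, then the band is a product, exactly with the levels of `u`, and every set of the family is
vertical.
-/

open Set Metric Topology Filter

namespace P073.H936

open P073 P073.TR

variable {E : Type*} [NormedAddCommGroup E] [NormedSpace ℝ E]

/-- the closed band between two levels -/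
def bnd (C : Set E) (u : E → ℝ) (a b : ℝ) : Set E := {x | x ∈ C ∧ u x ∈ Icc a b}

/-- level-preserving product structure of the band `[a, b]` over the level `t` -/
structure ProdOn {ι : Type*} (C : Set E) (u : E → ℝ) (M : ι → Set E) (t a b : ℝ) where
  G : ConHomeo (lev C u t ×ˢ Icc a b) (bnd C u a b)
  mem : t ∈ Icc a b
  level : ∀ z ∈ lev C u t, ∀ s ∈ Icc a b, u (G.toFun (z, s)) = s
  base : ∀ z ∈ lev C u t, G.toFun (z, t) = z
  vert : ∀ i, ∀ z ∈ lev C u t, ∀ s ∈ Icc a b, (G.toFun (z, s) ∈ M i ↔ z ∈ M i)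

namespace ProdOn

variable {ι : Type*} {C : Set E} {u : E → ℝ} {M : ι → Set E} {t a b : ℝ}

/-- the foot on the base level -/
def foot (P : ProdOn C u M t a b) (x : E) : E := (P.G.invFun x).1

theorem foot_mem (P : ProdOn C u M t a b) {x : E} (hx : x ∈ bnd C u a b) :
    P.foot x ∈ lev C u t := (P.G.mapsTo_inv hx).1

theorem mem_bnd (P : ProdOn C u M t a b) {z : E} (hz : z ∈ lev C u t) {s : ℝ} (hs : s ∈ Icc a b) :
    P.G.toFun (z, s) ∈ bnd C u a b := P.G.mapsTo ⟨hz, hs⟩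

theorem inv_eq (P : ProdOn C u M t a b) {x : E} (hx : x ∈ bnd C u a b) :
    P.G.invFun x = (P.foot x, u x) := by
  have h1 := P.G.mapsTo_inv hx
  have h2 := P.level _ h1.1 _ h1.2
  have h3 : P.G.toFun ((P.G.invFun x).1, (P.G.invFun x).2) = x := P.G.right_inv hx
  rw [h3] at h2
  exact Prod.ext rfl h2.symm

theorem foot_eq (P : ProdOn C u M t a b) {x : E} (hx : x ∈ bnd C u a b) :
    P.G.toFun (P.foot x, u x) = x := by
  rw [← P.inv_eq hx]; exact P.G.right_inv hx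

theorem foot_apply (P : ProdOn C u M t a b) {z : E} (hz : z ∈ lev C u t) {s : ℝ}
    (hs : s ∈ Icc a b) : P.foot (P.G.toFun (z, s)) = z := by
  show (P.G.invFun (P.G.toFun (z, s))).1 = z
  rw [P.G.left_inv ⟨hz, hs⟩]

theorem foot_iff (P : ProdOn C u M t a b) {x : E} (hx : x ∈ bnd C u a b) (i : ι) :
    P.foot x ∈ M i ↔ x ∈ M i := by
  have h := P.vert i _ (P.foot_mem hx) _ hx.2
  rw [P.foot_eq hx] at h
  exact h.symm

theorem conicalSet_lev' (P : ProdOn C u M t a b) : ConicalSet (lev C u t) := by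
  intro x hx
  obtain ⟨r, hr, H⟩ := P.G.conicalSet_left (x, t) ⟨hx, P.mem⟩
  refine ⟨r, hr, fun v hv hxv s hs => ?_⟩
  have h1 : ‖((v, 0) : E × ℝ)‖ ≤ r := by
    rw [Prod.norm_def, norm_zero, max_eq_left (norm_nonneg v)]; exact hv
  have h2 : ((x, t) : E × ℝ) + (v, 0) ∈ lev C u t ×ˢ Icc a b := by
    rw [Prod.mk_add_mk, add_zero]; exact ⟨hxv, P.mem⟩
  have h3 := H (v, 0) h1 h2 s hs
  simpa using h3.1

theorem continuousOn_foot (P : ProdOn C u M t a b) : ContinuousOn P.foot (bnd C u a b) :=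
  continuous_fst.comp_continuousOn P.G.cont_inv

theorem conicalOn_foot (P : ProdOn C u M t a b) : ConicalOn P.foot (bnd C u a b) :=
  P.G.conical_inv.linear_comp (LinearMap.fst ℝ E ℝ)

theorem continuousOn_u (P : ProdOn C u M t a b) : ContinuousOn u (bnd C u a b) := by
  have h : ContinuousOn (fun x => (P.G.invFun x).2) (bnd C u a b) :=
    continuous_snd.comp_continuousOn P.G.cont_inv
  exact h.congr fun x hx => by
    show u x = (P.G.invFun x).2
    rw [P.inv_eq hx]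

theorem conicalOn_u (P : ProdOn C u M t a b) : ConicalOn u (bnd C u a b) := by
  have h : ConicalOn (fun x => (P.G.invFun x).2) (bnd C u a b) :=
    P.G.conical_inv.linear_comp (LinearMap.snd ℝ E ℝ)
  exact h.congr fun x hx => by
    show u x = (P.G.invFun x).2
    rw [P.inv_eq hx]

theorem lev_sub {t' : ℝ} (ht' : t' ∈ Icc a b) : lev C u t' ⊆ bnd C u a b := fun _ hx =>
  ⟨hx.1, by rw [hx.2]; exact ht'⟩

/-- the homeomorphism of two levels along the fibres -/
theorem exists_levHomeo (P : ProdOn C u M t a b) {t' : ℝ} (ht' : t' ∈ Icc a b) :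
    ∃ L : ConHomeo (lev C u t') (lev C u t), (∀ x, L.toFun x = P.foot x) ∧
      ∀ z, L.invFun z = P.G.toFun (z, t') := by
  have hc : ConicalSet (lev C u t') := by
    have := P.conicalOn_u
    intro x hx
    obtain ⟨r, hr, h⟩ := this x (lev_sub ht' hx)
    refine ⟨r, hr, fun v hv hxv s hs => ?_⟩
    obtain ⟨h1, h2⟩ := h v hv (lev_sub ht' hxv) s hs
    refine ⟨h1.1, ?_⟩
    rw [h2, hxv.2, hx.2]; simp
  refine ⟨
    { toFun := P.foot
      invFun := fun z => P.G.toFun (z, t')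
      mapsTo := fun x hx => P.foot_mem (lev_sub ht' hx)
      mapsTo_inv := fun z hz => ⟨(P.mem_bnd hz ht').1, P.level z hz t' ht'⟩
      left_inv := fun x hx => by
        have := P.foot_eq (lev_sub ht' hx)
        rwa [hx.2] at this
      right_inv := fun z hz => P.foot_apply hz ht'
      cont := P.continuousOn_foot.mono (lev_sub ht')
      cont_inv := P.G.cont.comp (by fun_prop) fun z hz => ⟨hz, ht'⟩
      conical := P.conicalOn_foot.mono hc (lev_sub ht') }, fun _ => rfl, fun _ => rfl⟩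

/-- change of the base level -/
theorem rebase (P : ProdOn C u M t a b) {t' : ℝ} (ht' : t' ∈ Icc a b) :
    Nonempty (ProdOn C u M t' a b) := by
  obtain ⟨L, hL, hL'⟩ := P.exists_levHomeo ht'
  have h1 : ∀ z ∈ lev C u t', L.toFun z ∈ lev C u t := fun z hz => L.mapsTo hz
  refine ⟨⟨(L.prod (ConHomeo.refl (conicalSet_Icc a b))).trans P.G, ht', ?_, ?_, ?_⟩⟩
  · intro z hz s hs
    exact P.level _ (h1 z hz) s hs
  · intro z hz
    have h2 := L.left_inv hz
    rw [hL'] at h2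
    exact h2
  · intro i z hz s hs
    refine (P.vert i _ (h1 z hz) s hs).trans ?_
    show L.toFun z ∈ M i ↔ _
    rw [hL]
    exact P.foot_iff (lev_sub ht' hz) i

/-- restriction to a smaller band -/
theorem shrink (P : ProdOn C u M t a b) {a' b' : ℝ} (ha : a ≤ a') (hb : b' ≤ b)
    (ht : t ∈ Icc a' b') : Nonempty (ProdOn C u M t a' b') := by
  have hsub : Icc a' b' ⊆ Icc a b := Icc_subset_Icc ha hb
  have himg : P.G.toFun '' (lev C u t ×ˢ Icc a' b') = bnd C u a' b' := by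
    ext y
    constructor
    · rintro ⟨⟨z, s⟩, ⟨hz, hs⟩, rfl⟩
      refine ⟨(P.mem_bnd hz (hsub hs)).1, ?_⟩
      rw [P.level z hz s (hsub hs)]; exact hs
    · intro hy
      have hy' : y ∈ bnd C u a b := ⟨hy.1, hsub hy.2⟩
      exact ⟨(P.foot y, u y), ⟨P.foot_mem hy', hy.2⟩, P.foot_eq hy'⟩
  refine ⟨⟨(P.G.restr (P.conicalSet_lev'.prod (conicalSet_Icc a' b'))
    (prod_mono (Subset.refl _) hsub)).cast rfl himg, ht, ?_, ?_, ?_⟩⟩
  · intro z hz s hs
    exact P.level z hz s (hsub hs)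
  · exact P.base
  · intro i z hz s hs
    exact P.vert i z hz s (hsub hs)

/-- gluing two bands along their common level -/
theorem glue {c : ℝ} (hC : IsCompact C) (hu : ContinuousOn u C) (P : ProdOn C u M t a t)
    (Q : ProdOn C u M t t c) : Nonempty (ProdOn C u M t a c) := by
  have hat : a ≤ t := P.mem.1
  have htc : t ≤ c := Q.mem.2
  have hcl : IsClosed (lev C u t) := (isCompact_lev hC hu).isClosed
  have hclb : ∀ a b : ℝ, IsClosed (bnd C u a b) := fun a b =>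
    hu.preimage_isClosed_of_isClosed hC.isClosed isClosed_Icc
  obtain ⟨Φ, h1, h2⟩ : ∃ Φ : ConHomeo (lev C u t ×ˢ Icc a t ∪ lev C u t ×ˢ Icc t c)
      (bnd C u a t ∪ bnd C u t c), EqOn Φ.toFun P.G.toFun (lev C u t ×ˢ Icc a t) ∧
        EqOn Φ.toFun Q.G.toFun (lev C u t ×ˢ Icc t c) := by
    have hag : EqOn P.G.toFun Q.G.toFun (lev C u t ×ˢ Icc a t ∩ lev C u t ×ˢ Icc t c) := by
      rintro ⟨z, s⟩ ⟨⟨hz, hs⟩, ⟨_, hs'⟩⟩
      have h : s = t := le_antisymm hs.2 hs'.1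
      subst h
      rw [P.base z hz, Q.base z hz]
    have himg : bnd C u a t ∩ bnd C u t c ⊆
        P.G.toFun '' (lev C u t ×ˢ Icc a t ∩ lev C u t ×ˢ Icc t c) := by
      rintro y ⟨hy, hy'⟩
      have h : u y = t := le_antisymm hy.2.2 hy'.2.1
      exact ⟨(y, t), ⟨⟨⟨hy.1, h⟩, hat, le_rfl⟩, ⟨⟨hy.1, h⟩, le_rfl, htc⟩⟩, P.base y ⟨hy.1, h⟩⟩
    exact ⟨ConHomeo.glue P.G Q.G (hcl.prod isClosed_Icc) (hcl.prod isClosed_Icc) (hclb _ _)
      (hclb _ _) hag himg, ConHomeo.glue_left _ _ _ _ _ _ _ _, ConHomeo.glue_right _ _ _ _ _ _ _ _⟩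
  have e1 : lev C u t ×ˢ Icc a t ∪ lev C u t ×ˢ Icc t c = lev C u t ×ˢ Icc a c := by
    rw [← prod_union, Icc_union_Icc_eq_Icc hat htc]
  have e2 : bnd C u a t ∪ bnd C u t c = bnd C u a c := by
    ext x
    constructor
    · rintro (hx | hx)
      · exact ⟨hx.1, hx.2.1, hx.2.2.trans htc⟩
      · exact ⟨hx.1, hat.trans hx.2.1, hx.2.2⟩
    · intro hx
      rcases le_total (u x) t with h | h
      · exact Or.inl ⟨hx.1, hx.2.1, h⟩
      · exact Or.inr ⟨hx.1, h, hx.2.2⟩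
  have key : ∀ z ∈ lev C u t, ∀ s ∈ Icc a c,
      (s ∈ Icc a t ∧ Φ.toFun (z, s) = P.G.toFun (z, s)) ∨
      (s ∈ Icc t c ∧ Φ.toFun (z, s) = Q.G.toFun (z, s)) := by
    intro z hz s hs
    rcases le_total s t with h | h
    · exact Or.inl ⟨⟨hs.1, h⟩, h1 ⟨hz, hs.1, h⟩⟩
    · exact Or.inr ⟨⟨h, hs.2⟩, h2 ⟨hz, h, hs.2⟩⟩
  refine ⟨⟨Φ.cast e1 e2, ⟨hat, htc⟩, ?_, ?_, ?_⟩⟩
  · intro z hz s hs
    show u (Φ.toFun (z, s)) = s
    rcases key z hz s hs with ⟨hs', h⟩ | ⟨hs', h⟩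
    · rw [h]; exact P.level z hz s hs'
    · rw [h]; exact Q.level z hz s hs'
  · intro z hz
    show Φ.toFun (z, t) = z
    rcases key z hz t ⟨hat, htc⟩ with ⟨hs', h⟩ | ⟨hs', h⟩
    · rw [h]; exact P.base z hz
    · rw [h]; exact Q.base z hz
  · intro i z hz s hs
    show Φ.toFun (z, s) ∈ M i ↔ _
    rcases key z hz s hs with ⟨hs', h⟩ | ⟨hs', h⟩
    · rw [h]; exact P.vert i z hz s hs'
    · rw [h]; exact Q.vert i z hz s hs'

end ProdOn

variable {ι : Type*} {C : Set E} {u : E → ℝ} {M : ι → Set E}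

theorem bnd_eq_band {t η : ℝ} : bnd C u (t - η) (t + η) = band C u t η := by
  ext x
  constructor
  · rintro ⟨h1, h2, h3⟩
    exact ⟨h1, abs_le.2 ⟨by linarith, by linarith⟩⟩
  · rintro ⟨h1, h2⟩
    have := abs_le.1 h2
    exact ⟨h1, by linarith [this.1], by linarith [this.2]⟩

/-- a thin band is a product -/
theorem exists_prodOn_thin [FiniteDimensional ℝ E] {t : ℝ} (hC : IsCompact C) (i₀ : ι)
    (hi₀ : M i₀ = C) (hu : ContinuousOn u C) (huc : ConicalOn u C)
    (hbox : ∀ x ∈ lev C u t, ∃ (σ : ℝ →ₗ[ℝ] E) (r : ℝ), FlowBox u M x σ r) :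
    ∃ η > 0, Nonempty (ProdOn C u M t (t - η) (t + η)) := by
  obtain ⟨η, c, hη, -, H⟩ := prod_band hC i₀ hi₀ hu huc isOpen_univ (subset_univ _) hbox
  obtain ⟨Γ, g1, g2, g3, -, -⟩ := H η hη le_rfl
  refine ⟨η, hη, ?_⟩
  have hab : t - η < t + η := by linarith
  have h11 : (-1:ℝ) < 1 := by norm_num
  set A := ConHomeo.affIcc hab h11 with hA
  have hform : ∀ s, A.toFun s = (s - t) / η := by
    intro s
    show -1 + (s - (t - η)) / (t + η - (t - η)) * (1 - -1) = _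
    have : t + η - (t - η) = 2 * η := by ring
    rw [this]
    field_simp
    ring
  have hs : ∀ s ∈ Icc (t - η) (t + η), (s - t) / η ∈ Icc (-1:ℝ) 1 := by
    intro s hs
    rw [← hform]; exact A.mapsTo hs
  have hz' : ConicalSet (lev C u t) := conicalSet_lev huc
  set G := (((ConHomeo.refl hz').prod A).trans Γ).cast rfl (bnd_eq_band (C := C) (u := u)).symm
    with hG
  have hGf : ∀ z s, G.toFun (z, s) = Γ.toFun (z, (s - t) / η) := by
    intro z s
    show Γ.toFun (z, A.toFun s) = _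
    rw [hform]
  refine ⟨⟨G, ⟨by linarith, by linarith⟩, ?_, ?_, ?_⟩⟩
  · intro z hz s hs'
    rw [hGf, g1 z hz _ (hs s hs')]
    field_simp
    ring
  · intro z hz
    rw [hGf, sub_self, zero_div]
    exact g2 z hz
  · intro i z hz s hs'
    rw [hGf]
    exact g3 i z hz _ (hs s hs')

/-- **[PRODL].** The long band is a product. -/
theorem exists_prodOn [FiniteDimensional ℝ E] {t a b : ℝ} (hC : IsCompact C) (i₀ : ι)
    (hi₀ : M i₀ = C) (hu : ContinuousOn u C) (huc : ConicalOn u C) (ht : t ∈ Icc a b)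
    (hbox : ∀ x ∈ bnd C u a b, ∃ (σ : ℝ →ₗ[ℝ] E) (r : ℝ), FlowBox u M x σ r) :
    Nonempty (ProdOn C u M t a b) := by
  have hab : a ≤ b := ht.1.trans ht.2
  have hth : ∀ s : Icc a b, ∃ η > 0, Nonempty (ProdOn C u M s.1 (s.1 - η) (s.1 + η)) := by
    intro s
    refine exists_prodOn_thin hC i₀ hi₀ hu huc fun x hx => hbox x ⟨hx.1, ?_⟩
    rw [hx.2]; exact s.2
  choose η hη hP using hth
  set c : Icc a b → Set (Icc a b) := fun s => {y | y.1 ∈ Ioo (s.1 - η s) (s.1 + η s)} with hc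
  have hc1 : ∀ s, IsOpen (c s) := fun s => isOpen_Ioo.preimage continuous_subtype_val
  have hc2 : univ ⊆ ⋃ s, c s := fun s _ => mem_iUnion.2
    ⟨s, by simp only [hc, mem_setOf_eq, mem_Ioo]; constructor <;> linarith [hη s]⟩
  obtain ⟨q, hq0, hqm, ⟨m, hqb⟩, hq⟩ := exists_monotone_Icc_subset_open_cover_Icc hab hc1 hc2
  -- one step
  have hstep : ∀ n, Nonempty (ProdOn C u M (q n).1 (q n).1 (q (n + 1)).1) := by
    intro n
    obtain ⟨s, hs⟩ := hq n
    have hle : q n ≤ q (n + 1) := hqm (Nat.le_succ n)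
    have h1 : (q n).1 ∈ Ioo (s.1 - η s) (s.1 + η s) := hs ⟨le_rfl, hle⟩
    have h2 : (q (n + 1)).1 ∈ Ioo (s.1 - η s) (s.1 + η s) := hs ⟨hle, le_rfl⟩
    obtain ⟨P⟩ := hP s
    obtain ⟨P'⟩ := P.rebase (t' := (q n).1) (Ioo_subset_Icc_self h1)
    exact P'.shrink h1.1.le h2.2.le ⟨le_rfl, hle⟩
  have hind : ∀ n, Nonempty (ProdOn C u M (q n).1 (q 0).1 (q n).1) := by
    intro n
    induction n with
    | zero =>
      obtain ⟨P⟩ := hstep 0
      exact P.shrink le_rfl P.mem.2 ⟨le_rfl, le_rfl⟩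
    | succ n ih =>
      obtain ⟨P⟩ := ih
      obtain ⟨Q⟩ := hstep n
      obtain ⟨R⟩ := P.glue hC hu Q
      exact R.rebase ⟨R.mem.1.trans Q.mem.2, le_rfl⟩
  obtain ⟨P⟩ := hind m
  rw [hqb m le_rfl, hq0] at P
  exact P.rebase ht

end P073.H936
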