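import Vale.Agent.P073.H936.Prod
import Vale.Agent.P073.H936.Replace

/-!
# P073, H936: thin bands are disjoint unions of thick discs
-/

open Set Metric Topology Filter

namespace P073.H936

open P073 P073.TR

variable {E : Type*} [NormedAddCommGroup E] [NormedSpace ℝ E]

/-- thick discs from a product structure -/
theorem thick_of_prod {n : ℕ} {N X S R : Set E} {u : E → ℝ} {t η : ℝ} (hη : 0 < η)
    (Γ : ConHomeo (N ×ˢ Icc (-1:ℝ) 1) X) (hS : S ⊆ N) (h : ConBall n S R)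
    (hu : ∀ z ∈ N, ∀ s ∈ Icc (-1:ℝ) 1, u (Γ.toFun (z, s)) = t + η * s) :
    Thick n (Γ.toFun '' (S ×ˢ Icc (-1:ℝ) 1)) (fun x => (u x - t) / η)
      (Γ.toFun '' (R ×ˢ Icc (-1:ℝ) 1)) := by
  have h1 := thick_prod h
  have hcon : ConicalSet (S ×ˢ Icc (-1:ℝ) 1) := conicalSet_prod_Icc h.conicalSet _ _
  have hsub : (S ×ˢ Icc (-1:ℝ) 1 : Set (E × ℝ)) ⊆ N ×ˢ Icc (-1:ℝ) 1 := prod_mono hS (Subset.refl _)
  set Γ' := Γ.restr hcon hsub with hΓ'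
  refine h1.of_homeo Γ'.symm ?_ (image_mono (prod_mono h.1 (Subset.refl _))) ?_
  · intro x hx
    obtain ⟨⟨z, s⟩, ⟨hz, hs⟩, rfl⟩ := hx
    have h2 : Γ'.invFun (Γ'.toFun (z, s)) = (z, s) := Γ'.left_inv ⟨hz, hs⟩
    show (Γ'.invFun (Γ.toFun (z, s))).2 = (u (Γ.toFun (z, s)) - t) / η
    have h3 : Γ'.toFun (z, s) = Γ.toFun (z, s) := rfl
    rw [← h3, h2, h3, hu z (hS hz) s hs]
    field_simp
    ring
  · have hRS : (R ×ˢ Icc (-1:ℝ) 1 : Set (E × ℝ)) ⊆ S ×ˢ Icc (-1:ℝ) 1 :=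
      prod_mono h.1 (Subset.refl _)
    have h4 : Γ'.symm.toFun '' (Γ.toFun '' (R ×ˢ Icc (-1:ℝ) 1)) = R ×ˢ Icc (-1:ℝ) 1 := by
      rw [← image_comp]
      have h5 : EqOn (Γ'.symm.toFun ∘ Γ.toFun) id (R ×ˢ Icc (-1:ℝ) 1) := fun q hq =>
        Γ'.left_inv (hRS hq)
      rw [h5.image_eq, image_id]
    exact h4

/-- **[PROD], thick form.** If the components of the level set are `n`-balls whose boundaries lie in
one of the vertical sets (e.g. the boundary of `C`), then a thin band is a disjoint union of thick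
`n`-discs, with level function `(u - t) / η`. -/
theorem prod_thick [FiniteDimensional ℝ E] {ι J : Type*} {n : ℕ} {u : E → ℝ} {M : ι → Set E}
    {C W : Set E} {t : ℝ} (hC : IsCompact C) (i₀ : ι) (hi₀ : M i₀ = C) (hu : ContinuousOn u C)
    (huc : ConicalOn u C) (hW : IsOpen W) (hCW : lev C u t ⊆ W)
    (hbox : ∀ x ∈ lev C u t, ∃ (σ : ℝ →ₗ[ℝ] E) (r : ℝ), FlowBox u M x σ r)
    {S R : J → Set E} (hS : ∀ j, ConBall n (S j) (R j)) (hU : lev C u t = ⋃ j, S j)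
    (hd : ∀ j k, j ≠ k → Disjoint (S j) (S k)) (i₁ : ι) (hR : ∀ j, R j = S j ∩ M i₁) :
    ∃ (η₀ : ℝ) (c : ℝ), 0 < η₀ ∧ 0 ≤ c ∧ ∀ η, 0 < η → η ≤ η₀ →
      ∃ B : J → Set E, (∀ j, Thick n (B j) (fun x => (u x - t) / η) (B j ∩ M i₁)) ∧
        band C u t η = ⋃ j, B j ∧ (∀ j k, j ≠ k → Disjoint (B j) (B k)) ∧
        (∀ j, B j ∩ lev C u t = S j) ∧ (∀ j, ∀ x ∈ B j, ∃ z ∈ S j, ‖x - z‖ ≤ c * η ∧
          ∀ i, x ∈ M i ↔ z ∈ M i) ∧ band C u t η ⊆ W := by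
  obtain ⟨η₀, c, hη₀, hc, H⟩ := prod_band hC i₀ hi₀ hu huc hW hCW hbox
  refine ⟨η₀, c, hη₀, hc, fun η hη hηη => ?_⟩
  obtain ⟨Γ, h1, h2, h3, h4, h5⟩ := H η hη hηη
  have hSN : ∀ j, S j ⊆ lev C u t := fun j => hU ▸ subset_iUnion S j
  refine ⟨fun j => Γ.toFun '' (S j ×ˢ Icc (-1:ℝ) 1), fun j => ?_, ?_, ?_, ?_, ?_, h5⟩
  · have h6 : Γ.toFun '' (S j ×ˢ Icc (-1:ℝ) 1) ∩ M i₁ = Γ.toFun '' (R j ×ˢ Icc (-1:ℝ) 1) := by
      ext x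
      constructor
      · rintro ⟨⟨⟨z, s⟩, ⟨hz, hs⟩, rfl⟩, hx⟩
        refine ⟨(z, s), ⟨?_, hs⟩, rfl⟩
        rw [hR]
        exact ⟨hz, (h3 i₁ z (hSN j hz) s hs).1 hx⟩
      · rintro ⟨⟨z, s⟩, ⟨hz, hs⟩, rfl⟩
        simp only at hz
        rw [hR] at hz
        exact ⟨⟨(z, s), ⟨hz.1, hs⟩, rfl⟩, (h3 i₁ z (hSN j hz.1) s hs).2 hz.2⟩
    rw [h6]
    exact thick_of_prod hη Γ (hSN j) (hS j) h1
  · have h6 : Γ.toFun '' (lev C u t ×ˢ Icc (-1:ℝ) 1) = ⋃ j, Γ.toFun '' (S j ×ˢ Icc (-1:ℝ) 1) := by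
      rw [← image_iUnion, ← iUnion_prod_const, ← hU]
    rw [← h6]
    exact Γ.image_eq.symm
  · intro j k hjk
    rw [disjoint_left]
    rintro _ ⟨⟨z, s⟩, ⟨hz, hs⟩, rfl⟩ ⟨⟨z', s'⟩, ⟨hz', hs'⟩, he⟩
    have h6 := Γ.injOn (show (z', s') ∈ lev C u t ×ˢ Icc (-1:ℝ) 1 from ⟨hSN k hz', hs'⟩)
      (show (z, s) ∈ lev C u t ×ˢ Icc (-1:ℝ) 1 from ⟨hSN j hz, hs⟩) he
    rw [Prod.mk.injEq] at h6
    exact disjoint_left.1 (hd j k hjk) hz (h6.1 ▸ hz')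
  · intro j
    ext x
    constructor
    · rintro ⟨⟨⟨z, s⟩, ⟨hz, hs⟩, rfl⟩, hx⟩
      have h6 := h1 z (hSN j hz) s hs
      rw [hx.2] at h6
      have h7 : s = 0 := by
        have : η * s = 0 := by linarith
        rcases mul_eq_zero.1 this with h | h
        · exact absurd h hη.ne'
        · exact h
      rw [h7, h2 z (hSN j hz)]
      exact hz
    · intro hx
      exact ⟨⟨(x, 0), ⟨hx, by norm_num, by norm_num⟩, h2 x (hSN j hx)⟩, hSN j hx⟩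
  · rintro j _ ⟨⟨z, s⟩, ⟨hz, hs⟩, rfl⟩
    exact ⟨z, hz, h4 z (hSN j hz) s hs, fun i => h3 i z (hSN j hz) s hs⟩

end P073.H936
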