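import Vale.Agent.P073.H880.Hook1

/-!
# P073, block H936: [RT-HOOK], sets which miss the open drawn cells, after the one-family hook
-/

open Set Metric Topology Filter

namespace P073.H936.K3

open P073 P073.H936 P073.H880 P073.H669 P073.H579

variable {ι : Type*} {E : Type} [NormedAddCommGroup E] [NormedSpace ℝ E]
  {side : ι → Bool} {ax : Bool → Fin 3} {lo hi : Fin 3 → ℝ} {c w : ι → ℝ} {U : Set E} {Q : Type}

namespace BoxK

variable {D : BoxK side ax lo hi c w U Q} [Fintype ι]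

/-- a point of a new band which is in no open cell is on an old fibre -/
theorem Tube.exists_co {g : ConHomeo U (Icc lo hi)} (T : D.Tube g) {i : ι} {x : E}
    (hx : x ∈ U) (hV : ∀ q, x ∉ interior (D.K.C q))
    (h1 : |g.toFun x (ax (side i)) - c i| ≤ w i) :
    ∃ z ∈ D.pre.co i, ∃ t ∈ Icc (-1:ℝ) 1, (D.pre.Γ i).toFun (z, t) = x ∧
      (D.pre.Γ' i).toFun (z, t) = x := by
  obtain ⟨z, hz, t, ht, -, -, hzt, -⟩ := T.exists_foot hx hx h1 h1 fun l _ => rfl
  have hco : z ∈ D.pre.co i := by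
    rcases hz with hz | hz
    · exact hz
    · obtain ⟨k, hz⟩ := mem_iUnion.1 hz
      have e := D.pre.Γ'_cap i k hz ht
      have hΔ : (D.pre.G i k).toFun (z, t) ∈ D.pre.Δ i k := (D.pre.G i k).mapsTo ⟨hz, ht⟩
      rcases D.pre.cap_sub i k hΔ with h4 | h4
      · exact absurd h4 (by rw [← e, hzt]; exact hV (D.pre.cell i k))
      · exact D.pre.γ_co i k.2 (D.pre.mem_γ_of i k hz ht h4)
  exact ⟨z, hco, t, ht, by rw [← D.pre.Γ'_co i hco ht]; exact hzt, hzt⟩

/-- **[KEEP]**: off the open cells the new bands are parts of the old bands, with the same levels -/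
theorem Tube.keep {g : ConHomeo U (Icc lo hi)} (T : D.Tube g) {i : ι} {x : E}
    (hx : x ∈ U) (hV : ∀ q, x ∉ interior (D.K.C q))
    (h1 : |g.toFun x (ax (side i)) - c i| ≤ w i) :
    |D.h.toFun x (ax (side i)) - c i| ≤ w i ∧
      D.h.toFun x (ax (side i)) = g.toFun x (ax (side i)) := by
  obtain ⟨z, hz, t, ht, h2, h3⟩ := T.exists_co hx hV h1
  have h4 := T.fib i z (D.pre.co_D' i hz) t ht
  rw [h3] at h4
  have hzD := D.pre.co_sub i hz
  have h5 : (D.pre.Γ i).toFun (z, t) = D.h.invFun (slide (ax (side i)) (c i) (w i)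
    (D.h.toFun z, t)) := dsys_fib D.H D.h i hzD t
  have hzU : z ∈ U := D.N_sub i (by
    rw [← D.pre.Γ'_zero i (D.pre.co_D' i hz)]
    exact (D.pre.Γ' i).mapsTo ⟨D.pre.co_D' i hz, H142.Pre.zero_mem_I⟩)
  have h6 : D.h.toFun x = slide (ax (side i)) (c i) (w i) (D.h.toFun z, t) := by
    rw [← h2, h5, D.h.right_inv (H880.slide_mem (D.H.ok i) (D.h.mapsTo hzU) (abs_le.2 ht))]
  have h7 : D.h.toFun x (ax (side i)) = g.toFun x (ax (side i)) := by
    rw [h6, h4, slide_self, slide_self]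
  exact ⟨by rw [h7]; exact h1, h7⟩

/-- **[FIBRE]**: the old fibre through a point which stays in the band is mapped to a new vertical
line, with the same levels -/
theorem Tube.fibre {g : ConHomeo U (Icc lo hi)} (T : D.Tube g) {i : ι} {x x' : E}
    (hx : x ∈ U) (hx' : x' ∈ U) (hV : ∀ q, x ∉ interior (D.K.C q))
    (h1 : |g.toFun x (ax (side i)) - c i| ≤ w i)
    (h2 : |D.h.toFun x' (ax (side i)) - c i| ≤ w i)
    (h3 : ∀ l, l ≠ ax (side i) → D.h.toFun x' l = D.h.toFun x l) :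
    (∀ l, l ≠ ax (side i) → g.toFun x' l = g.toFun x l) ∧
      g.toFun x' (ax (side i)) = D.h.toFun x' (ax (side i)) := by
  obtain ⟨z, hz, t, ht, h4, h5⟩ := T.exists_co hx hV h1
  have hzD := D.pre.co_sub i hz
  have hzU : z ∈ U := D.N_sub i (by
    rw [← D.pre.Γ'_zero i (D.pre.co_D' i hz)]
    exact (D.pre.Γ' i).mapsTo ⟨D.pre.co_D' i hz, H142.Pre.zero_mem_I⟩)
  have key : ∀ s ∈ Icc (-1:ℝ) 1, D.h.toFun ((D.pre.Γ i).toFun (z, s)) =
      slide (ax (side i)) (c i) (w i) (D.h.toFun z, s) := by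
    intro s hs
    have h5 : (D.pre.Γ i).toFun (z, s) = D.h.invFun (slide (ax (side i)) (c i) (w i)
      (D.h.toFun z, s)) := dsys_fib D.H D.h i hzD s
    rw [h5, D.h.right_inv (H880.slide_mem (D.H.ok i) (D.h.mapsTo hzU) (abs_le.2 hs))]
  set s := blev (ax (side i)) (c i) (w i) (D.h.toFun x') with hs
  have hw := (D.H.ok i).pos
  have hsI : s ∈ Icc (-1:ℝ) 1 := by
    rw [mem_Icc, ← abs_le, hs]
    show |(D.h.toFun x' (ax (side i)) - c i) / w i| ≤ 1
    rw [abs_div, abs_of_pos hw, div_le_one hw]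
    exact h2
  have hx1 : (D.pre.Γ i).toFun (z, s) = x' := by
    have hzN : (D.pre.Γ i).toFun (z, s) ∈ U := by
      have := (D.pre.Γ' i).mapsTo (show (z, s) ∈ D.pre.D' i ×ˢ Icc (-1:ℝ) 1 from
        ⟨D.pre.co_D' i hz, hsI⟩)
      rw [D.pre.Γ'_co i hz hsI] at this
      exact D.N_sub i this
    refine D.h.injOn hzN hx' ?_
    rw [key s hsI]
    funext l
    by_cases hl : l = ax (side i)
    · subst hl
      rw [slide_self, hs]
      show c i + (D.h.toFun x' (ax (side i)) - c i) / w i * w i = _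
      rw [div_mul_cancel₀ _ hw.ne']
      ring
    · rw [slide_ne hl, h3 l hl, ← h4, key t ht, slide_ne hl]
  have g1 := T.fib i z (D.pre.co_D' i hz) t ht
  rw [h5] at g1
  have g2 := T.fib i z (D.pre.co_D' i hz) s hsI
  rw [D.pre.Γ'_co i hz hsI, hx1] at g2
  have g3 : D.h.toFun x' = slide (ax (side i)) (c i) (w i) (D.h.toFun z, s) := by
    rw [← hx1, key s hsI]
  refine ⟨fun l hl => ?_, ?_⟩
  · rw [g1, g2, slide_ne hl, slide_ne hl]
  · rw [g2, g3, slide_self, slide_self]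

end BoxK

end P073.H936.K3
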