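import Vale.Agent.P073.H936.Planar

/-!
# P073, block H936: the input of the full switch

Two finite families of thick discs `N i` (the two families are distinguished by `side i : Bool`),
with level functions `s i`; the intersections of discs of different sides are finitely many circle
blocks `K c ≅ circle × [-1,1]²` and a set `R` of arc blocks.
-/

open Set Metric Topology Filter

namespace P073.H936

variable {E : Type*} [NormedAddCommGroup E] [NormedSpace ℝ E]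

/-- the two coordinates of the square: side `false` is the first one -/
def co (X : Bool) (p : ℝ × ℝ) : ℝ := if X then p.2 else p.1

/-- the point with coordinates `x` (side `X`) and `y` (the other side) -/
def pr (X : Bool) (x y : ℝ) : ℝ × ℝ := if X then (y, x) else (x, y)

@[simp] theorem co_pr (X : Bool) (x y : ℝ) : co X (pr X x y) = x := by cases X <;> rfl

@[simp] theorem co_not_pr (X : Bool) (x y : ℝ) : co (!X) (pr X x y) = y := by cases X <;> rfl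

@[simp] theorem co_pr_not (X : Bool) (x y : ℝ) : co X (pr (!X) x y) = y := by cases X <;> rfl

theorem pr_co (X : Bool) (p : ℝ × ℝ) : pr X (co X p) (co (!X) p) = p := by cases X <;> rfl

/-- the square -/
abbrev Sq : Set (ℝ × ℝ) := Icc (-1:ℝ) 1 ×ˢ Icc (-1:ℝ) 1

theorem co_mem {X : Bool} {p : ℝ × ℝ} (hp : p ∈ Sq) : co X p ∈ Icc (-1:ℝ) 1 := by
  cases X
  · exact hp.1
  · exact hp.2

theorem pr_mem {X : Bool} {x y : ℝ} (hx : x ∈ Icc (-1:ℝ) 1) (hy : y ∈ Icc (-1:ℝ) 1) :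
    pr X x y ∈ Sq := by
  cases X
  · exact ⟨hx, hy⟩
  · exact ⟨hy, hx⟩

theorem continuous_co (X : Bool) : Continuous (co X) := by
  cases X
  · exact continuous_fst
  · exact continuous_snd

theorem continuous_pr (X : Bool) : Continuous fun p : ℝ × ℝ => pr X p.1 p.2 := by
  cases X
  · exact continuous_id
  · exact continuous_swap

/-- the circle block -/
abbrev Blk : Set (P2 × ℝ × ℝ) := sphere (0 : P2) 1 ×ˢ Sq

/-- **Input of the full switch.** -/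
structure SwData (ι κ : Type*) (E : Type*) [NormedAddCommGroup E] [NormedSpace ℝ E] where
  side : ι → Bool
  /-- the thick discs -/
  N : ι → Set E
  /-- their level functions -/
  s : ι → E → ℝ
  φ : ∀ i, ConHomeo (N i) (TD 2)
  hφ : ∀ i, ∀ x ∈ N i, ((φ i).toFun x).2 = s i x
  N_disj : ∀ i j, i ≠ j → side i = side j → Disjoint (N i) (N j)
  /-- the two thick discs of a circle block -/
  sh : κ → Bool → ι
  sh_side : ∀ c X, side (sh c X) = X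
  /-- the circle blocks -/
  K : κ → Set E
  ψ : ∀ c, ConHomeo Blk (K c)
  hψ : ∀ c X, ∀ q ∈ Blk, s (sh c X) ((ψ c).toFun q) = co X q.2
  K_disj : ∀ c c', c ≠ c' → Disjoint (K c) (K c')
  /-- the planar annuli -/
  A : κ → Bool → Set P2
  A_ball : ∀ c X, A c X ⊆ ball 0 1
  K_vert : ∀ c X, K c = {x ∈ N (sh c X) | ((φ (sh c X)).toFun x).1 ∈ A c X}
  K_face : ∀ c X σ, ∃ Γ : Set P2, {x ∈ K c | s (sh c (!X)) x = lv σ} =
    {x ∈ N (sh c X) | ((φ (sh c X)).toFun x).1 ∈ Γ}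
  /-- the arc blocks -/
  R : Set E
  cross : ∀ i j, side i ≠ side j → N i ∩ N j ⊆ R ∪ ⋃ c, K c
  R_arc : ∀ i, ∀ x ∈ R ∩ N i, ∃ C : Set E, IsPreconnected C ∧ x ∈ C ∧ C ⊆ N i ∧
    (∀ c, Disjoint C (K c)) ∧ ∃ y ∈ C, ‖((φ i).toFun y).1‖ = 1

namespace SwData

variable {ι κ : Type*} (D : SwData ι κ E)

variable {D}

theorem K_sub (c : κ) (X : Bool) : D.K c ⊆ D.N (D.sh c X) := by
  rw [D.K_vert c X]; exact sep_subset _ _

theorem mem_K_iff {c : κ} {X : Bool} {x : E} (hx : x ∈ D.N (D.sh c X)) :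
    x ∈ D.K c ↔ ((D.φ (D.sh c X)).toFun x).1 ∈ D.A c X := by
  have h1 : x ∈ D.K c ↔ x ∈ {x ∈ D.N (D.sh c X) | ((D.φ (D.sh c X)).toFun x).1 ∈ D.A c X} := by
    rw [← D.K_vert c X]
  rw [h1]
  exact ⟨fun h => h.2, fun h => ⟨hx, h⟩⟩

/-- the slice `x_X = 0` of the square -/
theorem slice_pr (X : Bool) : ConicalOn (fun p : P2 × ℝ => (p.1, pr X 0 p.2))
    (sphere (0 : P2) 1 ×ˢ Icc (-1:ℝ) 1) := by
  have hc : ConicalSet (sphere (0 : P2) 1 ×ˢ Icc (-1:ℝ) 1) :=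
    (conicalSet_sphere_pi 2).prod (conicalSet_Icc _ _)
  have h0 : ConicalOn (fun _ : P2 × ℝ => (0:ℝ)) (sphere (0 : P2) 1 ×ˢ Icc (-1:ℝ) 1) :=
    conicalOn_const 0 hc
  cases X
  · exact (conicalOn_fst hc).prodMk (h0.prodMk (conicalOn_snd hc))
  · exact (conicalOn_fst hc).prodMk ((conicalOn_snd hc).prodMk h0)

/-- the planar annulus of a circle block, parametrised -/
theorem exists_annulus (D : SwData ι κ E) (c : κ) (X : Bool) :
    ∃ a : ConHomeo (sphere (0 : P2) 1 ×ˢ Icc (-1:ℝ) 1) (D.A c X),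
      ∀ p ∈ sphere (0 : P2) 1 ×ˢ Icc (-1:ℝ) 1, a.toFun p =
        ((D.φ (D.sh c X)).toFun ((D.ψ c).toFun (p.1, pr X 0 p.2))).1 := by
  set S : Set (P2 × ℝ) := sphere (0 : P2) 1 ×ˢ Icc (-1:ℝ) 1 with hS
  set f : P2 × ℝ → P2 := fun p =>
    ((D.φ (D.sh c X)).toFun ((D.ψ c).toFun (p.1, pr X 0 p.2))).1 with hf
  have hmem : ∀ p ∈ S, ((p.1, pr X 0 p.2) : P2 × ℝ × ℝ) ∈ Blk := fun p hp =>
    ⟨hp.1, pr_mem ⟨by norm_num, zero_le_one⟩ hp.2⟩
  have hK : ∀ p ∈ S, (D.ψ c).toFun (p.1, pr X 0 p.2) ∈ D.K c := fun p hp =>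
    (D.ψ c).mapsTo (hmem p hp)
  have hN : ∀ p ∈ S, (D.ψ c).toFun (p.1, pr X 0 p.2) ∈ D.N (D.sh c X) := fun p hp =>
    K_sub c X (hK p hp)
  have hlev : ∀ p ∈ S, ((D.φ (D.sh c X)).toFun ((D.ψ c).toFun (p.1, pr X 0 p.2))).2 = 0 := by
    intro p hp
    rw [D.hφ _ _ (hN p hp), D.hψ c X _ (hmem p hp)]
    exact co_pr X 0 p.2
  have hScomp : IsCompact S := (isCompact_sphere _ _).prod isCompact_Icc
  have c1 : ContinuousOn (fun p : P2 × ℝ => ((p.1, pr X 0 p.2) : P2 × ℝ × ℝ)) S := by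
    refine Continuous.continuousOn ?_
    cases X <;> simp only [pr, if_true, Bool.false_eq_true, if_false] <;> fun_prop
  have c2 : ContinuousOn (fun p : P2 × ℝ => (D.ψ c).toFun (p.1, pr X 0 p.2)) S :=
    (D.ψ c).cont.comp c1 hmem
  have c3 : ContinuousOn (fun p : P2 × ℝ => (D.φ (D.sh c X)).toFun
      ((D.ψ c).toFun (p.1, pr X 0 p.2))) S := (D.φ (D.sh c X)).cont.comp c2 hN
  have k2 : ConicalOn (fun p : P2 × ℝ => (D.ψ c).toFun (p.1, pr X 0 p.2)) S :=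
    ConicalOn.comp (g := (D.ψ c).toFun) (D.ψ c).conical (slice_pr X) hmem c1
  have k3 : ConicalOn (fun p : P2 × ℝ => (D.φ (D.sh c X)).toFun
      ((D.ψ c).toFun (p.1, pr X 0 p.2))) S :=
    ConicalOn.comp (g := (D.φ (D.sh c X)).toFun) (D.φ (D.sh c X)).conical k2 hN c2
  have hfc : ContinuousOn f S := continuous_fst.comp_continuousOn c3
  have hfk : ConicalOn f S := k3.linear_comp (LinearMap.fst ℝ P2 ℝ)
  have hinj : InjOn f S := by
    intro p hp q hq h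
    have h1 : (D.φ (D.sh c X)).toFun ((D.ψ c).toFun (p.1, pr X 0 p.2)) =
        (D.φ (D.sh c X)).toFun ((D.ψ c).toFun (q.1, pr X 0 q.2)) :=
      Prod.ext h ((hlev p hp).trans (hlev q hq).symm)
    have h2 := (D.φ (D.sh c X)).injOn (hN p hp) (hN q hq) h1
    have h3 := (D.ψ c).injOn (hmem p hp) (hmem q hq) h2
    rw [Prod.mk.injEq] at h3
    refine Prod.ext h3.1 ?_
    have h4 := congrArg (co (!X)) h3.2
    rwa [co_not_pr, co_not_pr] at h4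
  have himg : f '' S = D.A c X := by
    ext z
    constructor
    · rintro ⟨p, hp, rfl⟩
      exact (mem_K_iff (hN p hp)).1 (hK p hp)
    · intro hz
      have hzD : ((z, 0) : P2 × ℝ) ∈ TD 2 :=
        ⟨ball_subset_closedBall (D.A_ball c X hz), ⟨by norm_num, zero_le_one⟩⟩
      have h1 := (D.φ (D.sh c X)).mapsTo_inv hzD
      have h2 : (D.φ (D.sh c X)).toFun ((D.φ (D.sh c X)).invFun (z, 0)) = (z, 0) :=
        (D.φ (D.sh c X)).right_inv hzD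
      have h3 : (D.φ (D.sh c X)).invFun (z, 0) ∈ D.K c := by
        rw [mem_K_iff h1, h2]; exact hz
      obtain ⟨q, hq, hqz⟩ : (D.φ (D.sh c X)).invFun (z, 0) ∈ (D.ψ c).toFun '' Blk := by
        rw [(D.ψ c).image_eq]; exact h3
      have h4 : co X q.2 = 0 := by
        rw [← D.hψ c X q hq, hqz, ← D.hφ _ _ h1, h2]
      have h5 : q = (q.1, pr X 0 (co (!X) q.2)) := by
        refine Prod.ext rfl ?_
        show q.2 = pr X 0 (co (!X) q.2)
        rw [← h4, pr_co]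
      refine ⟨(q.1, co (!X) q.2), ⟨hq.1, co_mem hq.2⟩, ?_⟩
      show ((D.φ (D.sh c X)).toFun ((D.ψ c).toFun (q.1, pr X 0 (co (!X) q.2)))).1 = z
      rw [← h5, hqz, h2]
  exact ⟨ConHomeo.ofCompact hScomp f hfc hinj hfk himg, fun p _ => by
    rw [ConHomeo.ofCompact_toFun]⟩

/-- the parametrised annulus -/
noncomputable def a (D : SwData ι κ E) (c : κ) (X : Bool) :
    ConHomeo (sphere (0 : P2) 1 ×ˢ Icc (-1:ℝ) 1) (D.A c X) := (D.exists_annulus c X).choose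

theorem a_apply {c : κ} {X : Bool} {p : P2 × ℝ} (hp : p ∈ sphere (0 : P2) 1 ×ˢ Icc (-1:ℝ) 1) :
    (D.a c X).toFun p = ((D.φ (D.sh c X)).toFun ((D.ψ c).toFun (p.1, pr X 0 p.2))).1 :=
  (D.exists_annulus c X).choose_spec p hp

/-- the faces of a circle block are vertical over the boundary circles of the annulus -/
theorem mem_ring_iff {c : κ} {X σ : Bool} {x : E} (hx : x ∈ D.N (D.sh c X)) :
    ((D.φ (D.sh c X)).toFun x).1 ∈ ring (D.a c X) σ ↔ x ∈ D.K c ∧ D.s (D.sh c (!X)) x = lv σ := by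
  obtain ⟨Γ, hΓ⟩ := D.K_face c X σ
  have hΓ' : ∀ x ∈ D.N (D.sh c X), ((D.φ (D.sh c X)).toFun x).1 ∈ Γ ↔
      x ∈ D.K c ∧ D.s (D.sh c (!X)) x = lv σ := by
    intro x hx
    have h1 : x ∈ {x ∈ D.K c | D.s (D.sh c (!X)) x = lv σ} ↔
      x ∈ {x ∈ D.N (D.sh c X) | ((D.φ (D.sh c X)).toFun x).1 ∈ Γ} := by rw [hΓ]
    constructor
    · intro h; exact h1.2 ⟨hx, h⟩
    · intro h; exact (h1.1 h).2
  rw [← hΓ' x hx]
  have hxD := (D.φ (D.sh c X)).mapsTo hx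
  set z := ((D.φ (D.sh c X)).toFun x).1 with hz
  have hzD : ((z, 0) : P2 × ℝ) ∈ TD 2 := ⟨hxD.1, ⟨by norm_num, zero_le_one⟩⟩
  have hy := (D.φ (D.sh c X)).mapsTo_inv hzD
  have h2 : (D.φ (D.sh c X)).toFun ((D.φ (D.sh c X)).invFun (z, 0)) = (z, 0) :=
    (D.φ (D.sh c X)).right_inv hzD
  constructor
  · rintro ⟨⟨θ, t⟩, ⟨hθ, ht⟩, h⟩
    have ht : t = lv σ := ht
    subst ht
    have hp : ((θ, lv σ) : P2 × ℝ) ∈ sphere (0 : P2) 1 ×ˢ Icc (-1:ℝ) 1 := ⟨hθ, lv_mem σ⟩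
    rw [a_apply hp] at h
    have hblk : ((θ, pr X 0 (lv σ)) : P2 × ℝ × ℝ) ∈ Blk :=
      ⟨hθ, pr_mem ⟨by norm_num, zero_le_one⟩ (lv_mem σ)⟩
    have h3 : (D.ψ c).toFun (θ, pr X 0 (lv σ)) ∈ D.K c := (D.ψ c).mapsTo hblk
    rw [← h]
    rw [hΓ' _ (K_sub c X h3)]
    refine ⟨h3, ?_⟩
    rw [D.hψ c (!X) _ hblk]
    exact co_not_pr X 0 (lv σ)
  · intro h
    have h3 : ((D.φ (D.sh c X)).toFun ((D.φ (D.sh c X)).invFun (z, 0))).1 ∈ Γ := by
      rw [h2]; exact h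
    rw [hΓ' _ hy] at h3
    obtain ⟨q, hq, hqz⟩ : (D.φ (D.sh c X)).invFun (z, 0) ∈ (D.ψ c).toFun '' Blk := by
      rw [(D.ψ c).image_eq]; exact h3.1
    have h4 : co X q.2 = 0 := by
      rw [← D.hψ c X q hq, hqz, ← D.hφ _ _ hy, h2]
    have h6 : co (!X) q.2 = lv σ := by
      rw [← D.hψ c (!X) q hq, hqz]; exact h3.2
    refine ⟨(q.1, lv σ), ⟨hq.1, rfl⟩, ?_⟩
    rw [a_apply ⟨hq.1, lv_mem σ⟩]
    show ((D.φ (D.sh c X)).toFun ((D.ψ c).toFun (q.1, pr X 0 (lv σ)))).1 = z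
    have h5 : q = (q.1, pr X 0 (lv σ)) := by
      refine Prod.ext rfl ?_
      show q.2 = pr X 0 (lv σ)
      rw [← h4, ← h6, pr_co]
    rw [← h5, hqz, h2]

/-- the annuli on one sheet are disjoint -/
theorem A_disj {c c' : κ} {X : Bool} (hc : c ≠ c') (h : D.sh c X = D.sh c' X) :
    Disjoint (D.A c X) (D.A c' X) := by
  rw [Set.disjoint_left]
  intro z hz hz'
  have hzD : ((z, 0) : P2 × ℝ) ∈ TD 2 :=
    ⟨ball_subset_closedBall (D.A_ball c X hz), ⟨by norm_num, zero_le_one⟩⟩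
  have h1 := (D.φ (D.sh c X)).mapsTo_inv hzD
  have h2 : (D.φ (D.sh c X)).toFun ((D.φ (D.sh c X)).invFun (z, 0)) = (z, 0) :=
    (D.φ (D.sh c X)).right_inv hzD
  have h3 : (D.φ (D.sh c X)).invFun (z, 0) ∈ D.K c := by
    rw [mem_K_iff h1, h2]; exact hz
  have h4 : (D.φ (D.sh c X)).invFun (z, 0) ∈ D.K c' := by
    rw [D.K_vert c' X, ← h]
    exact ⟨h1, by rw [h2]; exact hz'⟩
  exact Set.disjoint_left.1 (D.K_disj c c' hc) h3 h4

/-- **the inner discs** -/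
theorem exists_laminar [Finite κ] (D : SwData ι κ E) :
    ∃ (e : κ → Bool → Bool) (I : κ → Bool → Set P2),
      (∀ c X, ConBall 2 (I c X) (ring (D.a c X) (!e c X))) ∧
      (∀ c X, ConBall 2 (I c X ∪ D.A c X) (ring (D.a c X) (e c X))) ∧
      (∀ c X, I c X ∩ D.A c X = ring (D.a c X) (!e c X)) ∧
      (∀ c X, I c X ∪ D.A c X ⊆ ball 0 1) ∧
      ∀ c c' X, c ≠ c' → D.sh c X = D.sh c' X →
        I c X ∪ D.A c X ⊆ I c' X \ ring (D.a c' X) (!e c' X) ∨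
        I c' X ∪ D.A c' X ⊆ I c X \ ring (D.a c X) (!e c X) ∨
        Disjoint (I c X ∪ D.A c X) (I c' X ∪ D.A c' X) := by
  have key : ∀ (X : Bool) (i : ι), ∃ (e : {c // D.sh c X = i} → Bool)
      (I : {c // D.sh c X = i} → Set P2),
      (∀ j, ConBall 2 (I j) (ring (D.a j.1 X) (!e j))) ∧
      (∀ j, ConBall 2 (I j ∪ D.A j.1 X) (ring (D.a j.1 X) (e j))) ∧
      (∀ j, I j ∩ D.A j.1 X = ring (D.a j.1 X) (!e j)) ∧ (∀ j, I j ∪ D.A j.1 X ⊆ ball 0 1) ∧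
      ∀ j k, j ≠ k → I j ∪ D.A j.1 X ⊆ I k \ ring (D.a k.1 X) (!e k) ∨
        I k ∪ D.A k.1 X ⊆ I j \ ring (D.a j.1 X) (!e j) ∨
        Disjoint (I j ∪ D.A j.1 X) (I k ∪ D.A k.1 X) := fun X i =>
    exists_inner (fun j : {c // D.sh c X = i} => D.a j.1 X) (fun j => D.A_ball j.1 X)
      (fun j k hjk => A_disj (fun h => hjk (Subtype.ext h)) (j.2.trans k.2.symm))
  choose e I h1 h2 h3 h4 h5 using key
  refine ⟨fun c X => e X (D.sh c X) ⟨c, rfl⟩, fun c X => I X (D.sh c X) ⟨c, rfl⟩,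
    fun c X => h1 X _ ⟨c, rfl⟩, fun c X => h2 X _ ⟨c, rfl⟩, fun c X => h3 X _ ⟨c, rfl⟩,
    fun c X => h4 X _ ⟨c, rfl⟩, ?_⟩
  intro c c' X hc hcc
  have h6 : ∀ i (h : D.sh c' X = i), I X i ⟨c', h⟩ = I X (D.sh c' X) ⟨c', rfl⟩ ∧
      e X i ⟨c', h⟩ = e X (D.sh c' X) ⟨c', rfl⟩ := by
    rintro i rfl; exact ⟨rfl, rfl⟩
  have h7 := h5 X (D.sh c X) ⟨c, rfl⟩ ⟨c', hcc.symm⟩ (fun h => hc (Subtype.mk.inj h))
  rw [(h6 _ hcc.symm).1, (h6 _ hcc.symm).2] at h7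
  exact h7

end SwData

end P073.H936
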