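import Vale.Agent.P073.H936.Replace

/-!
# P073, block H936: reassembling thick discs along a functional graph

Abstract form of the full switch.  *Nodes* are regions `P m` of thick discs `Ef m`; a *door* `d`
is a thick collar `J d` which joins the region `out d` to the region `inn d`, in the place of the
thick disc `Fd d` of `Ef (out d)`.  Every node is the inner side of at most one door; the nodes
which are the inner side of no door are the roots.  Then the union of the pieces below a root is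
again a thick disc.
-/

open Set Metric Topology Filter Relation

namespace P073.H936

open P073

variable {E : Type*} [NormedAddCommGroup E] [NormedSpace ℝ E]

/-! ### The graph -/

section graph

variable {ν δ : Type*} (out inn : δ → ν)

/-- `m` is a child of `n` -/
def Par (m n : ν) : Prop := ∃ d, inn d = m ∧ out d = n

variable {out inn}

theorem par_unique (hi : Function.Injective inn) : Relator.RightUnique (Par out inn) := by
  rintro m n n' ⟨d, h1, h2⟩ ⟨d', h3, h4⟩
  have := hi (h1.trans h3.symm)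
  subst this
  exact h2.symm.trans h4

theorem acc_irrefl {α : Type*} {r : α → α → Prop} {a : α} (h : Acc r a) : ¬ r a a := by
  induction h with
  | intro x _ ih => exact fun hx => ih x hx hx

/-- roots are accessible -/
theorem acc_root [Finite ν] (hi : Function.Injective inn) {r : ν} (hr : ∀ d, inn d ≠ r) :
    Acc (Par out inn) r := by
  rw [acc_iff_isEmpty_descending_chain]
  constructor
  rintro ⟨f, hf0, hf⟩
  have key : ∀ a k : ℕ, f a = f (a + k) → f 0 = f k := by
    intro a
    induction a with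
    | zero => intro k h; rw [zero_add] at h; exact h
    | succ a ih =>
      intro k h
      apply ih k
      have h1 := hf a
      have h2 := hf (a + k)
      rw [h] at h1
      rw [show a + 1 + k = a + k + 1 by omega] at h1
      exact par_unique hi h1 h2
  obtain ⟨a, b, hab, h⟩ := Finite.exists_ne_map_eq_of_infinite f
  rcases lt_or_gt_of_ne hab with h1 | h1
  · have h2 := key a (b - a) (by rw [h]; congr 1; omega)
    obtain ⟨d, hd, _⟩ := hf (b - a - 1)
    rw [show b - a - 1 + 1 = b - a by omega, ← h2, hf0] at hd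
    exact hr d hd
  · have h2 := key b (a - b) (by rw [← h]; congr 1; omega)
    obtain ⟨d, hd, _⟩ := hf (a - b - 1)
    rw [show a - b - 1 + 1 = a - b by omega, ← h2, hf0] at hd
    exact hr d hd

/-- a node is not below its child -/
theorem not_below {n m : ν} (h : Acc (Par out inn) n) (hm : Par out inn m n) :
    ¬ ReflTransGen (Par out inn) n m := fun hr =>
  acc_irrefl h.transGen (TransGen.tail' hr hm)

/-- the sets of nodes below two children are disjoint -/
theorem below_disjoint (hi : Function.Injective inn) {n m m' x : ν} (h : Acc (Par out inn) n)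
    (hm : Par out inn m n) (hm' : Par out inn m' n) (hne : m ≠ m')
    (hx : ReflTransGen (Par out inn) x m) (hx' : ReflTransGen (Par out inn) x m') : False := by
  have key : ∀ m m' : ν, Par out inn m n → Par out inn m' n → m ≠ m' →
      ReflTransGen (Par out inn) m m' → False := by
    intro m m' hm hm' hne hr
    rcases hr.cases_head with h1 | ⟨c, h1, h2⟩
    · exact hne h1
    · rw [par_unique hi h1 hm] at h2
      exact not_below h hm' h2
  rcases ReflTransGen.total_of_right_unique (par_unique hi) hx hx' with h1 | h1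
  · exact key m m' hm hm' hne h1
  · exact key m' m hm' hm hne.symm h1

theorem below_root_disjoint (hi : Function.Injective inn) {r r' x : ν} (hr : ∀ d, inn d ≠ r)
    (hr' : ∀ d, inn d ≠ r') (hne : r ≠ r')
    (hx : ReflTransGen (Par out inn) x r) (hx' : ReflTransGen (Par out inn) x r') : False := by
  have key : ∀ r r' : ν, (∀ d, inn d ≠ r) → r ≠ r' → ReflTransGen (Par out inn) r r' →
      False := by
    intro r r' hr hne h
    rcases h.cases_head with h1 | ⟨c, ⟨d, h1, _⟩, _⟩
    · exact hne h1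
    · exact hr d h1
  rcases ReflTransGen.total_of_right_unique (par_unique hi) hx hx' with h1 | h1
  · exact key r r' hr hne h1
  · exact key r' r hr' hne.symm h1

end graph

/-- data of the full switch in abstract form -/
structure Doors (k : ℕ) (ν δ : Type*) (E : Type*) [NormedAddCommGroup E] [NormedSpace ℝ E] where
  out : δ → ν
  inn : δ → ν
  /-- the regions -/
  P : ν → Set E
  /-- the lateral boundary of a region -/
  Lam : ν → Set E
  /-- the level functions of the regions -/
  lev : ν → E → ℝ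
  /-- the thick discs -/
  Ef : ν → Set E
  /-- the collars -/
  J : δ → Set E
  β : δ → E → ℝ
  /-- outer lateral boundary of the collars -/
  Lo : δ → Set E
  /-- the replaced thick discs -/
  Fd : δ → Set E
  sg : δ → ℝ
  inj : Function.Injective inn
  hsg : ∀ d, sg d = 1 ∨ sg d = -1
  P_closed : ∀ m, IsClosed (P m)
  P_conical : ∀ m, ConicalSet (P m)
  Ef_eq : ∀ m, Ef m = P m ∪ ⋃ d : {d // out d = m}, Fd d.1
  Ef_thick : ∀ d, Thick k (Ef (inn d)) (lev (inn d)) (Lam (inn d))
  Fd_thick : ∀ d, Thick k (Fd d) (lev (out d)) (Lo d)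
  Fd_P : ∀ d, Fd d ∩ P (out d) = Lo d
  Fd_disj : ∀ d d', d ≠ d' → out d = out d' → Disjoint (Fd d) (Fd d')
  J_collar : ∀ d, ∃ ψ : ConHomeo (sphere (0 : Fin k → ℝ) 1 ×ˢ (Icc (0:ℝ) 1 ×ˢ Icc (-1:ℝ) 1)) (J d),
    (∀ q ∈ sphere (0 : Fin k → ℝ) 1 ×ˢ (Icc (0:ℝ) 1 ×ˢ Icc (-1:ℝ) 1), β d (ψ.toFun q) = q.2.2) ∧
    ψ.toFun '' (sphere (0 : Fin k → ℝ) 1 ×ˢ ({0} ×ˢ Icc (-1:ℝ) 1)) = Lam (inn d) ∧
    ψ.toFun '' (sphere (0 : Fin k → ℝ) 1 ×ˢ ({1} ×ˢ Icc (-1:ℝ) 1)) = Lo d
  β_out : ∀ d, EqOn (β d) (lev (out d)) (Lo d)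
  β_inn : ∀ d, EqOn (β d) (fun x => sg d * lev (inn d) x) (Lam (inn d))
  J_disj : ∀ d d', d ≠ d' → Disjoint (J d) (J d')
  J_out : ∀ d, J d ∩ P (out d) = Lo d
  J_inn : ∀ d, J d ∩ P (inn d) = Lam (inn d)
  J_P : ∀ d m, m ≠ out d → m ≠ inn d → Disjoint (J d) (P m)
  P_disj : ∀ d m, m ≠ inn d → Disjoint (P (inn d)) (P m)

namespace Doors

variable {k : ℕ} {ν δ : Type*} (S : Doors k ν δ E)

/-- `m` is below `n` -/
def Below (m n : ν) : Prop := ReflTransGen (Par S.out S.inn) m n

/-- the union of all pieces below `n` -/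
def D (n : ν) : Set E := ⋃ m : {m // S.Below m n}, (S.P m.1 ∪ ⋃ d : {d // S.out d = m.1}, S.J d.1)

variable {S}

theorem mem_D {n : ν} {x : E} : x ∈ S.D n ↔ ∃ m, S.Below m n ∧
    (x ∈ S.P m ∨ ∃ d, S.out d = m ∧ x ∈ S.J d) := by
  simp only [D, mem_iUnion, mem_union, Subtype.exists, exists_prop]

theorem Lam_sub (d : δ) : S.Lam (S.inn d) ⊆ S.P (S.inn d) := S.J_inn d ▸ inter_subset_right

theorem Lam_subJ (d : δ) : S.Lam (S.inn d) ⊆ S.J d := S.J_inn d ▸ inter_subset_left

theorem P_sub_D (n : ν) : S.P n ⊆ S.D n := fun _ hx => mem_D.2 ⟨n, ReflTransGen.refl, Or.inl hx⟩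

/-- the recursion -/
theorem D_eq (n : ν) : S.D n = S.P n ∪ ⋃ d : {d // S.out d = n}, (S.J d.1 ∪ S.D (S.inn d.1)) := by
  ext x
  rw [mem_D]
  simp only [mem_union, mem_iUnion, Subtype.exists, exists_prop]
  constructor
  · rintro ⟨m, hm, h⟩
    rcases hm.cases_tail with h1 | ⟨c, h1, d, h2, h3⟩
    · subst h1
      rcases h with h | ⟨d, hd, h⟩
      · exact Or.inl h
      · exact Or.inr ⟨d, hd, Or.inl h⟩
    · subst h2
      exact Or.inr ⟨d, h3, Or.inr (mem_D.2 ⟨m, h1, h⟩)⟩
  · rintro (h | ⟨d, hd, h | h⟩)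
    · exact ⟨n, ReflTransGen.refl, Or.inl h⟩
    · exact ⟨n, ReflTransGen.refl, Or.inr ⟨d, hd, h⟩⟩
    · obtain ⟨m, hm, h⟩ := mem_D.1 h
      exact ⟨m, hm.tail ⟨d, rfl, hd⟩, h⟩

/-- `J d` meets the pieces below `inn d` in the lateral boundary only -/
theorem J_inter_D {n : ν} (hn : Acc (Par S.out S.inn) n) {d : δ} (hd : S.out d = n) :
    S.J d ∩ S.D (S.inn d) = S.Lam (S.inn d) := by
  apply Subset.antisymm
  · rintro x ⟨hx, hxD⟩
    obtain ⟨m, hm, h⟩ := mem_D.1 hxD
    have hpar : Par S.out S.inn (S.inn d) n := ⟨d, rfl, hd⟩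
    have hmn : m ≠ n := by rintro rfl; exact not_below hn hpar hm
    rcases h with h | ⟨d', hd', h⟩
    · by_cases hmi : m = S.inn d
      · rw [hmi] at h; exact S.J_inn d ▸ ⟨hx, h⟩
      · exact absurd h (Set.disjoint_left.1 (S.J_P d m (hd ▸ hmn) hmi) hx)
    · have hdd : d ≠ d' := by
        rintro rfl
        exact hmn (hd'.symm.trans hd)
      exact absurd h (Set.disjoint_left.1 (S.J_disj d d' hdd) hx)
  · intro x hx
    exact ⟨Lam_subJ d hx, P_sub_D _ (Lam_sub d hx)⟩

/-- `P n` meets `J d ∪ D (inn d)` in the outer boundary of `J d` only -/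
theorem P_inter {n : ν} (hn : Acc (Par S.out S.inn) n) {d : δ} (hd : S.out d = n) :
    (S.J d ∪ S.D (S.inn d)) ∩ S.P n = S.Lo d := by
  apply Subset.antisymm
  · rintro x ⟨hx | hx, hxP⟩
    · rw [← S.J_out d, hd]; exact ⟨hx, hxP⟩
    · exfalso
      obtain ⟨m, hm, h⟩ := mem_D.1 hx
      have hpar : Par S.out S.inn (S.inn d) n := ⟨d, rfl, hd⟩
      have hmn : m ≠ n := by rintro rfl; exact not_below hn hpar hm
      rcases h with h | ⟨d', hd', h⟩
      · -- `m` is the inner side of a door
        obtain ⟨d₁, hd₁⟩ : ∃ d₁, S.inn d₁ = m := by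
          rcases hm.cases_head with h1 | ⟨c, ⟨d₁, h1, _⟩, _⟩
          · exact ⟨d, h1.symm⟩
          · exact ⟨d₁, h1⟩
        subst hd₁
        exact Set.disjoint_left.1 (S.P_disj d₁ n hmn.symm) h hxP
      · have hni : n ≠ S.inn d' := by
          rintro h1
          have : ReflTransGen (Par S.out S.inn) n m := ReflTransGen.single ⟨d', h1.symm, hd'⟩
          exact not_below hn hpar (this.trans hm)
        exact Set.disjoint_left.1 (S.J_P d' n (by rw [hd']; exact hmn.symm) hni) h hxP
  · intro x hx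
    rw [← S.J_out d, hd] at hx
    exact ⟨Or.inl hx.1, hx.2⟩

/-- the pieces behind different doors are disjoint -/
theorem G_disj {n : ν} (hn : Acc (Par S.out S.inn) n) {d d' : δ} (hd : S.out d = n)
    (hd' : S.out d' = n) (hne : d ≠ d') :
    Disjoint (S.J d ∪ S.D (S.inn d)) (S.J d' ∪ S.D (S.inn d')) := by
  have hpar : ∀ {d}, S.out d = n → Par S.out S.inn (S.inn d) n := fun hd => ⟨_, rfl, hd⟩
  have hin : ∀ {d m}, S.out d = n → S.Below m (S.inn d) → m ≠ n := by
    intro d m hd hm h
    subst h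
    exact not_below hn (hpar hd) hm
  -- a collar against the pieces behind the other door
  have h1 : ∀ d d', S.out d = n → S.out d' = n → d ≠ d' → Disjoint (S.J d) (S.D (S.inn d')) := by
    intro d d' hd hd' hne
    rw [Set.disjoint_left]
    intro x hx hxD
    obtain ⟨m, hm, h⟩ := mem_D.1 hxD
    have hmn := hin hd' hm
    rcases h with h | ⟨d₁, hd₁, h⟩
    · have hmi : m ≠ S.inn d := by
        rintro rfl
        exact below_disjoint S.inj hn (hpar hd) (hpar hd') (fun h => hne (S.inj h))
          ReflTransGen.refl hm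
      exact Set.disjoint_left.1 (S.J_P d m (hd ▸ hmn) hmi) hx h
    · have : d ≠ d₁ := by
        rintro rfl
        exact hmn (hd₁.symm.trans hd)
      exact Set.disjoint_left.1 (S.J_disj d d₁ this) hx h
  rw [Set.disjoint_left]
  rintro x (hx | hx) (hx' | hx')
  · exact Set.disjoint_left.1 (S.J_disj d d' hne) hx hx'
  · exact Set.disjoint_left.1 (h1 d d' hd hd' hne) hx hx'
  · exact Set.disjoint_left.1 (h1 d' d hd' hd hne.symm) hx' hx
  · obtain ⟨m, hm, h⟩ := mem_D.1 hx
    obtain ⟨m', hm', h'⟩ := mem_D.1 hx'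
    have hmm : m ≠ m' := by
      rintro rfl
      exact below_disjoint S.inj hn (hpar hd) (hpar hd') (fun h => hne (S.inj h)) hm hm'
    have hinn : ∀ {d m}, S.Below m (S.inn d) → ∃ d₁, S.inn d₁ = m := by
      intro d m hm
      rcases hm.cases_head with h1 | ⟨c, ⟨d₁, h1, _⟩, _⟩
      · exact ⟨d, h1.symm⟩
      · exact ⟨d₁, h1⟩
    rcases h with h | ⟨e, he, h⟩ <;> rcases h' with h' | ⟨e', he', h'⟩
    · obtain ⟨d₁, rfl⟩ := hinn hm
      exact Set.disjoint_left.1 (S.P_disj d₁ m' hmm.symm) h h'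
    · by_cases h2 : m = S.inn e'
      · have : ReflTransGen (Par S.out S.inn) m m' := ReflTransGen.single ⟨e', h2.symm, he'⟩
        exact below_disjoint S.inj hn (hpar hd) (hpar hd') (fun h => hne (S.inj h)) hm
          (this.trans hm')
      · exact Set.disjoint_left.1 (S.J_P e' m (by rw [he']; exact hmm) h2) h' h
    · by_cases h2 : m' = S.inn e
      · have : ReflTransGen (Par S.out S.inn) m' m := ReflTransGen.single ⟨e, h2.symm, he⟩
        exact below_disjoint S.inj hn (hpar hd) (hpar hd') (fun h => hne (S.inj h))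
          (this.trans hm) hm'
      · exact Set.disjoint_left.1 (S.J_P e m' (by rw [he]; exact hmm.symm) h2) h h'
    · have : e ≠ e' := by
        rintro rfl
        exact hmm (he.symm.trans he')
      exact Set.disjoint_left.1 (S.J_disj e e' this) h h'

/-- the pieces below two roots meet only in the regions of the roots -/
theorem D_inter {r r' : ν} (hr : ∀ d, S.inn d ≠ r) (hr' : ∀ d, S.inn d ≠ r') (hne : r ≠ r') :
    S.D r ∩ S.D r' = S.P r ∩ S.P r' := by
  apply Subset.antisymm _ (inter_subset_inter (P_sub_D r) (P_sub_D r'))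
  rintro x ⟨hx, hx'⟩
  obtain ⟨m, hm, h⟩ := mem_D.1 hx
  obtain ⟨m', hm', h'⟩ := mem_D.1 hx'
  have hmm : m ≠ m' := by
    rintro rfl
    exact below_root_disjoint S.inj hr hr' hne hm hm'
  have hinn : ∀ {m r}, S.Below m r → m ≠ r → ∃ d₁, S.inn d₁ = m := by
    intro m r hm h
    rcases hm.cases_head with h1 | ⟨c, ⟨d₁, h1, _⟩, _⟩
    · exact absurd h1 h
    · exact ⟨d₁, h1⟩
  rcases h with h | ⟨e, he, h⟩ <;> rcases h' with h' | ⟨e', he', h'⟩
  · by_cases h1 : m = r
    · by_cases h2 : m' = r'
      · subst h1; subst h2; exact ⟨h, h'⟩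
      · obtain ⟨d₁, rfl⟩ := hinn hm' h2
        exact absurd h (Set.disjoint_left.1 (S.P_disj d₁ m hmm) h')
    · obtain ⟨d₁, rfl⟩ := hinn hm h1
      exact absurd h' (Set.disjoint_left.1 (S.P_disj d₁ m' hmm.symm) h)
  · by_cases h2 : m = S.inn e'
    · have : ReflTransGen (Par S.out S.inn) m m' := ReflTransGen.single ⟨e', h2.symm, he'⟩
      exact absurd (this.trans hm') (fun h3 => below_root_disjoint S.inj hr hr' hne hm h3)
    · exact absurd h (Set.disjoint_left.1 (S.J_P e' m (by rw [he']; exact hmm) h2) h')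
  · by_cases h2 : m' = S.inn e
    · have : ReflTransGen (Par S.out S.inn) m' m := ReflTransGen.single ⟨e, h2.symm, he⟩
      exact absurd (this.trans hm) (fun h3 => below_root_disjoint S.inj hr hr' hne h3 hm')
    · exact absurd h' (Set.disjoint_left.1 (S.J_P e m' (by rw [he]; exact hmm.symm) h2) h)
  · have : e ≠ e' := by
      rintro rfl
      exact hmm (he.symm.trans he')
    exact absurd h' (Set.disjoint_left.1 (S.J_disj e e' this) h)

/-- level functions with signs -/
structure Signed (S : Doors k ν δ E) (n : ν) (b : E → ℝ) (σ : ν → ℝ) : Prop where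
  sign : ∀ m, σ m = 1 ∨ σ m = -1
  self : σ n = 1
  onP : ∀ m, S.Below m n → EqOn b (fun x => σ m * S.lev m x) (S.P m)
  onJ : ∀ d, S.Below (S.out d) n → EqOn b (fun x => σ (S.out d) * S.β d x) (S.J d)

end Doors

end P073.H936
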